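import Vale.Agent.P355.H998.E.Lg
import Vale.Agent.P355.H147.PfSym

/-! Products of packed flags and images: legs, loops over columns. -/

namespace Vale.Agent.P355.H998.E

open Finset Matrix Vale.Agent.P355 H147
open Vale.Agent.P355.H693 (net w2c re_rec pwp net_addE net_mrg)
open Vale.Agent.P355.H129 (force force_eq)

variable {m c k l : ℕ} {B : Fin m → M6}

/-! ### symmetries -/

theorem LSym_clean {s : LSym 8 c k l} {t : Lty 8 c} (hs : s.Ok t) {x : LFlg 8 c k l}
    (hx : t.Clean x) : t.Clean (s.act x) := by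
  have h1 : ∀ p : Fin 8, t.rt (s.σ.symm p) = t.rt p := fun p => by
    have := hs.rt (s.σ.symm p); rw [Equiv.apply_symm_apply] at this; exact this.symm
  have h2 : ∀ p : Fin 8, t.L (s.σ.symm p) = t.L p := fun p => by
    have := hs.L (s.σ.symm p); rw [Equiv.apply_symm_apply] at this; exact this.symm
  have h3 : ∀ i : Fin k ⊕ Fin l, t.rt (x.port i) = true ∨ t.L (x.port i) = true := by
    intro i
    rcases i with i | j
    · exact hx.kt i
    · exact hx.br j
  refine ⟨fun p hr hl q => ?_, fun i => ?_, fun i => ?_⟩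
  · have h4 := hx.fl (s.σ p) (by rw [hs.rt]; exact hr) (by rw [hs.L]; exact hl) (s.σ q)
    constructor
    · show sgn _ * x.fl (s.σ p) (s.σ q) = 0
      rw [h4.1, mul_zero]
    · show sgn _ * x.fl (s.σ q) (s.σ p) = 0
      rw [h4.2, mul_zero]
  · show t.rt (s.σ.symm (x.port (s.π (Sum.inl i)))) = true ∨
      t.L (s.σ.symm (x.port (s.π (Sum.inl i)))) = true
    rw [h1, h2]; exact h3 _
  · show t.rt (s.σ.symm (x.port (s.π (Sum.inr i)))) = true ∨
      t.L (s.σ.symm (x.port (s.π (Sum.inr i)))) = true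
    rw [h1, h2]; exact h3 _

/-! ### legs -/

/-- ends of an image (after the involution of the type). -/
def eL (e : GD) (y : PF) (n : ℕ) : List ℕ :=
  consR (fun a => qv 8 e.i (nthL y.pt (qd e.pi a))) n []

theorem eL_eq (e : GD) (y : PF) (n : ℕ) :
    eL e y n = (List.range n).map fun a => qv 8 e.i (y.pt.getD (qd e.pi a) 0) := by
  unfold eL
  rw [consR_eq, List.append_nil]
  simp only [nthL_eq]

/-- pairs of ends. -/
def mkK (es : List ℕ) : List ℕ → ℕ → List (ℕ × ℕ) :=
  List.rec (motive := fun _ => List ℕ → ℕ → List (ℕ × ℕ)) (fun _ _ => [])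
    (fun e _ ih xs k => List.rec (motive := fun _ => List (ℕ × ℕ)) []
      (fun x xs' _ => Nat.rec (motive := fun _ => List (ℕ × ℕ))
        ((x, e) :: ih xs' 0) (fun k' _ => (e, x) :: ih xs' k') k) xs) es

theorem mkK_cons0 (e x : ℕ) (es xs : List ℕ) :
    mkK (e :: es) (x :: xs) 0 = (x, e) :: mkK es xs 0 := rfl

theorem mkK_consS (e x k : ℕ) (es xs : List ℕ) :
    mkK (e :: es) (x :: xs) (k + 1) = (e, x) :: mkK es xs k := rfl

theorem mkK_zero : ∀ (es xs : List ℕ), es.length = xs.length →
    mkK es xs 0 = (List.range es.length).map fun a => (xs.getD a 0, es.getD a 0)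
  | [], xs, _ => rfl
  | e :: es, [], h => absurd h (by simp)
  | e :: es, x :: xs, h => by
    rw [mkK_cons0, mkK_zero es xs (by simpa using h), List.length_cons, List.range_succ_eq_map,
      List.map_cons, List.map_map]
    rfl

theorem mkK_eq : ∀ (k : ℕ) (es xs : List ℕ), es.length = xs.length → k ≤ es.length →
    mkK es xs k = ((List.range k).map fun a => (es.getD a 0, xs.getD a 0))
      ++ (List.range (es.length - k)).map fun a => (xs.getD (k + a) 0, es.getD (k + a) 0)
  | 0, es, xs, h, _ => by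
    rw [mkK_zero es xs h]
    simp
  | k + 1, [], xs, h, hk => absurd hk (by simp)
  | k + 1, e :: es, [], h, hk => absurd h (by simp)
  | k + 1, e :: es, x :: xs, h, hk => by
    rw [mkK_consS, mkK_eq k es xs (by simpa using h) (by simpa using hk), List.range_succ_eq_map,
      List.map_cons, List.map_map, List.cons_append, List.length_cons, Nat.add_sub_add_right]
    refine congrArg₂ (· :: ·) rfl (congrArg₂ (· ++ ·) rfl ?_)
    refine List.map_congr_left fun a _ => ?_
    rw [Nat.add_right_comm k 1 a]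
    simp

theorem mem_mkK (es : List ℕ) : ∀ (xs : List ℕ) (k : ℕ) (z : ℕ × ℕ), z ∈ mkK es xs k →
    (z.1 ∈ es ∧ z.2 ∈ xs) ∨ (z.1 ∈ xs ∧ z.2 ∈ es) := by
  induction es with
  | nil => intro xs k z hz; exact absurd hz (by simp [mkK])
  | cons e es ih =>
    intro xs k z hz
    cases xs with
    | nil => exact absurd hz (by simp [mkK])
    | cons x xs =>
      cases k with
      | zero =>
        rw [mkK_cons0, List.mem_cons] at hz
        rcases hz with rfl | hz
        · right; simp
        · rcases ih xs 0 z hz with h | h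
          · left; exact ⟨List.mem_cons_of_mem _ h.1, List.mem_cons_of_mem _ h.2⟩
          · right; exact ⟨List.mem_cons_of_mem _ h.1, List.mem_cons_of_mem _ h.2⟩
      | succ k =>
        rw [mkK_consS, List.mem_cons] at hz
        rcases hz with rfl | hz
        · left; simp
        · rcases ih xs k z hz with h | h
          · left; exact ⟨List.mem_cons_of_mem _ h.1, List.mem_cons_of_mem _ h.2⟩
          · right; exact ⟨List.mem_cons_of_mem _ h.1, List.mem_cons_of_mem _ h.2⟩

/-- slots of the ends of an image. -/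
theorem iota_port [NeZero c] {T : TyD} {e : GD} {y : PF} (hT : T.Ok c)
    (he : e.Ok c k l T) (hy : y.Ok c k l T) (i : Fin k ⊕ Fin l) :
    (T.ty c).ι (((sy c k l e).act (y.dec c k l)).port i)
      = sl (qv 8 e.i (y.pt.getD (qd e.pi (pn k l i)) 0)) := by
  have h1 := PF.port_ok hy (pn k l ((sy c k l e).π i)) (pn_lt _)
  rw [sy_π he] at h1
  set p := y.pt.getD (qd e.pi (pn k l i)) 0 with hp
  have hp8 : p < 8 := h1.1
  apply Fin.ext
  rw [sy_iport hT he y i hp.symm hp8]
  have h3 : qv 8 e.i p < 8 := by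
    rw [← sy_iport hT he y i hp.symm hp8]; exact Fin.is_lt _
  rw [sl_val h3]

theorem eL_lt {T : TyD} {e : GD} {y : PF} (hT : T.Ok c)
    (he : e.Ok c k l T) (hy : y.Ok c k l T) : ∀ z ∈ eL e y (k + l), z < 8 := by
  intro z hz
  rw [eL_eq, List.mem_map] at hz
  obtain ⟨a, ha, rfl⟩ := hz
  rw [List.mem_range] at ha
  have h1 := PF.port_ok hy (qd e.pi a) (he.pi.1 a ha)
  set p := y.pt.getD (qd e.pi a) 0 with hp
  obtain ⟨q, hq⟩ := e.σ.surjective (sl p)
  have h4 := he.ie q q.2
  rw [← GD.σ_val he, hq, sl_val h1.1] at h4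
  rw [h4]; exact (isp_qv hT.io).1 q q.2

theorem kf_mkK [NeZero c] {T : TyD} {e : GD} {x y : PF} (hT : T.Ok c)
    (he : e.Ok c k l T) (hx : x.Ok c k l T) (hy : y.Ok c k l T) :
    kf (mkK (eL e y (k + l)) x.pt k)
      = (T.ty c).pk (x.dec c k l) ((sy c k l e).act (y.dec c k l)) := by
  have hl : (eL e y (k + l)).length = k + l := by rw [eL_eq]; simp
  have hg : ∀ a < k + l, (eL e y (k + l)).getD a 0 = qv 8 e.i (y.pt.getD (qd e.pi a) 0) := by
    intro a ha
    rw [eL_eq]
    simp [List.getD_eq_getElem?_getD, ha]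
  rw [mkK_eq k _ _ (by rw [hl, hx.kl]) (by rw [hl]; omega), hl]
  unfold kf Lty.pk
  rw [List.map_append, List.map_map, List.map_map]
  have hkl : k + l - k = l := by omega
  rw [hkl]
  congr 1
  · apply List.ext_getElem
    · simp
    · intro i h1 h2
      have hi : i < k := by simpa using h1
      simp only [List.getElem_map, List.getElem_range, List.getElem_ofFn, Function.comp]
      have e1 := iota_port hT he hy (Sum.inl ⟨i, hi⟩)
      rw [pn_inl] at e1
      rw [hg i (by omega)]
      exact Prod.ext e1.symm rfl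
  · apply List.ext_getElem
    · simp
    · intro i h1 h2
      have hi : i < l := by simpa using h1
      simp only [List.getElem_map, List.getElem_range, List.getElem_ofFn, Function.comp]
      have e1 := iota_port hT he hy (Sum.inr ⟨i, hi⟩)
      rw [pn_inr] at e1
      rw [hg (k + i) (by omega)]
      exact Prod.ext rfl e1.symm

/-! ### one product -/

/-- reading of the records. -/
def RcE (T rw : ℕ) : Rec where
  rw := rw
  fi := fun e => Nat.land e 65535
  fm := fun e => Nat.pow 6 (Nat.sub T (Nat.land (Nat.shiftRight e 16) 7))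

theorem RcE_le (T rw e : ℕ) : (RcE T rw).fm e ≤ 6 ^ T := by
  show 6 ^ (T - _) ≤ 6 ^ T
  exact Nat.pow_le_pow_right (by norm_num) (Nat.sub_le _ _)

theorem mmu_mmb2 {a b : ℕ} (ha : a = 0 ∨ a = 1) (hb : b = 0 ∨ b = 1) : mmb2 a b = mmu a b := by
  rcases ha with rfl | rfl <;> rcases hb with rfl | rfl <;> rfl

theorem sb_pwp (b : ℕ) : sb b = pwp b := rfl

theorem prod_sound [NeZero c] (hB : IsMUBs B) (hc : c ≤ 7) {T : TyD} {TT rw : ℕ}
    {cls mv : ℕ → ℕ} (hmv : ∀ i, mvOK c (mv i) = true) {e : GD} {x y : PF}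
    (hT : T.Ok c) (he : e.Ok c k l T) (hx : x.Ok c k l T)
    (hy : y.Ok c k l T) {r : ℕ}
    (hr : rcd c TT cls mv (Nat.add x.b y.b) (Nat.add k l) (mkK (eL e y (k + l)) x.pt k)
      (Nat.add x.F (img e y)) r = true) :
    (6 : ℝ) ^ TT * (sb x.b * sb y.b
        * (T.ty c).M B (x.dec c k l) ((sy c k l e).act (y.dec c k l)))
      = (mmu x.b y.b : ℝ) * (RcE TT rw).fm r * cvB B c (cls ((RcE TT rw).fi r)) := by
  have h1 := prod_rpr hT he hx hy hc ((sy c k l e).act (y.dec c k l)) (sy_col e _) (sy_net e _)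
  have hcx := PF.clean hx
  have hcy := LSym_clean (sy_ok hT he) (PF.clean hy)
  rw [Lty.M_eq (T.ty c) (TyD.ty_ok hT) hB _ _ hcx hcy, ← kf_mkK hT he hx hy]
  have hK : K8 (mkK (eL e y (k + l)) x.pt k) := by
    intro z hz
    have hx8 : ∀ p ∈ x.pt, p < 8 := fun p hp => (hx.ks p hp).1
    have hy8 := eL_lt hT he hy
    rcases mem_mkK _ _ _ _ hz with h | h
    · exact ⟨hy8 _ h.1, hx8 _ h.2⟩
    · exact ⟨hx8 _ h.1, hy8 _ h.2⟩
  have h2 := rcd_sound hB hc hmv hx.b2 hy.b2 hK h1 hr
  rw [sb_pwp, sb_pwp, h2, mmu_mmb2 hx.b2 hy.b2]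
  rfl

/-! ### loops -/

/-- images of a flag, evaluated. -/
def imF (kl : ℕ) (y : PF) (es : List GD) : (List (ℕ × List ℕ) → Bool) → Bool :=
  List.rec (motive := fun _ => (List (ℕ × List ℕ) → Bool) → Bool) (fun k => k [])
    (fun e _ ih k => force (img e y) fun I => forceL (eL e y kl) fun L =>
      ih fun t => k ((I, L) :: t)) es

theorem imF_eq (kl : ℕ) (y : PF) : ∀ (es : List GD) (k : List (ℕ × List ℕ) → Bool),
    imF kl y es k = k (es.map fun e => (img e y, eL e y kl))
  | [], _ => rfl
  | e :: es, k => by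
    have h : imF kl y (e :: es) k = force (img e y) fun I => forceL (eL e y kl) fun L =>
      imF kl y es fun t => k ((I, L) :: t) := rfl
    rw [h, force_eq, forceL_eq, imF_eq kl y es]; rfl

/-- products of a flag with a list of images; `E`: the records. -/
def grp (c TT : ℕ) (cls mv : ℕ → ℕ) (rw mk par kk kl F : ℕ) (xp : List ℕ)
    (IM : List (ℕ × List ℕ)) : ℕ → Bool :=
  List.rec (motive := fun _ => ℕ → Bool) (fun _ => true)
    (fun z _ ih E => and
      (rcd c TT cls mv par kl (mkK z.2 xp kk) (Nat.add F z.1) (Nat.land E mk))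
      (force (Nat.shiftRight E rw) ih)) IM

theorem fld_zero (w E : ℕ) : fld w E 0 = E % 2 ^ w := by
  show (E >>> (w * 0)) % 2 ^ w = _
  rw [Nat.mul_zero, Nat.shiftRight_zero]

theorem fld_succ (w E j : ℕ) : fld w E (j + 1) = fld w (Nat.shiftRight E w) j := by
  show (E >>> (w * (j + 1))) % 2 ^ w = ((E >>> w) >>> (w * j)) % 2 ^ w
  rw [← Nat.shiftRight_add, Nat.mul_succ, Nat.add_comm]

theorem grp_spec {c TT : ℕ} {cls mv : ℕ → ℕ} {w mk par kk kl F : ℕ} {xp : List ℕ}
    (hmk : mk = 2 ^ w - 1) : ∀ {IM : List (ℕ × List ℕ)} {E : ℕ},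
    grp c TT cls mv w mk par kk kl F xp IM E = true → ∀ j < IM.length,
      rcd c TT cls mv par kl (mkK (IM.getD j (0, [])).2 xp kk)
        (Nat.add F (IM.getD j (0, [])).1) (fld w E j) = true
  | [], E, _, j, hj => absurd hj (by simp)
  | z :: IM, E, h, j, hj => by
    have e1 : grp c TT cls mv w mk par kk kl F xp (z :: IM) E
        = (rcd c TT cls mv par kl (mkK z.2 xp kk) (Nat.add F z.1) (Nat.land E mk) &&
          force (Nat.shiftRight E w) (grp c TT cls mv w mk par kk kl F xp IM)) := rfl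
    rw [e1, Bool.and_eq_true, force_eq] at h
    cases j with
    | zero =>
      have e2 : Nat.land E mk = E % 2 ^ w := by
        rw [hmk]; exact Nat.and_two_pow_sub_one_eq_mod E w
      rw [fld_zero, ← e2]
      exact h.1
    | succ j =>
      rw [fld_succ]
      exact grp_spec hmk h.2 j (by simpa using hj)

/-- default flag. -/
def pf0 : PF := ⟨0, 0, 0, [], 0⟩

/-- one column: flags `xs` with the images `IM`; `W`: shift, `W'`: mask of a group of records. -/
def colR (c TT : ℕ) (cls mv : ℕ → ℕ) (rw mk kk kl W W' b : ℕ) (IM : List (ℕ × List ℕ))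
    (xs : List PF) : List ℕ → Bool :=
  List.rec (motive := fun _ => List ℕ → Bool) (fun _ => true)
    (fun x _ ih Es => List.rec (motive := fun _ => Bool) false
      (fun E Es' _ => and (force (Nat.land (Nat.shiftRight E W) W') fun E1 =>
        force (Nat.add x.b b) fun par => force x.F fun F =>
        grp c TT cls mv rw mk par kk kl F x.pt IM E1) (ih Es')) Es) xs

theorem colR_spec {c TT : ℕ} {cls mv : ℕ → ℕ} {w mk kk kl W W' b : ℕ}
    {IM : List (ℕ × List ℕ)} : ∀ {xs : List PF} {Es : List ℕ},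
    colR c TT cls mv w mk kk kl W W' b IM xs Es = true → ∀ i < xs.length,
      grp c TT cls mv w mk (Nat.add (xs.getD i pf0).b b) kk kl (xs.getD i pf0).F
        (xs.getD i pf0).pt IM (Nat.land (Nat.shiftRight (Es.getD i 0) W) W') = true
  | [], Es, _, i, hi => absurd hi (by simp)
  | x :: xs, [], h, i, hi => absurd h (by simp [colR])
  | x :: xs, E :: Es, h, i, hi => by
    have e1 : colR c TT cls mv w mk kk kl W W' b IM (x :: xs) (E :: Es)
        = ((force (Nat.land (Nat.shiftRight E W) W') fun E1 =>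
        force (Nat.add x.b b) fun par => force x.F fun F =>
        grp c TT cls mv w mk par kk kl F x.pt IM E1) &&
          colR c TT cls mv w mk kk kl W W' b IM xs Es) := rfl
    rw [e1, Bool.and_eq_true] at h
    simp only [force_eq] at h
    cases i with
    | zero => exact h.1
    | succ i => exact colR_spec h.2 i (by simpa using hi)

/-- `cnt` columns from `l` on; `xs`, `Es`: flags and records from `l` on. -/
def cols (c TT : ℕ) (cls mv : ℕ → ℕ) (rw n kk kl : ℕ) (es : List GD) (cnt : ℕ) :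
    ℕ → List PF → List ℕ → Bool :=
  Nat.rec (motive := fun _ => ℕ → List PF → List ℕ → Bool) (fun _ _ _ => true)
    (fun _ ih l xs Es => List.rec (motive := fun _ => Bool) false
      (fun y xs' _ => List.rec (motive := fun _ => Bool) false
        (fun _ Es' _ => and (imF kl y es fun IM =>
          force (Nat.mul (Nat.mul rw n) l) fun W =>
          force (Nat.sub (Nat.pow 2 (Nat.mul rw n)) 1) fun W' =>
          force (Nat.sub (Nat.pow 2 rw) 1) fun mk => force y.b fun b =>
          colR c TT cls mv rw mk kk kl W W' b IM xs Es) (ih (Nat.succ l) xs' Es')) Es) xs) cnt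

theorem cols_spec {c TT : ℕ} {cls mv : ℕ → ℕ} {w n kk kl : ℕ} {es : List GD} :
    ∀ {cnt l : ℕ} {xs : List PF} {Es : List ℕ},
    cols c TT cls mv w n kk kl es cnt l xs Es = true → ∀ d < cnt, ∀ i, d ≤ i → i < xs.length →
      ∀ j (hj : j < es.length),
      rcd c TT cls mv (Nat.add (xs.getD i pf0).b (xs.getD d pf0).b) kl
        (mkK (eL es[j] (xs.getD d pf0) kl) (xs.getD i pf0).pt kk)
        (Nat.add (xs.getD i pf0).F (img es[j] (xs.getD d pf0)))
        (fld w ((Es.getD i 0) >>> (w * n * (l + d)) % 2 ^ (w * n)) j) = true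
  | 0, l, xs, Es, _, d, hd => absurd hd (by simp)
  | cnt + 1, l, [], Es, h, d, hd => absurd h (by simp [cols])
  | cnt + 1, l, y :: xs, [], h, d, hd => absurd h (by simp [cols])
  | cnt + 1, l, y :: xs, E :: Es, h, d, hd => by
    intro i hdi hi j hj
    have e1 : cols c TT cls mv w n kk kl es (cnt + 1) l (y :: xs) (E :: Es)
        = ((imF kl y es fun IM =>
          force (Nat.mul (Nat.mul w n) l) fun W =>
          force (Nat.sub (Nat.pow 2 (Nat.mul w n)) 1) fun W' =>
          force (Nat.sub (Nat.pow 2 w) 1) fun mk => force y.b fun b =>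
          colR c TT cls mv w mk kk kl W W' b IM (y :: xs) (E :: Es)) &&
          cols c TT cls mv w n kk kl es cnt (Nat.succ l) xs Es) := rfl
    rw [e1, Bool.and_eq_true] at h
    simp only [force_eq, imF_eq] at h
    cases d with
    | zero =>
      have h2 := colR_spec h.1 i hi
      have hmk : Nat.sub (Nat.pow 2 w) 1 = 2 ^ w - 1 := rfl
      have h3 := grp_spec hmk h2 j (by simpa using hj)
      have e2 : ((es.map fun e => (img e y, eL e y kl)).getD j (0, []))
          = (img es[j] y, eL es[j] y kl) := by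
        simp [List.getD_eq_getElem?_getD, hj]
      rw [e2] at h3
      have e3 : Nat.land (Nat.shiftRight ((E :: Es).getD i 0) (Nat.mul (Nat.mul w n) l))
          (Nat.sub (Nat.pow 2 (Nat.mul w n)) 1)
          = ((E :: Es).getD i 0) >>> (w * n * (l + 0)) % 2 ^ (w * n) := by
        rw [Nat.add_zero]
        exact Nat.and_two_pow_sub_one_eq_mod _ _
      rw [e3] at h3
      have e4 : (y :: xs).getD 0 pf0 = y := rfl
      rw [e4]
      dsimp only at h3
      exact h3
    | succ d =>
      cases i with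
      | zero => exact absurd hdi (by simp)
      | succ i =>
        have h2 := cols_spec h.2 d (by omega) i (by omega) (by simpa using hi) j hj
        have e2 : Nat.succ l + d = l + (d + 1) := by omega
        rw [e2] at h2
        exact h2

/-- `n` entries are dropped. -/
def drp {α : Type} (n : ℕ) : List α → List α :=
  Nat.rec (motive := fun _ => List α → List α) (fun xs => xs)
    (fun _ ih xs => List.rec (motive := fun _ => List α) [] (fun _ xs' _ => ih xs') xs) n

theorem drp_eq {α : Type} : ∀ (n : ℕ) (xs : List α), drp n xs = xs.drop n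
  | 0, xs => rfl
  | n + 1, [] => by
    have : drp (n + 1) ([] : List α) = [] := rfl
    rw [this]; simp
  | n + 1, x :: xs => by
    have : drp (n + 1) (x :: xs) = drp n xs := rfl
    rw [this, drp_eq n xs, List.drop_succ_cons]

/-- `cnt` columns from `l` on. -/
def colsAt (c TT : ℕ) (cls mv : ℕ → ℕ) (rw n kk kl : ℕ) (es : List GD) (XL : List PF)
    (EL : List ℕ) (l cnt : ℕ) : Bool :=
  cols c TT cls mv rw n kk kl es cnt l (drp l XL) (drp l EL)

theorem getD_drop {α : Type} (xs : List α) (l i : ℕ) (d : α) :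
    (xs.drop l).getD i d = xs.getD (l + i) d := by
  simp [List.getD_eq_getElem?_getD, List.getElem?_drop]

theorem colsAt_spec {c TT : ℕ} {cls mv : ℕ → ℕ} {w n kk kl : ℕ} {es : List GD}
    {XL : List PF} {EL : List ℕ} {l cnt : ℕ}
    (h : colsAt c TT cls mv w n kk kl es XL EL l cnt = true) (l' : ℕ) (h1 : l ≤ l')
    (h2 : l' < l + cnt) (i : ℕ) (h3 : l' ≤ i) (h4 : i < XL.length) (j : ℕ)
    (hj : j < es.length) :
    rcd c TT cls mv (Nat.add (XL.getD i pf0).b (XL.getD l' pf0).b) kl
      (mkK (eL es[j] (XL.getD l' pf0) kl) (XL.getD i pf0).pt kk)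
      (Nat.add (XL.getD i pf0).F (img es[j] (XL.getD l' pf0)))
      (fld w ((EL.getD i 0) >>> (w * n * l') % 2 ^ (w * n)) j) = true := by
  unfold colsAt at h
  rw [drp_eq, drp_eq] at h
  have h5 := cols_spec h (l' - l) (by omega) (i - l) (by omega)
    (by rw [List.length_drop]; omega) j hj
  rw [getD_drop, getD_drop, getD_drop] at h5
  have e1 : l + (i - l) = i := by omega
  have e2 : l + (l' - l) = l' := by omega
  rw [e1, e2] at h5
  exact h5

/-! ### the data of a type -/

/-- data of a type: exponent, width of the records, type, group, flags, records, parities. -/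
structure ED where
  TT : ℕ
  rw : ℕ
  T : TyD
  G : GG
  XL : List PF
  EL : List ℕ
  BP : ℕ

/-- general checks. -/
def ED.ck (c k l : ℕ) (D : ED) : Bool :=
  and (D.T.ok c) (and (D.G.ck c k l D.T) (and (D.XL.all (PF.ok c k l D.T))
    (and (Nat.beq D.G.gl.length D.G.n)
      (allK D.XL.length fun i => Nat.beq (D.XL.getD i pf0).b (bP D.BP i)))))

theorem ED.ck_spec [NeZero c] {D : ED} (h : D.ck c k l = true) :
    D.T.ok c = true ∧ D.G.ck c k l D.T = true ∧
    (∀ i < D.XL.length, (D.XL.getD i pf0).Ok c k l D.T) ∧ D.G.gl.length = D.G.n ∧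
    ∀ i < D.XL.length, (D.XL.getD i pf0).b = bP D.BP i := by
  unfold ED.ck at h
  rw [Bool.and_eq_true, Bool.and_eq_true, Bool.and_eq_true, Bool.and_eq_true, Nat.beq_eq] at h
  obtain ⟨h1, h2, h3, h4, h5⟩ := h
  have h5' := allK_spec h5
  refine ⟨h1, h2, fun i hi => ?_, h4, fun i hi => ?_⟩
  · have e : D.XL.getD i pf0 = D.XL[i] := by simp [List.getD_eq_getElem?_getD, hi]
    rw [e]
    exact PF.ok_spec (List.all_eq_true.1 h3 _ (List.getElem_mem hi))
  · have := h5' i hi
    rwa [Nat.beq_eq] at this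

/-- **The records give the values of all products.** -/
theorem ED.sok [NeZero c] (hB : IsMUBs B) (hc : c ≤ 7) {D : ED} {cls mv : ℕ → ℕ}
    (hmv : ∀ i, mvOK c (mv i) = true) (hck : D.ck c k l = true)
    {nk : ℕ} (hnk : D.XL.length = nk)
    (hR : ∀ l' < nk, ∃ l0 cnt, l0 ≤ l' ∧ l' < l0 + cnt ∧
      colsAt c D.TT cls mv D.rw D.G.n k (k + l) D.G.gl D.XL D.EL l0 cnt = true) :
    SOk D.G.n nk (D.G.act c k l) D.G.nu ((D.T.ty c).M B)
      (fun i => (D.XL.getD i pf0).dec c k l) ((6 : ℝ) ^ D.TT) (RcE D.TT D.rw)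
      (fun i => cvB B c (cls i)) D.BP D.EL := by
  obtain ⟨hT', hG, hx, hn, hb⟩ := ED.ck_spec hck
  have hT := TyD.ok_spec hT'
  have he := (GG.ck_spec hG).2.1
  have key : ∀ i < nk, ∀ l' ≤ i, ∀ j < D.G.n,
      (6 : ℝ) ^ D.TT * (sb (bP D.BP i) * sb (bP D.BP l') * (D.T.ty c).M B
        ((D.XL.getD i pf0).dec c k l) (D.G.act c k l j ((D.XL.getD l' pf0).dec c k l)))
      = (mmu (bP D.BP i) (bP D.BP l') : ℝ) * (RcE D.TT D.rw).fm
          (fld D.rw ((D.EL.getD i 0) >>> (D.rw * D.G.n * l') % 2 ^ (D.rw * D.G.n)) j)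
        * cvB B c (cls ((RcE D.TT D.rw).fi
          (fld D.rw ((D.EL.getD i 0) >>> (D.rw * D.G.n * l') % 2 ^ (D.rw * D.G.n)) j))) := by
    intro i hi l' hl' j hj
    obtain ⟨l0, cnt, h1, h2, h3⟩ := hR l' (by omega)
    have hj' : j < D.G.gl.length := by rw [hn]; exact hj
    have h4 := colsAt_spec h3 l' h1 h2 i hl' (by omega) j hj'
    have e1 : D.G.gl[j] = D.G.g j := by
      rw [GG.g_eq]; simp [List.getD_eq_getElem?_getD, hj']
    rw [e1] at h4
    rw [← hb i (by omega), ← hb l' (by omega)]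
    exact prod_sound hB hc hmv hT (he j hj) (hx i (by omega)) (hx l' (by omega)) h4
  refine lty_sok hB hT' hG (by positivity) ?_ ?_
  · intro i hi l' hl' j hj
    exact key i hi l' hl'.le j hj
  · intro i hi j hj
    have h1 := key i hi i le_rfl j hj
    have e1 : fld D.rw ((D.EL.getD i 0) >>> (D.rw * D.G.n * i) % 2 ^ (D.rw * D.G.n)) j
        = fld (RcE D.TT D.rw).rw (eKK (RcE D.TT D.rw) D.G.n (D.EL.getD i 0) i) j := by
      have e2 : (RcE D.TT D.rw).rw = D.rw := rfl
      unfold eKK
      rw [e2]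
      generalize (D.EL.getD i 0) >>> (D.rw * D.G.n * i) = E
      show ((E % 2 ^ (D.rw * D.G.n)) >>> (D.rw * j)) % 2 ^ D.rw
        = (E >>> (D.rw * j)) % 2 ^ D.rw
      apply Nat.eq_of_testBit_eq
      intro b
      rw [Nat.testBit_mod_two_pow, Nat.testBit_mod_two_pow, Nat.testBit_shiftRight,
        Nat.testBit_shiftRight, Nat.testBit_mod_two_pow]
      by_cases hb' : b < D.rw
      · have : D.rw * j + b < D.rw * D.G.n := by
          have h5 : D.rw * (j + 1) ≤ D.rw * D.G.n := Nat.mul_le_mul_left _ hj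
          rw [Nat.mul_succ] at h5
          omega
        simp [hb', this]
      · simp [hb']
    rw [← e1]
    exact h1

end Vale.Agent.P355.H998.E
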