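import Vale.Agent.P355.H998.E.Fc

/-! Integer digits: modifications of packed matrices by sums and differences. -/

namespace Vale.Agent.P355.H998.E

open Finset Matrix Vale.Agent.P355 H147
open Vale.Agent.P355.H693 (net w2c re_rec pwp)

/-- value of a matrix of integer digits. -/
def S2 (E : ℕ → ℕ → ℤ) : ℤ := ∑ a ∈ range 8, ∑ b ∈ range 8, E a b * 64 ^ (8 * a + b)

theorem S2_congr {E F : ℕ → ℕ → ℤ} (h : ∀ a < 8, ∀ b < 8, E a b = F a b) : S2 E = S2 F := by
  unfold S2
  refine sum_congr rfl fun a ha => sum_congr rfl fun b hb => ?_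
  rw [h a (mem_range.1 ha) b (mem_range.1 hb)]

theorem S2_add (E F : ℕ → ℕ → ℤ) : S2 (fun a b => E a b + F a b) = S2 E + S2 F := by
  unfold S2
  rw [← sum_add_distrib]
  refine sum_congr rfl fun a _ => ?_
  rw [← sum_add_distrib]
  exact sum_congr rfl fun b _ => by ring

theorem S2_sub (E F : ℕ → ℕ → ℤ) : S2 (fun a b => E a b - F a b) = S2 E - S2 F := by
  unfold S2
  rw [← sum_sub_distrib]
  refine sum_congr rfl fun a _ => ?_
  rw [← sum_sub_distrib]
  exact sum_congr rfl fun b _ => by ring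

theorem S2_row {y : ℕ} (hy : y < 8) (g : ℕ → ℤ) :
    S2 (fun a b => if a = y then g b else 0) = 64 ^ (8 * y) * ∑ b ∈ range 8, g b * 64 ^ b := by
  unfold S2
  rw [sum_eq_single y]
  · simp only [if_true]
    rw [mul_sum]
    exact sum_congr rfl fun b _ => by rw [pow_add]; ring
  · intro a _ ha
    exact sum_eq_zero fun b _ => by beta_reduce; rw [if_neg ha, zero_mul]
  · intro h; exact absurd (mem_range.2 hy) h

theorem S2_col {y : ℕ} (hy : y < 8) (g : ℕ → ℤ) :
    S2 (fun a b => if b = y then g a else 0)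
      = 64 ^ y * ∑ a ∈ range 8, g a * 64 ^ (8 * a) := by
  unfold S2
  rw [mul_sum]
  refine sum_congr rfl fun a _ => ?_
  rw [sum_eq_single y]
  · beta_reduce
    rw [if_pos rfl, pow_add]; ring
  · intro b _ hb
    beta_reduce
    rw [if_neg hb, zero_mul]
  · intro h; exact absurd (mem_range.2 hy) h

theorem S2_one {x y : ℕ} (hx : x < 8) (hy : y < 8) :
    S2 (fun a b => if a = x ∧ b = y then 1 else 0) = 64 ^ (8 * x + y) := by
  unfold S2
  rw [sum_eq_single x]
  · rw [sum_eq_single y]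
    · beta_reduce
      rw [if_pos ⟨rfl, rfl⟩, one_mul]
    · intro b _ hb
      beta_reduce
      rw [if_neg (fun h => hb h.2), zero_mul]
    · intro h; exact absurd (mem_range.2 hy) h
  · intro a _ ha
    exact sum_eq_zero fun b _ => by beta_reduce; rw [if_neg (fun h => ha h.1), zero_mul]
  · intro h; exact absurd (mem_range.2 hx) h

theorem expand (b n X : ℕ) : X = ∑ i ∈ range n, (X / b ^ i % b) * b ^ i + b ^ n * (X / b ^ n) := by
  induction n with
  | zero => simp
  | succ n ih =>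
    rw [sum_range_succ, pow_succ, ← Nat.div_div_eq_div_mul]
    conv_lhs => rw [ih]
    have h := Nat.div_add_mod (X / b ^ n) b
    calc ∑ i ∈ range n, (X / b ^ i % b) * b ^ i + b ^ n * (X / b ^ n)
        = ∑ i ∈ range n, (X / b ^ i % b) * b ^ i
          + b ^ n * (b * (X / b ^ n / b) + X / b ^ n % b) := by rw [h]
      _ = _ := by ring

theorem dg_row (X a b : ℕ) (hb : b < 8) :
    dg X a b = X / (64 ^ 8) ^ a % 64 ^ 8 / 64 ^ b % 64 := by
  rw [dg_eq]
  have h1 : X / 64 ^ (8 * a + b) = X / (64 ^ 8) ^ a / 64 ^ b := by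
    rw [Nat.div_div_eq_div_mul, ← pow_mul, ← pow_add]
  rw [h1]
  set Y := X / (64 ^ 8) ^ a
  have h2 : Y = Y % 64 ^ 8 + 64 ^ 8 * (Y / 64 ^ 8) := (Nat.mod_add_div Y (64 ^ 8)).symm
  conv_lhs => rw [h2]
  exact low_dg (by norm_num) hb

theorem row_sum (X a : ℕ) :
    X / (64 ^ 8) ^ a % 64 ^ 8 = ∑ b ∈ range 8, dg X a b * 64 ^ b := by
  have h := expand 64 8 (X / (64 ^ 8) ^ a % 64 ^ 8)
  have h0 : X / (64 ^ 8) ^ a % 64 ^ 8 / 64 ^ 8 = 0 :=
    Nat.div_eq_of_lt (Nat.mod_lt _ (by norm_num))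
  rw [h0, mul_zero, add_zero] at h
  rw [h]
  exact sum_congr rfl fun b hb => by rw [dg_row X a b (mem_range.1 hb)]

theorem dig_self (X : ℕ) : (X : ℤ) = S2 (fun a b => (dg X a b : ℤ)) + 64 ^ 64 * (wp X : ℤ) := by
  have h := expand (64 ^ 8) 8 X
  have h1 : (64 ^ 8) ^ 8 = 64 ^ 64 := by rw [← pow_mul]
  rw [h1, ← wp_eq] at h
  have h2 : (X : ℤ) = ∑ a ∈ range 8, (((X / (64 ^ 8) ^ a % 64 ^ 8 : ℕ) : ℤ) * (64 ^ 8) ^ a)
      + 64 ^ 64 * (wp X : ℤ) := by
    conv_lhs => rw [h]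
    push_cast
    rfl
  have h3 : ∑ a ∈ range 8, (((X / (64 ^ 8) ^ a % 64 ^ 8 : ℕ) : ℤ) * (64 ^ 8) ^ a)
      = S2 (fun a b => (dg X a b : ℤ)) := ?_
  · rw [h2, h3]
  unfold S2
  refine sum_congr rfl fun a _ => ?_
  rw [row_sum]
  push_cast
  rw [sum_mul]
  exact sum_congr rfl fun b _ => by rw [pow_add, pow_mul]; ring

theorem dig_of {X W : ℕ} {E : ℕ → ℕ → ℤ} (h : (X : ℤ) = S2 E + 64 ^ 64 * (W : ℤ))
    (hE : ∀ a < 8, ∀ b < 8, 0 ≤ E a b ∧ E a b < 64) :
    (∀ a < 8, ∀ b < 8, (dg X a b : ℤ) = E a b) ∧ wp X = W := by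
  obtain ⟨d, hd⟩ : ∃ d : ℕ → ℕ → ℕ, ∀ a b, d a b = (E a b).toNat := ⟨_, fun _ _ => rfl⟩
  have hde : ∀ a < 8, ∀ b < 8, ((d a b : ℕ) : ℤ) = E a b := by
    intro a ha b hb
    rw [hd]
    exact Int.toNat_of_nonneg (hE a ha b hb).1
  have hdl : ∀ a < 8, ∀ b < 8, d a b < 64 := by
    intro a ha b hb
    have h1 := hde a ha b hb
    have h2 := (hE a ha b hb).2
    omega
  obtain ⟨r, hr⟩ : ∃ r : ℕ → ℕ, ∀ a, r a = en1 64 (d a) 8 := ⟨_, fun _ => rfl⟩
  have hrl : ∀ a < 8, r a < 64 ^ 8 := fun a ha => by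
    rw [hr]; exact en1_lt fun b hb => hdl a ha b hb
  have h3 : ((en1 (64 ^ 8) r 8 : ℕ) : ℤ) = S2 E := by
    unfold S2 en1
    rw [Nat.cast_sum]
    refine sum_congr rfl fun a ha => ?_
    rw [Nat.cast_mul, hr]
    unfold en1
    rw [Nat.cast_sum, sum_mul]
    refine sum_congr rfl fun b hb => ?_
    rw [Nat.cast_mul, hde a (mem_range.1 ha) b (mem_range.1 hb), pow_add, pow_mul]
    push_cast
    ring
  have h1 : (64 ^ 8) ^ 8 = 64 ^ 64 := by rw [← pow_mul]
  have hX : X = en1 (64 ^ 8) r 8 + 64 ^ 64 * W := by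
    have h2 : (X : ℤ) = ((en1 (64 ^ 8) r 8 + 64 ^ 64 * W : ℕ) : ℤ) := by
      rw [h, Nat.cast_add, h3, Nat.cast_mul, Nat.cast_pow]
      rfl
    exact Nat.cast_injective h2
  constructor
  · intro a ha b hb
    rw [dg_row X a b hb, hX, ← h1, low_dg (by norm_num) ha, en1_dg hrl ha]
    have h4 : r a / 64 ^ b % 64 = d a b := by
      rw [hr]
      exact en1_dg (fun b hb => hdl a ha b hb) hb
    rw [h4, hde a ha b hb]
  · rw [wp_eq, hX, ← h1]
    exact high_dg (en1_lt hrl)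

/-- the words of `X` after a modification of the matrix. -/
theorem dig_upd {X P Q : ℕ} {E F : ℕ → ℕ → ℤ} {W' : ℤ} {W : ℕ}
    (hP : (P : ℤ) - Q = S2 F + 64 ^ 64 * W') (hW : (wp X : ℤ) + W' = W)
    (hE : ∀ a < 8, ∀ b < 8, E a b = (dg X a b : ℤ) + F a b)
    (h0 : ∀ a < 8, ∀ b < 8, 0 ≤ E a b ∧ E a b < 64) :
    (∀ a < 8, ∀ b < 8, (dg (Nat.sub (Nat.add X P) Q) a b : ℤ) = E a b) ∧
      wp (Nat.sub (Nat.add X P) Q) = W := by
  have h1 : (X : ℤ) + P - Q = S2 E + 64 ^ 64 * (W : ℤ) := by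
    rw [S2_congr hE, S2_add, ← hW]
    have := dig_self X
    linarith
  have hnn : 0 ≤ S2 E := by
    unfold S2
    refine sum_nonneg fun a ha => sum_nonneg fun b hb => ?_
    have := (h0 a (mem_range.1 ha) b (mem_range.1 hb)).1
    positivity
  have hle : Q ≤ X + P := by
    have h2 : (0 : ℤ) ≤ 64 ^ 64 * (W : ℤ) := by positivity
    have : (Q : ℤ) ≤ X + P := by linarith
    exact_mod_cast this
  refine dig_of (E := E) ?_ h0
  have h3 : Nat.sub (Nat.add X P) Q = X + P - Q := rfl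
  rw [h3, Nat.cast_sub hle, Nat.cast_add]
  exact h1

/-- column of a matrix. -/
theorem col_sum (X w : ℕ) :
    ((Nat.land (Nat.shiftRight X (Nat.mul 6 w)) colmask : ℕ) : ℤ)
      = ∑ a ∈ range 8, (dg X a w : ℤ) * 64 ^ (8 * a) := by
  set L := Nat.land (Nat.shiftRight X (Nat.mul 6 w)) colmask with hL
  have hbit : ∀ s, L.testBit s = (X.testBit (6 * w + s) && colmask.testBit s) := by
    intro s
    have h : L = (X >>> (6 * w)) &&& colmask := rfl
    rw [h, Nat.testBit_and, Nat.testBit_shiftRight]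
  have hd : ∀ a < 8, ∀ b < 8, dg L a b = if b = 0 then dg X a w else 0 := by
    intro a ha b hb
    apply Nat.eq_of_testBit_eq
    intro s
    rw [dg_testBit, hbit]
    by_cases hs : s < 6
    · by_cases hb0 : b = 0
      · subst hb0
        rw [if_pos rfl, dg_testBit]
        have h1 : colmask.testBit (48 * a + 6 * 0 + s) = true := by
          rw [colmask_testBit]; omega
        rw [h1, Bool.and_true]
        congr 2
        omega
      · rw [if_neg hb0, Nat.zero_testBit]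
        have h1 : colmask.testBit (48 * a + 6 * b + s) = false := by
          rw [Bool.eq_false_iff]
          intro h
          rw [colmask_testBit] at h
          omega
        rw [h1, Bool.and_false, Bool.and_false]
    · rw [decide_eq_false hs, Bool.false_and]
      split_ifs
      · rw [dg_testBit, decide_eq_false hs, Bool.false_and]
      · simp
  have hW : wp L = 0 := by
    apply Nat.eq_of_testBit_eq
    intro s
    have h : wp L = L >>> 384 := rfl
    rw [h, Nat.testBit_shiftRight, hbit, Nat.zero_testBit]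
    have h1 : colmask.testBit (384 + s) = false := by
      rw [Bool.eq_false_iff]
      intro h
      rw [colmask_testBit] at h
      omega
    rw [h1, Bool.and_false]
  rw [dig_self L, hW]
  have h2 : S2 (fun a b => (dg L a b : ℤ)) = S2 (fun a b => if b = 0 then (dg X a w : ℤ) else 0) :=
    S2_congr fun a ha b hb => by
      rw [hd a ha b hb]
      split_ifs <;> simp
  rw [h2, S2_col (y := 0) (by norm_num)]
  simp

/-- row of a matrix. -/
theorem row_land (X w : ℕ) :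
    ((Nat.land (Nat.shiftRight X (Nat.mul 48 w)) rowmask : ℕ) : ℤ)
      = ∑ b ∈ range 8, (dg X w b : ℤ) * 64 ^ b := by
  have h : Nat.land (Nat.shiftRight X (Nat.mul 48 w)) rowmask = X / (64 ^ 8) ^ w % 64 ^ 8 := by
    have h1 : Nat.land (Nat.shiftRight X (Nat.mul 48 w)) rowmask
        = (X >>> (48 * w)) &&& (2 ^ 48 - 1) := by
      show (X >>> (48 * w)) &&& rowmask = _
      rw [show rowmask = 2 ^ 48 - 1 by unfold rowmask; norm_num]
    rw [h1, Nat.and_two_pow_sub_one_eq_mod, Nat.shiftRight_eq_div_pow, pow_mul]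
    norm_num
  rw [h, row_sum]
  push_cast
  rfl

end Vale.Agent.P355.H998.E
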