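import Vale.Agent.P355.H998.E.Pf

/-! Executable checks of packed flags and of packed symmetries. -/

namespace Vale.Agent.P355.H998.E

open Finset Matrix Vale.Agent.P355 H147
open Vale.Agent.P355.H693 (net w2c re_rec pwp)

/-- all numbers smaller than `n`. -/
def allK (n : ℕ) (p : ℕ → Bool) : Bool :=
  Nat.rec (motive := fun _ => Bool) true (fun k acc => and (p k) acc) n

theorem allK_spec {n : ℕ} {p : ℕ → Bool} (h : allK n p = true) : ∀ k < n, p k = true := by
  induction n with
  | zero => intro k hk; omega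
  | succ n ih =>
    have h1 : (p n && allK n p) = true := h
    rw [Bool.and_eq_true] at h1
    intro k hk
    rcases Nat.lt_succ_iff_lt_or_eq.1 hk with h2 | rfl
    · exact ih h1.2 k h2
    · exact h1.1

/-- highest bits of all digits. -/
def hm : ℕ := 0x820820820820820820820820820820820820820820820820820820820820820820820820820820820820820820820820

theorem hm_aux : (List.range 64).all (fun i => hm.testBit (6 * i + 5)) = true := by
  decide +kernel

theorem low_of_hm {F : ℕ} (h : Nat.beq (Nat.land F hm) 0 = true) :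
    ∀ i < 64, F / 64 ^ i % 64 < 32 := by
  intro i hi
  rw [Nat.beq_eq] at h
  have h1 := List.all_eq_true.1 hm_aux i (List.mem_range.2 hi)
  have h2 : (Nat.land F hm).testBit (6 * i + 5) = false := by rw [h]; simp
  have h3 : Nat.land F hm = F &&& hm := rfl
  rw [h3, Nat.testBit_and, h1, Bool.and_true] at h2
  have e : F / 64 ^ i % 64 = (F >>> (6 * i)) &&& (2 ^ 6 - 1) := by
    rw [Nat.and_two_pow_sub_one_eq_mod, Nat.shiftRight_eq_div_pow, pw64]
  have h4 : (F / 64 ^ i % 64).testBit 5 = false := by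
    rw [e, Nat.testBit_and, Nat.testBit_shiftRight, h2, Bool.false_and]
  have h5 : F / 64 ^ i % 64 < 64 := Nat.mod_lt _ (by norm_num)
  by_contra h6
  have h7 : (F / 64 ^ i % 64).testBit 5 = true := by
    rw [Nat.testBit_eq_decide_div_mod_eq, decide_eq_true_eq]
    omega
  rw [h7] at h4; exact absurd h4 (by simp)

/-- check of a flag. -/
def fokC (r wr k F F' : ℕ) : Bool :=
  and (Nat.beq (Nat.land F hm) 0) (and (Nat.beq (Nat.land F' hm) 0)
    (and (allK (Nat.add r 2) fun a => allK (Nat.add r 2) fun b => cond (Nat.beq a b)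
      (and (Nat.beq (dg F a b) 16) (Nat.beq (dg F' a b) 16))
      (and (Nat.beq (Nat.add (dg F a b) (dg F' a b)) 32)
        (Nat.beq (Nat.add (dg F a b) (dg F b a)) 32)))
    (and (allK (Nat.succ r) fun a => Nat.beq (dg F a (Nat.succ r)) 16)
    (and (allK r fun a => Nat.beq (qd (wp F) a) (qd wr a))
    (and (Nat.beq (qd (wp F) r) (Nat.mul 2 k)) (Nat.beq (qd (wp F) (Nat.succ r)) 0))))))

theorem fokC_spec {r wr k F F' : ℕ} (h : fokC r wr k F F' = true) : Fok r (qd wr) k F F' := by
  unfold fokC at h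
  simp only [Bool.and_eq_true] at h
  obtain ⟨h1, h2, h3, h4, h5, h6, h7⟩ := h
  have h3' : ∀ a < r + 2, ∀ b < r + 2, a ≠ b →
      dg F a b + dg F' a b = 32 ∧ dg F a b + dg F b a = 32 := by
    intro a ha b hb hab
    have h8 := allK_spec (allK_spec h3 a ha) b hb
    have h9 : Nat.beq a b = false := by
      rw [Bool.eq_false_iff]; intro h'; rw [Nat.beq_eq] at h'; exact hab h'
    rw [h9, cond_false, Bool.and_eq_true, Nat.beq_eq, Nat.beq_eq] at h8
    exact h8
  have h3'' : ∀ a < r + 2, dg F a a = 16 ∧ dg F' a a = 16 := by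
    intro a ha
    have h8 := allK_spec (allK_spec h3 a ha) a ha
    rw [Nat.beq_refl, cond_true, Bool.and_eq_true, Nat.beq_eq, Nat.beq_eq] at h8
    exact h8
  exact ⟨low_of_hm h1, low_of_hm h2, fun a ha b hb hab => (h3' a ha b hb hab).1,
    fun a ha b hb hab => (h3' a ha b hb hab).2, h3'',
    fun a ha => by have := allK_spec h4 a ha; rwa [Nat.beq_eq] at this,
    fun a ha => by have := allK_spec h5 a ha; rwa [Nat.beq_eq] at this,
    by rwa [Nat.beq_eq] at h6, by rwa [Nat.beq_eq] at h7⟩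

/-! ### permutations given by functions on numbers -/

open Classical in
/-- permutation of `Fin n`. -/
noncomputable def permF (n : ℕ) [NeZero n] (f : ℕ → ℕ) : Equiv.Perm (Fin n) :=
  if h : Function.Bijective (fun a : Fin n => Fin.ofNat n (f a)) then Equiv.ofBijective _ h else 1

/-- `f` permutes `0, …, n - 1`. -/
def IsP (n : ℕ) (f : ℕ → ℕ) : Prop := (∀ i < n, f i < n) ∧ ∀ j < n, ∃ i < n, f i = j

theorem permF_val {n : ℕ} [NeZero n] {f : ℕ → ℕ} (h : IsP n f) (a : Fin n) :
    ((permF n f a : Fin n) : ℕ) = f a := by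
  have hb : Function.Bijective (fun a : Fin n => Fin.ofNat n (f a)) := by
    rw [← Finite.surjective_iff_bijective]
    intro j
    obtain ⟨i, hi, hj⟩ := h.2 j j.2
    refine ⟨⟨i, hi⟩, Fin.ext ?_⟩
    show f i % n = j
    rw [hj]; exact Nat.mod_eq_of_lt j.2
  unfold permF
  rw [dif_pos hb]
  show f a % n = f a
  exact Nat.mod_eq_of_lt (h.1 a a.2)

theorem isp_qv {K q : ℕ} (h : isp K q = true) : IsP K (qv K q) := by
  obtain ⟨h1, h2⟩ := isp_spec h
  refine ⟨fun i hi => h1 _ (by omega), fun j hj => ?_⟩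
  obtain ⟨i, hi, hj⟩ := h2 j hj
  exact ⟨K - 1 - i, by omega, by unfold qv; rw [show K - 1 - (K - 1 - i) = i by omega, hj]⟩

/-- action on the colours. -/
def cf (t p : ℕ) : ℕ := qd t (p + 1) - 1

theorem ckT_cf {c t : ℕ} (h : ckT c t = true) :
    IsP c (cf t) ∧ ∀ p < c, cf t p + 1 = qd t (p + 1) := by
  obtain ⟨τ, hτ⟩ := ckT_spec h
  have e : ∀ p : Fin c, cf t p = (τ p : Fin c) := by
    intro p
    unfold cf
    rw [← hτ p]; rfl
  refine ⟨⟨fun i hi => ?_, fun j hj => ⟨τ.symm ⟨j, hj⟩, Fin.is_lt _, ?_⟩⟩, fun p hp => ?_⟩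
  · have := e ⟨i, hi⟩
    simp only at this
    rw [this]; exact Fin.is_lt _
  · rw [e]; simp
  · have h1 := e ⟨p, hp⟩
    have h2 := hτ ⟨p, hp⟩
    simp only at h1 h2
    rw [h1, h2]

/-- data of a symmetry: slots, slots composed with the exchange of the internal vertices, colours
(backwards), reversal. -/
structure GE where
  g : ℕ
  q : ℕ
  t : ℕ
  s : Bool

variable {m r c : ℕ} {B : Fin m → M6}

/-- the symmetry. -/
noncomputable def GE.sym (r c : ℕ) [NeZero c] (e : GE) : H147.Sym (r + 2) c :=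
  ⟨permF (r + 2) (qv (r + 2) e.g), (permF c (cf e.t)).symm, e.s⟩

/-- check of the data. -/
def GE.ok (r c wr : ℕ) (e : GE) : Bool :=
  and (isp (Nat.add r 2) e.g) (and (ckT c e.t)
    (and (Nat.beq (qv (Nat.add r 2) e.g r) r) (and (Nat.beq (qv (Nat.add r 2) e.g (Nat.succ r)) (Nat.succ r))
    (and (Nat.beq (qv (Nat.add r 2) e.q r) (Nat.succ r)) (and (Nat.beq (qv (Nat.add r 2) e.q (Nat.succ r)) r)
    (and (allK r fun a => and (Nat.beq (qv (Nat.add r 2) e.q a) (qv (Nat.add r 2) e.g a))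
      (and (Nat.beq (Nat.land (qd wr (qv (Nat.add r 2) e.g a)) 1) (Nat.land (qd wr a) 1))
        (Nat.beq (qd e.t (Nat.shiftRight (qd wr (qv (Nat.add r 2) e.g a)) 1))
          (Nat.shiftRight (qd wr a) 1))))
      (allK r fun a => Nat.ble (Nat.shiftRight (qd wr a) 1) c)))))))

theorem oc_map {c t : ℕ} [NeZero c] (h : ckT c t = true) {k k' : ℕ} (hk : k ≤ c)
    (hkk : qd t k = k') : (oc c k).map (permF c (cf t)) = oc c k' := by
  obtain ⟨h1, h2⟩ := ckT_cf h
  have h0 : qd t 0 = 0 := by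
    unfold ckT at h
    rw [Bool.and_eq_true, Nat.beq_eq] at h; exact h.1
  by_cases hk0 : k = 0
  · subst hk0
    have : k' = 0 := by rw [← hkk, h0]
    rw [this, oc_zero]; rfl
  · have h3 : 0 < k ∧ k - 1 < c := by omega
    have h4 := h2 (k - 1) h3.2
    rw [show k - 1 + 1 = k by omega, hkk] at h4
    have h5 := h1.1 (k - 1) h3.2
    have h6 : 0 < k' ∧ k' - 1 < c := by omega
    unfold oc
    rw [dif_pos h3, dif_pos h6, Option.map_some]
    congr 1
    apply Fin.ext
    rw [permF_val h1]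
    show cf t (k - 1) = k' - 1
    omega

structure GE.Ok (r c wr : ℕ) (e : GE) : Prop where
  g : isp (r + 2) e.g = true
  t : ckT c e.t = true
  gr : qv (r + 2) e.g r = r
  gj : qv (r + 2) e.g (r + 1) = r + 1
  qr : qv (r + 2) e.q r = r + 1
  qj : qv (r + 2) e.q (r + 1) = r
  qg : ∀ a < r, qv (r + 2) e.q a = qv (r + 2) e.g a
  lab : ∀ a < r, qd wr (qv (r + 2) e.g a) % 2 = qd wr a % 2
  col : ∀ a < r, qd e.t (qd wr (qv (r + 2) e.g a) / 2) = qd wr a / 2
  wc : ∀ a < r, qd wr a / 2 ≤ c

theorem GE.ok_spec {wr : ℕ} {e : GE} (h : e.ok r c wr = true) : e.Ok r c wr := by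
  unfold GE.ok at h
  simp only [Bool.and_eq_true] at h
  obtain ⟨h1, h2, h3, h4, h5, h6, h7, h8⟩ := h
  rw [Nat.beq_eq] at h3 h4 h5 h6
  have sr : ∀ x, Nat.shiftRight x 1 = x / 2 := by
    intro x
    show x >>> 1 = x / 2
    rw [Nat.shiftRight_eq_div_pow, pow_one]
  have la : ∀ x, Nat.land x 1 = x % 2 := by
    intro x
    show x &&& 1 = x % 2
    exact Nat.and_one_is_mod x
  have h7' := allK_spec h7
  have h8' := allK_spec h8
  simp only [Bool.and_eq_true, Nat.beq_eq, sr, la] at h7' h8'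
  refine ⟨h1, h2, h3, h4, h5, h6, fun a ha => (h7' a ha).1, fun a ha => (h7' a ha).2.1,
    fun a ha => (h7' a ha).2.2, fun a ha => Nat.le_of_ble_eq_true (h8' a ha)⟩

theorem GE.sym_val [NeZero c] {wr : ℕ} {e : GE} (h : e.Ok r c wr) (a : Fin (r + 2)) :
    (((e.sym r c).σ a : Fin (r + 2)) : ℕ) = qv (r + 2) e.g a := permF_val (isp_qv h.g) a

theorem GE.sym_iS [NeZero c] {wr : ℕ} {e : GE} (h : e.Ok r c wr) :
    (e.sym r c).σ (iS r) = iS r := Fin.ext (by rw [GE.sym_val h]; exact h.gr)

theorem GE.sym_jS [NeZero c] {wr : ℕ} {e : GE} (h : e.Ok r c wr) :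
    (e.sym r c).σ (jS r) = jS r := Fin.ext (by rw [GE.sym_val h]; exact h.gj)

theorem GE.qg' [NeZero c] {wr : ℕ} {e : GE} (h : e.Ok r c wr) (a : Fin (r + 2)) :
    qv (r + 2) e.q a = ((e.sym r c).σ (Equiv.swap (iS r) (jS r) a) : Fin (r + 2)) := by
  rw [GE.sym_val h]
  by_cases hi : a = iS r
  · subst hi
    rw [Equiv.swap_apply_left]
    show qv (r + 2) e.q r = qv (r + 2) e.g (r + 1)
    rw [h.qr, h.gj]
  · by_cases hj : a = jS r
    · subst hj
      rw [Equiv.swap_apply_right]
      show qv (r + 2) e.q (r + 1) = qv (r + 2) e.g r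
      rw [h.qj, h.gr]
    · rw [Equiv.swap_apply_of_ne_of_ne hi hj]
      refine h.qg a ?_
      have h1 : (a : ℕ) ≠ r := fun h => hi (Fin.ext h)
      have h2 : (a : ℕ) ≠ r + 1 := fun h => hj (Fin.ext h)
      have := a.2
      omega

/-- the symmetry fixes the type. -/
theorem GE.sym_ok [NeZero c] {wr : ℕ} {e : GE} (h : e.Ok r c wr) :
    (e.sym r c).Ok (typ r c (qd wr)) := by
  have hroot : ∀ p : Fin (r + 2), ((e.sym r c).σ p : ℕ) < r ↔ (p : ℕ) < r := by
    have hi := GE.sym_iS h
    have hj := GE.sym_jS h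
    intro p
    constructor
    · intro hp
      by_contra h1
      have h2 : p = iS r ∨ p = jS r := by
        have := p.2
        rcases Nat.lt_or_ge (p : ℕ) (r + 1) with h3 | h3
        · left; apply Fin.ext; show (p : ℕ) = r; omega
        · right; apply Fin.ext; show (p : ℕ) = r + 1; omega
      rcases h2 with h2 | h2
      · rw [h2, hi] at hp; exact absurd hp (by simp [iS])
      · rw [h2, hj] at hp; exact absurd hp (by simp [jS])
    · intro hp
      have h1 : (e.sym r c).σ p ≠ iS r := fun h' => by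
        rw [← hi] at h'
        have := (e.sym r c).σ.injective h'
        rw [this] at hp; exact absurd hp (by simp [iS])
      have h2 : (e.sym r c).σ p ≠ jS r := fun h' => by
        rw [← hj] at h'
        have := (e.sym r c).σ.injective h'
        rw [this] at hp; exact absurd hp (by simp [jS])
      have h3 : ((e.sym r c).σ p : ℕ) ≠ r := fun h => h1 (Fin.ext h)
      have h4 : ((e.sym r c).σ p : ℕ) ≠ r + 1 := fun h => h2 (Fin.ext h)
      have := ((e.sym r c).σ p).2
      omega
  refine ⟨fun p => ?_, fun p => ?_, ?_⟩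
  · show (if ((e.sym r c).σ p : ℕ) < r then oc c (qd wr ((e.sym r c).σ p) / 2) else none)
      = (if (p : ℕ) < r then oc c (qd wr p / 2) else none).map (permF c (cf e.t)).symm
    by_cases hp : (p : ℕ) < r
    · rw [if_pos hp, if_pos ((hroot p).2 hp), GE.sym_val h]
      have h1 := h.col p hp
      have h2 : qd wr (qv (r + 2) e.g p) / 2 ≤ c := by
        have := (hroot p).2 hp
        rw [GE.sym_val h] at this
        exact h.wc _ this
      rw [← oc_map h.t h2 h1, Option.map_map]
      have : (⇑(permF c (cf e.t)).symm ∘ ⇑(permF c (cf e.t))) = id := by funext x; simp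
      rw [this, Option.map_id]; rfl
    · rw [if_neg hp, if_neg (fun h' => hp ((hroot p).1 h'))]; rfl
  · show (decide (((e.sym r c).σ p : ℕ) < r) && (qd wr ((e.sym r c).σ p) % 2 == 1))
      = (decide ((p : ℕ) < r) && (qd wr p % 2 == 1))
    by_cases hp : (p : ℕ) < r
    · have h1 := (hroot p).2 hp
      rw [decide_eq_true hp, decide_eq_true h1, GE.sym_val h, h.lab p hp]
    · have h1 : ¬ ((e.sym r c).σ p : ℕ) < r := fun h' => hp ((hroot p).1 h')
      rw [decide_eq_false hp, decide_eq_false h1]; simp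
  · exact GE.sym_iS h

end Vale.Agent.P355.H998.E
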