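import Vale.Agent.P355.H998.E.Rc

/-! Fast versions of the kernel functions (no forcing, raw literals, unrolled loops). -/

namespace Vale.Agent.P355.H998.E

open Finset Matrix Vale.Agent.P355 H147
open Vale.Agent.P355.H693 (net w2c re_rec pwp net_addE net_mrg re_rule0 re_rule1)
open Vale.Agent.P355.H129 (force force_eq)

variable {m c k l : ℕ} {B : Fin m → M6}

/-- kind `0`. -/
def st0X (X W x wx : ℕ) (k : ℕ → ℕ → Bool) : Bool :=
  (Bool.rec (motive := fun _ => Bool) (Bool.rec (motive := fun _ => Bool) false (k (Nat.sub X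
    (Nat.shiftLeft wx (Nat.add (nat_lit 384) (Nat.mul (nat_lit 4) x)))) W) (Nat.beq (Nat.lor
    (Nat.lor (Nat.land wx (nat_lit 1)) (Nat.xor (Nat.land (Nat.add X (nat_lit
    10006858716544629641213724469877743188591679814721383280748772928062405529269132853692512064732676988141365838808080))
    (nat_lit
    20013717433089259282427448939755486377183359629442766561497545856124811058538265707385024129465353976282731677616160))
    (nat_lit
    20013717433089259282427448939755486377183359629442766561497545856124811058538265707385024129465353976282731677616160)))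
    (Nat.xor (Nat.land (Nat.shiftRight X (Nat.mul (nat_lit 48) x)) (nat_lit 281474976710655))
    (nat_lit 142971416741920))) (nat_lit 0))) false (Nat.beq (Nat.shiftRight wx (nat_lit 1))
    (nat_lit 0)))

/-- kind `1`. -/
def st1X (X W x w y wx hx hw hy : ℕ) (k : ℕ → ℕ → Bool) : Bool :=
  (Bool.rec (motive := fun _ => Bool) (Bool.rec (motive := fun _ => Bool) false (k (Nat.sub
    (Nat.add X (Nat.add (Nat.shiftLeft (nat_lit 1) (Nat.add (Nat.mul (nat_lit 48) x) (Nat.mul
    (nat_lit 6) w))) (Nat.add (Nat.shiftLeft (nat_lit 1) (Nat.add (Nat.mul (nat_lit 48) y)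
    (Nat.mul (nat_lit 6) x))) (Nat.shiftLeft (nat_lit 1) (Nat.add (Nat.mul (nat_lit 48) w)
    (Nat.mul (nat_lit 6) y)))))) (Nat.add (Nat.add (Nat.shiftLeft (nat_lit 1) (Nat.add (Nat.mul
    (nat_lit 48) x) (Nat.mul (nat_lit 6) y))) (Nat.add (Nat.shiftLeft (nat_lit 1) (Nat.add
    (Nat.mul (nat_lit 48) w) (Nat.mul (nat_lit 6) x))) (Nat.shiftLeft (nat_lit 1) (Nat.add
    (Nat.mul (nat_lit 48) y) (Nat.mul (nat_lit 6) w))))) (Nat.shiftLeft wx (Nat.add (nat_lit 384)
    (Nat.mul (nat_lit 4) x))))) (Nat.add W (nat_lit 1))) (Nat.beq (Nat.lor (Nat.lor (Nat.land wx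
    (nat_lit 1)) (Nat.xor (Nat.land (Nat.add X (nat_lit
    10006858716544629641213724469877743188591679814721383280748772928062405529269132853692512064732676988141365838808080))
    (nat_lit
    20013717433089259282427448939755486377183359629442766561497545856124811058538265707385024129465353976282731677616160))
    (nat_lit
    20013717433089259282427448939755486377183359629442766561497545856124811058538265707385024129465353976282731677616160)))
    (Nat.xor (Nat.land (Nat.shiftRight X (Nat.mul (nat_lit 48) x)) (nat_lit 281474976710655))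
    (Nat.sub (Nat.add (nat_lit 142971416741920) (Nat.shiftLeft (nat_lit 1) (Nat.mul (nat_lit 6)
    y))) (Nat.shiftLeft (nat_lit 1) (Nat.mul (nat_lit 6) w))))) (nat_lit 0))) false (Nat.beq
    (Nat.mul (Nat.mul (Nat.mul (Nat.mul (Nat.mul hx hw) hy) (Nat.xor hw hx)) (Nat.xor hy hx))
    (Nat.xor hw hy)) (nat_lit 0)))

/-- merging. -/
def mvK (X W a b : ℕ) (k : ℕ → ℕ → Bool) : Bool :=
  (fun R L : ℕ => k (Nat.sub (Nat.add X (Nat.add (Nat.add (Nat.shiftLeft R (Nat.mul (nat_lit 48)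
    b)) (Nat.shiftLeft L (Nat.mul (nat_lit 6) b))) (Nat.add (Nat.shiftLeft (nat_lit
    142971416741920) (Nat.mul (nat_lit 48) a)) (Nat.shiftLeft (nat_lit
    4479489484355624335458449674365976634548140192150103336795075176152635847028757937242117566662552059936)
    (Nat.mul (nat_lit 6) a))))) (Nat.add (Nat.add (Nat.add (Nat.shiftLeft R (Nat.mul (nat_lit 48)
    a)) (Nat.shiftLeft L (Nat.mul (nat_lit 6) a))) (Nat.add (Nat.shiftLeft (nat_lit
    142971416741920) (Nat.mul (nat_lit 48) b)) (Nat.shiftLeft (nat_lit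
    4479489484355624335458449674365976634548140192150103336795075176152635847028757937242117566662552059936)
    (Nat.mul (nat_lit 6) b)))) (Nat.shiftLeft (Nat.land (Nat.shiftRight (Nat.shiftRight X (nat_lit
    384)) (Nat.mul (nat_lit 4) a)) (nat_lit 15)) (Nat.add (nat_lit 384) (Nat.mul (nat_lit 4)
    a))))) (Nat.add W (nat_lit 2))) (Nat.land (Nat.shiftRight X (Nat.mul (nat_lit 48) a)) (nat_lit
    281474976710655)) (Nat.land (Nat.shiftRight X (Nat.mul (nat_lit 6) a)) (nat_lit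
    8818994922325135410433822796408016499266651003295515944315304253050501823837867188945418959366899367999))

/-- kinds `2`, `3`. -/
def st2X (X W x w y a b wx hx hw hy wa X1 : ℕ) (k : ℕ → ℕ → Bool) : Bool :=
  (Bool.rec (motive := fun _ => Bool) (Bool.rec (motive := fun _ => Bool) false (mvK X1 W a b k)
    (Nat.beq (Nat.lor (Nat.lor (Nat.lor (Nat.lor (Nat.lor (Nat.land wx (nat_lit 1)) (Nat.xor
    (Nat.land (Nat.add X (nat_lit
    10006858716544629641213724469877743188591679814721383280748772928062405529269132853692512064732676988141365838808080))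
    (nat_lit
    20013717433089259282427448939755486377183359629442766561497545856124811058538265707385024129465353976282731677616160))
    (nat_lit
    20013717433089259282427448939755486377183359629442766561497545856124811058538265707385024129465353976282731677616160)))
    (Nat.xor (Nat.land (Nat.add X1 (nat_lit
    10006858716544629641213724469877743188591679814721383280748772928062405529269132853692512064732676988141365838808080))
    (nat_lit
    20013717433089259282427448939755486377183359629442766561497545856124811058538265707385024129465353976282731677616160))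
    (nat_lit
    20013717433089259282427448939755486377183359629442766561497545856124811058538265707385024129465353976282731677616160)))
    (Nat.xor (Nat.land (Nat.shiftRight X (Nat.mul (nat_lit 48) x)) (nat_lit 281474976710655))
    (Nat.sub (Nat.add (nat_lit 142971416741920) (Nat.shiftLeft (nat_lit 1) (Nat.mul (nat_lit 6)
    y))) (Nat.shiftLeft (nat_lit 1) (Nat.mul (nat_lit 6) w))))) (Nat.xor hw hy)) (Nat.land wa
    (nat_lit 1))) (nat_lit 0))) false (Nat.beq (Nat.mul (Nat.mul (Nat.mul hx hw) (Nat.xor hw hx))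
    (Nat.xor w y)) (nat_lit 0)))

/-- kinds `1`, `2`, `3`. -/
def stQX (X W s x w y wx ww wy : ℕ) (k : ℕ → ℕ → Bool) : Bool :=
  (Bool.rec (motive := fun _ => Bool) (Bool.rec (motive := fun _ => Bool) (st2X X W x w y y w wx
    (Nat.shiftRight wx (nat_lit 1)) (Nat.shiftRight ww (nat_lit 1)) (Nat.shiftRight wy (nat_lit
    1)) wy (erF X x) k) (st2X X W x w y w y wx (Nat.shiftRight wx (nat_lit 1)) (Nat.shiftRight ww
    (nat_lit 1)) (Nat.shiftRight wy (nat_lit 1)) ww (erF X x) k) (Nat.beq (Nat.land s (nat_lit 3))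
    (nat_lit 2))) (st1X X W x w y wx (Nat.shiftRight wx (nat_lit 1)) (Nat.shiftRight ww (nat_lit
    1)) (Nat.shiftRight wy (nat_lit 1)) k) (Nat.beq (Nat.land s (nat_lit 3)) (nat_lit 1)))

/-- one step. -/
def stpX (X W s : ℕ) (k : ℕ → ℕ → Bool) : Bool :=
  (Bool.rec (motive := fun _ => Bool) ((fun x w y : ℕ => stQX X W s x w y (Nat.land
    (Nat.shiftRight (Nat.shiftRight X (nat_lit 384)) (Nat.mul (nat_lit 4) x)) (nat_lit 15))
    (Nat.land (Nat.shiftRight (Nat.shiftRight X (nat_lit 384)) (Nat.mul (nat_lit 4) w)) (nat_lit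
    15)) (Nat.land (Nat.shiftRight (Nat.shiftRight X (nat_lit 384)) (Nat.mul (nat_lit 4) y))
    (nat_lit 15)) k) (Nat.land (Nat.shiftRight s (nat_lit 2)) (nat_lit 7)) (Nat.land
    (Nat.shiftRight s (nat_lit 5)) (nat_lit 7)) (Nat.land (Nat.shiftRight s (nat_lit 8)) (nat_lit
    7))) ((fun x : ℕ => st0X X W x (Nat.land (Nat.shiftRight (Nat.shiftRight X (nat_lit 384))
    (Nat.mul (nat_lit 4) x)) (nat_lit 15)) k) (Nat.land (Nat.shiftRight s (nat_lit 2)) (nat_lit
    7))) (Nat.beq (Nat.land s (nat_lit 3)) (nat_lit 0)))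

/-- `p` is replaced by `q`. -/
def sbX (p q z : ℕ) : ℕ := Bool.rec (motive := fun _ => ℕ) z q (Nat.beq z p)

/-- the same for the legs. -/
def sbLX (p q : ℕ) (K : List (ℕ × ℕ)) : List (ℕ × ℕ) :=
  List.rec (motive := fun _ => List (ℕ × ℕ)) [] (fun z _ ih => (sbX p q z.1, sbX p q z.2) :: ih) K

/-- a leg, different colours. -/
def lg1X (K : List (ℕ × ℕ)) (X W p q hp hq : ℕ) (k : List (ℕ × ℕ) → ℕ → ℕ → Bool) : Bool :=
  (Bool.rec (motive := fun _ => Bool) (Bool.rec (motive := fun _ => Bool) false (k K (Nat.sub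
    (Nat.add X (Nat.shiftLeft (nat_lit 1) (Nat.add (Nat.mul (nat_lit 48) p) (Nat.mul (nat_lit 6)
    q)))) (Nat.shiftLeft (nat_lit 1) (Nat.add (Nat.mul (nat_lit 48) q) (Nat.mul (nat_lit 6) p))))
    (Nat.add W (nat_lit 1))) (Nat.beq (Nat.xor (Nat.land (Nat.add X (nat_lit
    10006858716544629641213724469877743188591679814721383280748772928062405529269132853692512064732676988141365838808080))
    (nat_lit
    20013717433089259282427448939755486377183359629442766561497545856124811058538265707385024129465353976282731677616160))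
    (nat_lit
    20013717433089259282427448939755486377183359629442766561497545856124811058538265707385024129465353976282731677616160))
    (nat_lit 0))) false (Nat.beq (Nat.mul (Nat.mul hp hq) (Nat.xor hp hq)) (nat_lit 0)))

/-- a leg, the same colour. -/
def lg2X (K : List (ℕ × ℕ)) (X W a b wa hp hq : ℕ) (k : List (ℕ × ℕ) → ℕ → ℕ → Bool) : Bool :=
  (Bool.rec (motive := fun _ => Bool) (Bool.rec (motive := fun _ => Bool) false (mvK X W a b (k
    (sbLX a b K))) (Nat.beq (Nat.lor (Nat.lor (Nat.land wa (nat_lit 1)) (Nat.xor (Nat.land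
    (Nat.add X (nat_lit
    10006858716544629641213724469877743188591679814721383280748772928062405529269132853692512064732676988141365838808080))
    (nat_lit
    20013717433089259282427448939755486377183359629442766561497545856124811058538265707385024129465353976282731677616160))
    (nat_lit
    20013717433089259282427448939755486377183359629442766561497545856124811058538265707385024129465353976282731677616160)))
    (Nat.xor hp hq)) (nat_lit 0))) false (Nat.beq (Nat.mul hp (Nat.xor a b)) (nat_lit 0)))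

/-- one leg step. -/
def lstX (kd p q wp wq : ℕ) (K : List (ℕ × ℕ)) (X W : ℕ) (k : List (ℕ × ℕ) → ℕ → ℕ → Bool) : Bool
    :=
  (Bool.rec (motive := fun _ => Bool) (Bool.rec (motive := fun _ => Bool) (Bool.rec (motive := fun
    _ => Bool) (lg2X K X W q p wq (Nat.shiftRight wp (nat_lit 1)) (Nat.shiftRight wq (nat_lit 1))
    k) (lg2X K X W p q wp (Nat.shiftRight wp (nat_lit 1)) (Nat.shiftRight wq (nat_lit 1)) k)
    (Nat.beq kd (nat_lit 2))) (lg1X K X W p q (Nat.shiftRight wp (nat_lit 1)) (Nat.shiftRight wq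
    (nat_lit 1)) k) (Nat.beq kd (nat_lit 1))) (Bool.rec (motive := fun _ => Bool) false (Bool.rec
    (motive := fun _ => Bool) (k K X W) false (Nat.beq (Nat.shiftRight wp (nat_lit 1)) (nat_lit
    0))) (Nat.beq p q)) (Nat.beq kd (nat_lit 0)))

/-- all leg steps. -/
def lgsX (n : ℕ) : List (ℕ × ℕ) → ℕ → ℕ → ℕ → (ℕ → ℕ → Bool) → Bool :=
  Nat.rec (motive := fun _ => List (ℕ × ℕ) → ℕ → ℕ → ℕ → (ℕ → ℕ → Bool) → Bool)
    (fun K _ X W k => List.rec (motive := fun _ => Bool) (k X W) (fun _ _ _ => false) K)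
    (fun _ ih K S X W k => List.rec (motive := fun _ => Bool) false
      (fun z K' _ => (fun p q : ℕ => lstX (Nat.land S (nat_lit 3)) p q (Nat.land (Nat.shiftRight
        (Nat.shiftRight X (nat_lit 384)) (Nat.mul (nat_lit 4) p)) (nat_lit 15)) (Nat.land
        (Nat.shiftRight (Nat.shiftRight X (nat_lit 384)) (Nat.mul (nat_lit 4) q)) (nat_lit 15)) K'
        X W fun K'' X' W' =>
        ih K'' (Nat.shiftRight S (nat_lit 2)) X' W' k) z.1 z.2) K) n

/-- script. -/
def scrX (n : ℕ) : ℕ → ℕ → ℕ → (ℕ → ℕ → Bool) → Bool :=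
  Nat.rec (motive := fun _ => ℕ → ℕ → ℕ → (ℕ → ℕ → Bool) → Bool) (fun _ X W k => k X W)
    (fun _ ih S X W k => stpX X W S fun X' W' => ih (Nat.shiftRight S (nat_lit 11)) X' W' k) n

/-- permutation of rows and columns. -/
def prmX (M q : ℕ) : ℕ :=
  (fun R : ℕ => (Nat.lor (Nat.shiftLeft (Nat.lor (Nat.shiftLeft (Nat.lor (Nat.shiftLeft (Nat.lor
    (Nat.shiftLeft (Nat.lor (Nat.shiftLeft (Nat.lor (Nat.shiftLeft (Nat.lor (Nat.shiftLeft
    (Nat.land (Nat.shiftRight R (Nat.mul (nat_lit 6) (Nat.land q (nat_lit 15)))) (nat_lit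
    8818994922325135410433822796408016499266651003295515944315304253050501823837867188945418959366899367999))
    (nat_lit 6)) (Nat.land (Nat.shiftRight R (Nat.mul (nat_lit 6) (Nat.land (Nat.shiftRight q
    (nat_lit 4)) (nat_lit 15)))) (nat_lit
    8818994922325135410433822796408016499266651003295515944315304253050501823837867188945418959366899367999)))
    (nat_lit 6)) (Nat.land (Nat.shiftRight R (Nat.mul (nat_lit 6) (Nat.land (Nat.shiftRight q
    (nat_lit 8)) (nat_lit 15)))) (nat_lit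
    8818994922325135410433822796408016499266651003295515944315304253050501823837867188945418959366899367999)))
    (nat_lit 6)) (Nat.land (Nat.shiftRight R (Nat.mul (nat_lit 6) (Nat.land (Nat.shiftRight q
    (nat_lit 12)) (nat_lit 15)))) (nat_lit
    8818994922325135410433822796408016499266651003295515944315304253050501823837867188945418959366899367999)))
    (nat_lit 6)) (Nat.land (Nat.shiftRight R (Nat.mul (nat_lit 6) (Nat.land (Nat.shiftRight q
    (nat_lit 16)) (nat_lit 15)))) (nat_lit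
    8818994922325135410433822796408016499266651003295515944315304253050501823837867188945418959366899367999)))
    (nat_lit 6)) (Nat.land (Nat.shiftRight R (Nat.mul (nat_lit 6) (Nat.land (Nat.shiftRight q
    (nat_lit 20)) (nat_lit 15)))) (nat_lit
    8818994922325135410433822796408016499266651003295515944315304253050501823837867188945418959366899367999)))
    (nat_lit 6)) (Nat.land (Nat.shiftRight R (Nat.mul (nat_lit 6) (Nat.land (Nat.shiftRight q
    (nat_lit 24)) (nat_lit 15)))) (nat_lit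
    8818994922325135410433822796408016499266651003295515944315304253050501823837867188945418959366899367999)))
    (nat_lit 6)) (Nat.land (Nat.shiftRight R (Nat.mul (nat_lit 6) (Nat.land (Nat.shiftRight q
    (nat_lit 28)) (nat_lit 15)))) (nat_lit
    8818994922325135410433822796408016499266651003295515944315304253050501823837867188945418959366899367999))))
    (Nat.lor (Nat.shiftLeft (Nat.lor (Nat.shiftLeft (Nat.lor (Nat.shiftLeft (Nat.lor
    (Nat.shiftLeft (Nat.lor (Nat.shiftLeft (Nat.lor (Nat.shiftLeft (Nat.lor (Nat.shiftLeft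
    (Nat.land (Nat.shiftRight M (Nat.mul (nat_lit 48) (Nat.land q (nat_lit 15)))) (nat_lit
    281474976710655)) (nat_lit 48)) (Nat.land (Nat.shiftRight M (Nat.mul (nat_lit 48) (Nat.land
    (Nat.shiftRight q (nat_lit 4)) (nat_lit 15)))) (nat_lit 281474976710655))) (nat_lit 48))
    (Nat.land (Nat.shiftRight M (Nat.mul (nat_lit 48) (Nat.land (Nat.shiftRight q (nat_lit 8))
    (nat_lit 15)))) (nat_lit 281474976710655))) (nat_lit 48)) (Nat.land (Nat.shiftRight M (Nat.mul
    (nat_lit 48) (Nat.land (Nat.shiftRight q (nat_lit 12)) (nat_lit 15)))) (nat_lit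
    281474976710655))) (nat_lit 48)) (Nat.land (Nat.shiftRight M (Nat.mul (nat_lit 48) (Nat.land
    (Nat.shiftRight q (nat_lit 16)) (nat_lit 15)))) (nat_lit 281474976710655))) (nat_lit 48))
    (Nat.land (Nat.shiftRight M (Nat.mul (nat_lit 48) (Nat.land (Nat.shiftRight q (nat_lit 20))
    (nat_lit 15)))) (nat_lit 281474976710655))) (nat_lit 48)) (Nat.land (Nat.shiftRight M (Nat.mul
    (nat_lit 48) (Nat.land (Nat.shiftRight q (nat_lit 24)) (nat_lit 15)))) (nat_lit
    281474976710655))) (nat_lit 48)) (Nat.land (Nat.shiftRight M (Nat.mul (nat_lit 48) (Nat.land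
    (Nat.shiftRight q (nat_lit 28)) (nat_lit 15)))) (nat_lit 281474976710655)))

/-- permutation of words. -/
def pwX (W t q : ℕ) : ℕ :=
  (Nat.lor (Nat.shiftLeft (Nat.lor (Nat.shiftLeft (Nat.lor (Nat.shiftLeft (Nat.lor (Nat.shiftLeft
    (Nat.lor (Nat.shiftLeft (Nat.lor (Nat.shiftLeft (Nat.lor (Nat.shiftLeft (Nat.add (Nat.mul
    (nat_lit 2) (Nat.land (Nat.shiftRight t (Nat.mul (nat_lit 4) (Nat.shiftRight (Nat.land
    (Nat.shiftRight W (Nat.mul (nat_lit 4) (Nat.land q (nat_lit 15)))) (nat_lit 15)) (nat_lit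
    1)))) (nat_lit 15))) (Nat.land (Nat.land (Nat.shiftRight W (Nat.mul (nat_lit 4) (Nat.land q
    (nat_lit 15)))) (nat_lit 15)) (nat_lit 1))) (nat_lit 4)) (Nat.add (Nat.mul (nat_lit 2)
    (Nat.land (Nat.shiftRight t (Nat.mul (nat_lit 4) (Nat.shiftRight (Nat.land (Nat.shiftRight W
    (Nat.mul (nat_lit 4) (Nat.land (Nat.shiftRight q (nat_lit 4)) (nat_lit 15)))) (nat_lit 15))
    (nat_lit 1)))) (nat_lit 15))) (Nat.land (Nat.land (Nat.shiftRight W (Nat.mul (nat_lit 4)
    (Nat.land (Nat.shiftRight q (nat_lit 4)) (nat_lit 15)))) (nat_lit 15)) (nat_lit 1)))) (nat_lit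
    4)) (Nat.add (Nat.mul (nat_lit 2) (Nat.land (Nat.shiftRight t (Nat.mul (nat_lit 4)
    (Nat.shiftRight (Nat.land (Nat.shiftRight W (Nat.mul (nat_lit 4) (Nat.land (Nat.shiftRight q
    (nat_lit 8)) (nat_lit 15)))) (nat_lit 15)) (nat_lit 1)))) (nat_lit 15))) (Nat.land (Nat.land
    (Nat.shiftRight W (Nat.mul (nat_lit 4) (Nat.land (Nat.shiftRight q (nat_lit 8)) (nat_lit
    15)))) (nat_lit 15)) (nat_lit 1)))) (nat_lit 4)) (Nat.add (Nat.mul (nat_lit 2) (Nat.land
    (Nat.shiftRight t (Nat.mul (nat_lit 4) (Nat.shiftRight (Nat.land (Nat.shiftRight W (Nat.mul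
    (nat_lit 4) (Nat.land (Nat.shiftRight q (nat_lit 12)) (nat_lit 15)))) (nat_lit 15)) (nat_lit
    1)))) (nat_lit 15))) (Nat.land (Nat.land (Nat.shiftRight W (Nat.mul (nat_lit 4) (Nat.land
    (Nat.shiftRight q (nat_lit 12)) (nat_lit 15)))) (nat_lit 15)) (nat_lit 1)))) (nat_lit 4))
    (Nat.add (Nat.mul (nat_lit 2) (Nat.land (Nat.shiftRight t (Nat.mul (nat_lit 4) (Nat.shiftRight
    (Nat.land (Nat.shiftRight W (Nat.mul (nat_lit 4) (Nat.land (Nat.shiftRight q (nat_lit 16))
    (nat_lit 15)))) (nat_lit 15)) (nat_lit 1)))) (nat_lit 15))) (Nat.land (Nat.land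
    (Nat.shiftRight W (Nat.mul (nat_lit 4) (Nat.land (Nat.shiftRight q (nat_lit 16)) (nat_lit
    15)))) (nat_lit 15)) (nat_lit 1)))) (nat_lit 4)) (Nat.add (Nat.mul (nat_lit 2) (Nat.land
    (Nat.shiftRight t (Nat.mul (nat_lit 4) (Nat.shiftRight (Nat.land (Nat.shiftRight W (Nat.mul
    (nat_lit 4) (Nat.land (Nat.shiftRight q (nat_lit 20)) (nat_lit 15)))) (nat_lit 15)) (nat_lit
    1)))) (nat_lit 15))) (Nat.land (Nat.land (Nat.shiftRight W (Nat.mul (nat_lit 4) (Nat.land
    (Nat.shiftRight q (nat_lit 20)) (nat_lit 15)))) (nat_lit 15)) (nat_lit 1)))) (nat_lit 4))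
    (Nat.add (Nat.mul (nat_lit 2) (Nat.land (Nat.shiftRight t (Nat.mul (nat_lit 4) (Nat.shiftRight
    (Nat.land (Nat.shiftRight W (Nat.mul (nat_lit 4) (Nat.land (Nat.shiftRight q (nat_lit 24))
    (nat_lit 15)))) (nat_lit 15)) (nat_lit 1)))) (nat_lit 15))) (Nat.land (Nat.land
    (Nat.shiftRight W (Nat.mul (nat_lit 4) (Nat.land (Nat.shiftRight q (nat_lit 24)) (nat_lit
    15)))) (nat_lit 15)) (nat_lit 1)))) (nat_lit 4)) (Nat.add (Nat.mul (nat_lit 2) (Nat.land
    (Nat.shiftRight t (Nat.mul (nat_lit 4) (Nat.shiftRight (Nat.land (Nat.shiftRight W (Nat.mul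
    (nat_lit 4) (Nat.land (Nat.shiftRight q (nat_lit 28)) (nat_lit 15)))) (nat_lit 15)) (nat_lit
    1)))) (nat_lit 15))) (Nat.land (Nat.land (Nat.shiftRight W (Nat.mul (nat_lit 4) (Nat.land
    (Nat.shiftRight q (nat_lit 28)) (nat_lit 15)))) (nat_lit 15)) (nat_lit 1))))

/-- recognition. -/
def finX (par TT C s t q X W : ℕ) : Bool :=
  (Nat.beq (Nat.lor (Nat.lor (Nat.xor (prmX X q) (Nat.land C (nat_lit
    39402006196394479212279040100143613805079739270465446667948293404245721771497210611414266254884915640806627990306815)))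
    (Nat.xor (pwX (Nat.shiftRight X (nat_lit 384)) t q) (Nat.land (Nat.shiftRight C (nat_lit 384))
    (nat_lit 4294967295)))) ((fun h : ℕ => (Nat.lor (Nat.lor (Nat.land (Nat.add h par) (nat_lit
    1)) (Nat.xor (Nat.shiftRight h (nat_lit 1)) s)) (Nat.sub s TT))) (Nat.add W (Nat.land
    (Nat.shiftRight C (nat_lit 416)) (nat_lit 1))))) (nat_lit 0))

/-- conditional reversal. -/
def rvX' (b X : ℕ) (k : ℕ → Bool) : Bool :=
  (Bool.rec (motive := fun _ => Bool) (Bool.rec (motive := fun _ => Bool) false (k (rvX X))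
    (Nat.beq (Nat.xor (Nat.land (Nat.add X (nat_lit
    10006858716544629641213724469877743188591679814721383280748772928062405529269132853692512064732676988141365838808080))
    (nat_lit
    20013717433089259282427448939755486377183359629442766561497545856124811058538265707385024129465353976282731677616160))
    (nat_lit
    20013717433089259282427448939755486377183359629442766561497545856124811058538265707385024129465353976282731677616160))
    (nat_lit 0))) (k X) (Nat.beq b (nat_lit 0)))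

/-- a record. -/
def rcdX (c TT : ℕ) (cls mv : ℕ → ℕ) (par nl : ℕ) (K : List (ℕ × ℕ)) (X r : ℕ) : Bool :=
  (fun M : ℕ => lgsX nl K (Nat.shiftRight M (nat_lit 3)) X 0 fun X1 W1 => scrX (Nat.land M
    (nat_lit 7)) (Nat.shiftRight M (Nat.add (nat_lit 41) (Nat.mul (nat_lit 4) c))) X1 W1 fun X2 W2
    =>
    rvX' (Nat.land (Nat.shiftRight r (nat_lit 19)) (nat_lit 1)) X2 fun X3 => finX par TT (cls
      (Nat.land r (nat_lit 65535))) (Nat.land (Nat.shiftRight r (nat_lit 16)) (nat_lit 7))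
      (Nat.shiftLeft (Nat.shiftRight M (nat_lit 9)) (nat_lit 4)) (Nat.shiftRight M (Nat.add
      (nat_lit 9) (Nat.mul (nat_lit 4) c))) X3 W2) (mv (Nat.shiftRight r (nat_lit 20)))

/-- entry, fast. -/
noncomputable def TT.atX (s ls w mk : ℕ) (t : TT) (i : ℕ) : ℕ :=
  TT.rec (motive := fun _ => ℕ → ℕ → ℕ)
    (fun C _ lo => Nat.land (Nat.shiftRight C (Nat.mul w lo)) mk)
    (fun _ _ ia ib hi lo => Bool.rec (motive := fun _ => ℕ) (ib (Nat.shiftRight hi (nat_lit 1))
      lo)
      (ia (Nat.shiftRight hi (nat_lit 1)) lo)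
      (Nat.beq (Nat.land hi (nat_lit 1)) (nat_lit 0))) t (Nat.shiftRight i s) (Nat.land i ls)

/-! ### auxiliary facts -/

theorem brc (f t b : Bool) : @Bool.rec (fun _ => Bool) f t b = cond b t f := by cases b <;> rfl

theorem cnd_ne {P : ℕ} {Y : Bool} (h : cond (Nat.beq P (nat_lit 0)) false Y = true) :
    P ≠ 0 ∧ Y = true := by
  rcases h1 : Nat.beq P (nat_lit 0) with _ | _
  · rw [h1, cond_false] at h
    refine ⟨fun h2 => ?_, h⟩
    rw [h2] at h1
    exact absurd h1 (by simp)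
  · rw [h1, cond_true] at h; exact absurd h (by simp)

theorem cnd_eq {P : ℕ} {Y : Bool} (h : cond (Nat.beq P (nat_lit 0)) Y false = true) :
    P = 0 ∧ Y = true := by
  rcases h1 : Nat.beq P (nat_lit 0) with _ | _
  · rw [h1, cond_false] at h; exact absurd h (by simp)
  · rw [h1, cond_true] at h; rw [Nat.beq_eq] at h1; exact ⟨h1, h⟩

theorem nmul {a b : ℕ} (h : Nat.mul a b ≠ 0) : a ≠ 0 ∧ b ≠ 0 := by
  constructor
  · rintro rfl; exact h (Nat.zero_mul b)
  · rintro rfl; exact h (Nat.mul_zero a)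

theorem nlor {a b : ℕ} (h : Nat.lor a b = 0) : a = 0 ∧ b = 0 := by
  have h1 : a ||| b = 0 := h
  exact Nat.or_eq_zero_iff.1 h1

theorem nxor {a b : ℕ} (h : Nat.xor a b = 0) : a = b := by
  have h1 : a ^^^ b = 0 := h
  exact Nat.xor_eq_zero_iff.1 h1

theorem nxor' {a b : ℕ} (h : Nat.xor a b ≠ 0) : a ≠ b := by
  rintro rfl
  apply h
  show a ^^^ a = 0
  exact Nat.xor_self a

theorem mid_of {X : ℕ} (h : Nat.xor (Nat.land (Nat.add X c16M) hm) hm = 0) : midOK X = true := by
  unfold midOK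
  rw [Nat.beq_eq]
  exact nxor h

theorem half_ne {w : ℕ} (h : Nat.shiftRight w (nat_lit 1) ≠ 0) : 1 < w := by
  have h1 : Nat.shiftRight w 1 ≠ 0 := h
  rw [sr1] at h1
  omega

theorem okw_of {X p : ℕ} (hW : Wok 8 c X) (hp : p < 8)
    (h : Nat.shiftRight (qd (wp X) p) (nat_lit 1) ≠ 0) : okw c (qd (wp X) p) = true := by
  unfold okw
  rw [Bool.and_eq_true, Nat.blt_eq, sr1]
  exact ⟨half_ne h, Nat.ble_eq_true_of_le (hW p hp)⟩

/-! ### deletions and cycles -/

theorem clrW_cast (X x : ℕ) :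
    ((Nat.shiftLeft (qd (wp X) x) (Nat.add 384 (Nat.mul 4 x)) : ℕ) : ℤ)
      = 64 ^ 64 * ((qd (wp X) x * 16 ^ x : ℕ) : ℤ) := by
  have h := clrW_eq X x
  unfold clrW at h
  rw [h, Nat.cast_mul (64 ^ 64), Nat.cast_pow, Nat.cast_ofNat]

theorem del_dg {X x : ℕ} (hX : midOK X = true) :
    (∀ p < 8, ∀ q < 8, (dg (Nat.sub X (clrW X x)) p q : ℤ) = dg X p q) ∧
      wp (Nat.sub X (clrW X x)) = wp X - qd (wp X) x * 16 ^ x := by
  have h := dig_upd (X := X) (P := 0) (Q := clrW X x) (E := fun p q => (dg X p q : ℤ))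
    (F := fun _ _ => 0) (W' := -((qd (wp X) x * 16 ^ x : ℕ) : ℤ))
    (W := wp X - qd (wp X) x * 16 ^ x) ?_ ?_ ?_ ?_
  · exact h
  · have e3 : S2 (fun _ _ => (0 : ℤ)) = 0 := by unfold S2; simp
    unfold clrW
    rw [e3, clrW_cast]
    push_cast
    ring
  · rw [Nat.cast_sub (clr_le _ _)]; ring
  · intro p _ q _; simp
  · intro p hp q hq
    have m1 := mid_dg hX p q hp hq
    constructor <;> omega

/-- removal of the colour of a slot. -/
theorem Rpr.del {X : ℕ} {col : Fin 8 → Option (Fin c)} {lab : Fin 8 → Bool}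
    {f : Fin 8 → Fin 8 → ℤ} (h : Rpr c X col lab f) (hX : midOK X = true) (w : Fin 8) :
    Rpr c (Nat.sub X (clrW X w)) (era col w) lab f := by
  obtain ⟨h1, h2⟩ := del_dg (x := w) hX
  have hera : ∀ p, era col w p ≠ none → p ≠ w ∧ col p ≠ none := by
    intro p hp
    unfold era at hp
    by_cases hpw : p = w
    · subst hpw; rw [Function.update_self] at hp; exact absurd rfl hp
    · rw [Function.update_of_ne hpw] at hp; exact ⟨hpw, hp⟩
  refine ⟨?_, ?_, Wok_wp h2 h.wok, ?_, ?_, ?_⟩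
  · intro p hp q hq hpq
    have e1 := h1 p hp q hq
    have e2 := h1 q hq p hp
    have a1 := h.asy p hp q hq hpq
    omega
  · intro p hp
    have e1 := h1 p hp p hp
    have e2 := h.dia p hp
    omega
  · intro p
    rw [colB_wp h2]
    unfold era
    by_cases hp : p = w
    · subst hp; rw [Function.update_self, Function.update_self]
    · rw [Function.update_of_ne hp, Function.update_of_ne hp]; exact h.cl p
  · intro p hp
    obtain ⟨hpw, hp'⟩ := hera p hp
    rw [labB_wp h2 p hpw]; exact h.lb p hp'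
  · intro p q hpq hp hq
    obtain ⟨hpw, hp'⟩ := hera p hp
    obtain ⟨hqw, hq'⟩ := hera q hq
    rw [h.nt p q hpq hp' hq', h1 p p.2 q q.2]

/-- unit at one place. -/
def e1F (a b p q : ℕ) : ℤ := if p = a ∧ q = b then 1 else 0

/-- flows of the cycle `x → w → y → x`. -/
def cyF (x w y p q : ℕ) : ℤ :=
  (e1F x w p q + (e1F y x p q + e1F w y p q)) - (e1F x y p q + (e1F w x p q + e1F y w p q))

/-- the number with the cycle added and the word of `x` removed. -/
def cyX (X wx x w y : ℕ) : ℕ :=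
  Nat.sub (Nat.add X (Nat.add (bt x w) (Nat.add (bt y x) (bt w y))))
    (Nat.add (Nat.add (bt x y) (Nat.add (bt w x) (bt y w)))
      (Nat.shiftLeft wx (Nat.add 384 (Nat.mul 4 x))))

theorem bt_cast {a b : ℕ} (ha : a < 8) (hb : b < 8) : ((bt a b : ℕ) : ℤ) = S2 (e1F a b) := by
  have h : S2 (e1F a b) = 64 ^ (8 * a + b) := S2_one ha hb
  rw [h, bt_eq]; push_cast; rfl

theorem cyc_dg {X x w y : ℕ} (hX : midOK X = true) (hx : x < 8) (hw : w < 8) (hy : y < 8) :
    (∀ p < 8, ∀ q < 8, (dg (cyX X (qd (wp X) x) x w y) p q : ℤ) = dg X p q + cyF x w y p q) ∧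
      wp (cyX X (qd (wp X) x) x w y) = wp X - qd (wp X) x * 16 ^ x := by
  unfold cyX
  refine dig_upd (W' := -((qd (wp X) x * 16 ^ x : ℕ) : ℤ)) ?_ ?_ (fun p _ q _ => rfl) ?_
  · have e : S2 (cyF x w y) = (S2 (e1F x w) + (S2 (e1F y x) + S2 (e1F w y)))
        - (S2 (e1F x y) + (S2 (e1F w x) + S2 (e1F y w))) := by
      unfold cyF
      rw [S2_sub (fun p q => e1F x w p q + (e1F y x p q + e1F w y p q)),
        S2_add (e1F x w) (fun p q => e1F y x p q + e1F w y p q), S2_add (e1F y x) (e1F w y),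
        S2_add (e1F x y) (fun p q => e1F w x p q + e1F y w p q), S2_add (e1F w x) (e1F y w)]
    rw [e, ← bt_cast hx hw, ← bt_cast hy hx, ← bt_cast hw hy, ← bt_cast hx hy, ← bt_cast hw hx,
      ← bt_cast hy hw]
    have e2 := clrW_cast X x
    simp only [Nat.add_eq, Nat.cast_add] at e2 ⊢
    rw [e2]
    ring
  · rw [Nat.cast_sub (clr_le _ _)]; ring
  · intro p hp q hq
    have m1 := mid_dg hX p q hp hq
    unfold cyF e1F
    split_ifs <;> omega

theorem e1F_val (a b p q : Fin 8) : e1F a b p q = if p = a ∧ q = b then 1 else 0 := by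
  unfold e1F
  simp only [Fin.val_inj]

/-- a cycle through a slot which is removed. -/
theorem Rpr.cyc {X : ℕ} {col : Fin 8 → Option (Fin c)} {lab : Fin 8 → Bool}
    {f : Fin 8 → Fin 8 → ℤ} (h : Rpr c X col lab f) (hX : midOK X = true) (x w y : Fin 8)
    (hxw : x ≠ w) (hxy : x ≠ y) (hwy : w ≠ y) :
    Rpr c (cyX X (qd (wp X) x) x w y) (era col x) lab (addE f w y) := by
  obtain ⟨h1, h2⟩ := cyc_dg hX x.2 w.2 y.2
  have hera : ∀ p, era col x p ≠ none → p ≠ x ∧ col p ≠ none := by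
    intro p hp
    unfold era at hp
    by_cases hpw : p = x
    · subst hpw; rw [Function.update_self] at hp; exact absurd rfl hp
    · rw [Function.update_of_ne hpw] at hp; exact ⟨hpw, hp⟩
  have hs : ∀ a b p q : ℕ, e1F a b p q = e1F b a q p := by
    intro a b p q
    unfold e1F
    exact if_congr and_comm rfl rfl
  have hd : ∀ a b p : ℕ, a ≠ b → e1F a b p p = 0 := by
    intro a b p hab
    unfold e1F
    rw [if_neg (fun h' => hab (h'.1.symm.trans h'.2))]
  have hxw' : (x : ℕ) ≠ w := fun h' => hxw (Fin.ext h')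
  have hxy' : (x : ℕ) ≠ y := fun h' => hxy (Fin.ext h')
  have hwy' : (w : ℕ) ≠ y := fun h' => hwy (Fin.ext h')
  refine ⟨?_, ?_, Wok_wp h2 h.wok, ?_, ?_, ?_⟩
  · intro p hp q hq hpq
    have e1 := h1 p hp q hq
    have e2 := h1 q hq p hp
    have a1 := h.asy p hp q hq hpq
    have e3 : cyF x w y p q + cyF x w y q p = 0 := by
      unfold cyF
      rw [hs x w q p, hs y x q p, hs w y q p, hs x y q p, hs w x q p, hs y w q p]
      ring
    omega
  · intro p hp
    have e1 := h1 p hp p hp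
    have e2 := h.dia p hp
    have e3 : cyF x w y p p = 0 := by
      unfold cyF
      rw [hd x w p hxw', hd y x p hxy'.symm, hd w y p hwy', hd x y p hxy', hd w x p hxw'.symm,
        hd y w p hwy'.symm]
      ring
    omega
  · intro p
    rw [colB_wp h2]
    unfold era
    by_cases hp : p = x
    · subst hp; rw [Function.update_self, Function.update_self]
    · rw [Function.update_of_ne hp, Function.update_of_ne hp]; exact h.cl p
  · intro p hp
    obtain ⟨hpw, hp'⟩ := hera p hp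
    rw [labB_wp h2 p hpw]; exact h.lb p hp'
  · intro p q hpq hp hq
    obtain ⟨hpw, hp'⟩ := hera p hp
    obtain ⟨hqw, hq'⟩ := hera q hq
    rw [net_addE, h.nt p q hpq hp' hq', h1 p p.2 q q.2]
    unfold cyF
    rw [e1F_val x w, e1F_val y x, e1F_val w y, e1F_val x y, e1F_val w x, e1F_val y w,
      if_neg (fun h' : p = x ∧ q = w => hpw h'.1), if_neg (fun h' : p = y ∧ q = x => hqw h'.2),
      if_neg (fun h' : p = x ∧ q = y => hpw h'.1), if_neg (fun h' : p = w ∧ q = x => hqw h'.2)]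
    ring

/-- level one. -/
theorem lev1_of {X : ℕ} {col : Fin 8 → Option (Fin c)} {lab : Fin 8 → Bool}
    {f : Fin 8 → Fin 8 → ℤ} (h : Rpr c X col lab f) {xf wf yf : Fin 8}
    (hcx : col xf ≠ none) (hcw : col wf ≠ none) (hcy : col yf ≠ none)
    (hnw : col wf ≠ col xf) (hny : col yf ≠ col xf) (hwyf : wf ≠ yf)
    (hrow : rwX X xf = rowL wf yf) : Lev1 col f xf wf yf := by
  have hne : (wf : ℕ) ≠ yf := fun h' => hwyf (Fin.ext h')
  have hrow' : ∀ b : Fin 8, dg X xf b
      = if (b : ℕ) = yf then 33 else if (b : ℕ) = wf then 31 else 32 := by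
    intro b
    rw [← rwX_dg X xf b b.2, hrow]; exact rowL_dg wf.2 yf.2 b.2 hne
  have hwx' : wf ≠ xf := fun h' => hnw (by rw [h'])
  have hyx' : yf ≠ xf := fun h' => hny (by rw [h'])
  refine ⟨hcw, hcy, hnw, hny, hwyf, ?_, ?_, ?_⟩
  · have e1 := h.nt xf wf (Ne.symm hwx') hcx hcw
    have e2 := hrow' wf
    rw [if_neg hne, if_pos rfl] at e2
    rw [e2] at e1
    unfold H693.net at e1
    have : ((31 : ℕ) : ℤ) - 32 = -1 := by norm_num
    linarith
  · have e1 := h.nt xf yf (Ne.symm hyx') hcx hcy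
    have e2 := hrow' yf
    rw [if_pos rfl] at e2
    rw [e2] at e1
    unfold H693.net at e1
    have : ((33 : ℕ) : ℤ) - 32 = 1 := by norm_num
    linarith
  · intro q hqw hqy hq hqc
    by_cases hqx : q = xf
    · subst hqx; ring
    · have e1 := h.nt xf q (Ne.symm hqx) hcx hq
      have e2 := hrow' q
      rw [if_neg (fun h' => hqy (Fin.ext h')), if_neg (fun h' => hqw (Fin.ext h'))] at e2
      rw [e2] at e1
      unfold H693.net at e1
      rw [e1]; norm_num

/-- result of a step. -/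
def StR (B : Fin m → M6) (c : ℕ) (col : Fin 8 → Option (Fin c)) (lab : Fin 8 → Bool)
    (f : Fin 8 → Fin 8 → ℤ) (W : ℕ) (k : ℕ → ℕ → Bool) : Prop :=
  ∃ X' col' lab' f' d, Rpr c X' col' lab' f' ∧
    (gv B col' lab' f').re = Real.sqrt 6 ^ d * (gv B col lab f).re ∧ k X' (W + d) = true

theorem st0X_sound (hB : IsMUBs B) {X W x : ℕ} {k : ℕ → ℕ → Bool}
    {col : Fin 8 → Option (Fin c)} {lab : Fin 8 → Bool} {f : Fin 8 → Fin 8 → ℤ}
    (h : Rpr c X col lab f) (hx8 : x < 8) (hk : st0X X W x (qd (wp X) x) k = true) :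
    StR B c col lab f W k := by
  unfold st0X at hk
  rw [brc, brc] at hk
  obtain ⟨h1, h2⟩ := cnd_ne hk
  obtain ⟨h3, h4⟩ := cnd_eq h2
  obtain ⟨h5, h6⟩ := nlor h3
  obtain ⟨h7, h8⟩ := nlor h5
  have hmid := mid_of h8
  set xf : Fin 8 := ⟨x, hx8⟩ with hxf
  have hok := okw_of h.wok hx8 h1
  have ccx : col xf = w2c c (qd (wp X) x) := (h.cl xf).symm
  have hcx : col xf ≠ none := by rw [ccx]; exact okw_ne hok
  have hlx : lab xf = false := by
    refine lab_free h hcx ?_
    rw [Nat.beq_eq]; exact h7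
  have hpe := peers_free col lab xf hlx
  have h2' : rwX X x = c32r := nxor h6
  have hl0 : Lev0 col f xf := by
    intro q hq _
    by_cases hqx : q = xf
    · subst hqx; ring
    · have e1 := h.nt xf q (Ne.symm hqx) hcx hq
      unfold H693.net at e1
      have e2 : dg X x q = 32 := by
        rw [← rwX_dg X x q q.2, h2']; exact c32r_dg q.2
      have e3 : dg X (xf : Fin 8) q = 32 := e2
      rw [e1, e3]; norm_num
  have hr := re_rule0 hB (lab := lab) col f xf hcx hl0
  rw [hpe] at hr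
  refine ⟨_, _, _, _, 0, h.del hmid xf, ?_, h4⟩
  rw [pow_zero, one_mul]
  simp at hr
  linarith

theorem st1X_sound (hB : IsMUBs B) {X W x w y : ℕ} {k : ℕ → ℕ → Bool}
    {col : Fin 8 → Option (Fin c)} {lab : Fin 8 → Bool} {f : Fin 8 → Fin 8 → ℤ}
    (h : Rpr c X col lab f) (hx8 : x < 8) (hw8 : w < 8) (hy8 : y < 8)
    (hk : st1X X W x w y (qd (wp X) x) (Nat.shiftRight (qd (wp X) x) (nat_lit 1))
      (Nat.shiftRight (qd (wp X) w) (nat_lit 1)) (Nat.shiftRight (qd (wp X) y) (nat_lit 1)) k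
        = true) :
    StR B c col lab f W k := by
  unfold st1X at hk
  rw [brc, brc] at hk
  obtain ⟨h1, h2⟩ := cnd_ne hk
  obtain ⟨h3, h4⟩ := cnd_eq h2
  obtain ⟨n1, n2⟩ := nmul h1
  obtain ⟨n3, n4⟩ := nmul n1
  obtain ⟨n5, n6⟩ := nmul n3
  obtain ⟨n7, n8⟩ := nmul n5
  obtain ⟨n9, n10⟩ := nmul n7
  obtain ⟨h5, h6⟩ := nlor h3
  obtain ⟨h7, h8⟩ := nlor h5
  have hmid := mid_of h8
  have hokx := okw_of h.wok hx8 n9
  have hokw := okw_of h.wok hw8 n10
  have hoky := okw_of h.wok hy8 n8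
  have e1 := nxor' n6
  have e2 := nxor' n4
  have e3 := nxor' n2
  rw [sr1, sr1] at e1 e2 e3
  have hrow : rwX X x = rowL w y := nxor h6
  set xf : Fin 8 := ⟨x, hx8⟩ with hxf
  set wf : Fin 8 := ⟨w, hw8⟩ with hwf
  set yf : Fin 8 := ⟨y, hy8⟩ with hyf
  have ccx : col xf = w2c c (qd (wp X) x) := (h.cl xf).symm
  have ccw : col wf = w2c c (qd (wp X) w) := (h.cl wf).symm
  have ccy : col yf = w2c c (qd (wp X) y) := (h.cl yf).symm
  have hcx : col xf ≠ none := by rw [ccx]; exact okw_ne hokx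
  have hcw : col wf ≠ none := by rw [ccw]; exact okw_ne hokw
  have hcy : col yf ≠ none := by rw [ccy]; exact okw_ne hoky
  have hnw : col wf ≠ col xf := by rw [ccw, ccx]; exact w2c_ne' hokw hokx e1
  have hny : col yf ≠ col xf := by rw [ccy, ccx]; exact w2c_ne' hoky hokx e2
  have hcc : col wf ≠ col yf := by rw [ccw, ccy]; exact w2c_ne' hokw hoky e3
  have hwyf : wf ≠ yf := fun h' => hcc (by rw [h'])
  have hlx : lab xf = false := by
    refine lab_free h hcx ?_
    rw [Nat.beq_eq]; exact h7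
  have hpe := peers_free col lab xf hlx
  have hl1 := lev1_of h hcx hcw hcy hnw hny hwyf hrow
  have hr := re_rule1 hB (lab := lab) col f xf wf yf hcx hl1 hcc
  rw [hpe, Finset.sum_empty, add_zero] at hr
  have hwx' : wf ≠ xf := fun h' => hnw (by rw [h'])
  have hyx' : yf ≠ xf := fun h' => hny (by rw [h'])
  refine ⟨_, _, _, _, 1, h.cyc hmid xf wf yf (Ne.symm hwx') (Ne.symm hyx') hwyf, ?_, h4⟩
  rw [pow_one]
  have h10 : Real.sqrt 6 * Real.sqrt 6 = 6 := Real.mul_self_sqrt (by norm_num)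
  have h11 : Real.sqrt 6 ≠ 0 := by positivity
  apply mul_left_cancel₀ h11
  rw [← mul_assoc, h10]; linarith

theorem mvK_eq (X W a b : ℕ) (k : ℕ → ℕ → Bool) : mvK X W a b k = k (mvF X a b) (W + 2) := rfl

theorem nbeq_false {a b : ℕ} (h : a ≠ b) : Nat.beq a b = false := by
  rw [Bool.eq_false_iff]; intro h'; rw [Nat.beq_eq] at h'; exact h h'

/-- facts from a merging step. -/
theorem st2X_facts {X W x w y a b : ℕ} {k : ℕ → ℕ → Bool} {wa : ℕ}
    (hx8 : x < 8) (hw8 : w < 8) (hW : Wok 8 c X)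
    (hk : st2X X W x w y a b (qd (wp X) x) (Nat.shiftRight (qd (wp X) x) (nat_lit 1))
      (Nat.shiftRight (qd (wp X) w) (nat_lit 1)) (Nat.shiftRight (qd (wp X) y) (nat_lit 1)) wa
      (erF X x) k = true) :
    midOK X = true ∧ okw c (qd (wp X) x) = true ∧ okw c (qd (wp X) w) = true ∧
      qd (wp X) w / 2 ≠ qd (wp X) x / 2 ∧ w ≠ y ∧ Nat.land (qd (wp X) x) 1 = 0 ∧
      midOK (erF X x) = true ∧ rwX X x = rowL w y ∧ qd (wp X) w / 2 = qd (wp X) y / 2 ∧
      Nat.land wa 1 = 0 ∧ k (mvF (erF X x) a b) (W + 2) = true := by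
  unfold st2X at hk
  rw [brc, brc, mvK_eq] at hk
  obtain ⟨h1, h2⟩ := cnd_ne hk
  obtain ⟨h3, h4⟩ := cnd_eq h2
  obtain ⟨n1, n2⟩ := nmul h1
  obtain ⟨n3, n4⟩ := nmul n1
  obtain ⟨n5, n6⟩ := nmul n3
  obtain ⟨m1, m2⟩ := nlor h3
  obtain ⟨m3, m4⟩ := nlor m1
  obtain ⟨m5, m6⟩ := nlor m3
  obtain ⟨m7, m8⟩ := nlor m5
  obtain ⟨m9, m10⟩ := nlor m7
  have e1 := nxor' n4
  have e2 := nxor m4
  rw [sr1, sr1] at e1 e2
  exact ⟨mid_of m10, okw_of hW hx8 n5, okw_of hW hw8 n6, e1, nxor' n2, m9, mid_of m8,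
    nxor m6, e2, m2, h4⟩

theorem okw_congr {a b : ℕ} (h : a / 2 = b / 2) (ha : okw c a = true) : okw c b = true := by
  unfold okw at ha ⊢
  rw [Bool.and_eq_true, Nat.blt_eq, sr1] at ha ⊢
  rw [← h]
  exact ⟨by have := ha.1; omega, ha.2⟩

theorem stp_mrg {X W s : ℕ} {k : ℕ → ℕ → Bool} {a b wa : ℕ} (bb : Bool)
    (hW : Wok 8 c X)
    (h0 : Nat.beq (Nat.land s 3) 0 = false) (h1 : Nat.beq (Nat.land s 3) 1 = false)
    (h2 : Nat.beq (Nat.land s 3) 2 = bb)
    (hab : (a, b, wa) = cond bb (Nat.land (Nat.shiftRight s 5) 7, Nat.land (Nat.shiftRight s 8) 7,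
      qd (wp X) (Nat.land (Nat.shiftRight s 5) 7))
      (Nat.land (Nat.shiftRight s 8) 7, Nat.land (Nat.shiftRight s 5) 7,
      qd (wp X) (Nat.land (Nat.shiftRight s 8) 7)))
    (hk : st2X X W (Nat.land (Nat.shiftRight s 2) 7) (Nat.land (Nat.shiftRight s 5) 7)
      (Nat.land (Nat.shiftRight s 8) 7) a b (qd (wp X) (Nat.land (Nat.shiftRight s 2) 7))
      (Nat.shiftRight (qd (wp X) (Nat.land (Nat.shiftRight s 2) 7)) (nat_lit 1))
      (Nat.shiftRight (qd (wp X) (Nat.land (Nat.shiftRight s 5) 7)) (nat_lit 1))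
      (Nat.shiftRight (qd (wp X) (Nat.land (Nat.shiftRight s 8) 7)) (nat_lit 1)) wa
      (erF X (Nat.land (Nat.shiftRight s 2) 7)) k = true) :
    stp c X s (fun Z => k Z (W + 2)) = true := by
  have hx8 : Nat.land (Nat.shiftRight s 2) 7 < 8 := land7 _
  have hw8 : Nat.land (Nat.shiftRight s 5) 7 < 8 := land7 _
  obtain ⟨f1, f2, f3, f4, f5, f6, f7, f8, f9, f10, f11⟩ := st2X_facts hx8 hw8 hW hk
  unfold stp
  simp only [force_eq]
  have f3' := okw_congr f9 f3
  have b1 : ckx c X (qd (wp X) (Nat.land (Nat.shiftRight s 2) 7)) = true := by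
    unfold ckx
    rw [f1, f2, f6]; rfl
  have b3 : (and (not (Nat.beq (Nat.land (Nat.shiftRight s 5) 7) (Nat.land (Nat.shiftRight s 8) 7)))
      (ck1 c X (Nat.land (Nat.shiftRight s 2) 7) (Nat.land (Nat.shiftRight s 5) 7)
        (Nat.land (Nat.shiftRight s 8) 7) (qd (wp X) (Nat.land (Nat.shiftRight s 2) 7))
        (qd (wp X) (Nat.land (Nat.shiftRight s 5) 7))
        (qd (wp X) (Nat.land (Nat.shiftRight s 8) 7)))) = true := by
    unfold ck1
    rw [f3, f3', f8, sr1, sr1, sr1, nbeq_false f5, nbeq_false f4, ← f9, nbeq_false f4,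
      Nat.beq_refl]
    rfl
  have b4 : Nat.beq (Nat.shiftRight (qd (wp X) (Nat.land (Nat.shiftRight s 5) 7)) 1)
      (Nat.shiftRight (qd (wp X) (Nat.land (Nat.shiftRight s 8) 7)) 1) = true := by
    rw [sr1, sr1, f9, Nat.beq_refl]
  rw [b1, cond_true, h0, cond_false, b3, cond_true, f7, cond_true, h1, cond_false, b4, cond_true,
    h2]
  cases bb
  · rw [cond_false]
    simp only [cond_false, Prod.mk.injEq] at hab
    obtain ⟨r1, r2, r3⟩ := hab
    rw [← r3, f10, ← r1, ← r2]
    exact f11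
  · rw [cond_true]
    simp only [cond_true, Prod.mk.injEq] at hab
    obtain ⟨r1, r2, r3⟩ := hab
    rw [← r3, f10, ← r1, ← r2]
    exact f11

theorem stpX_sound (hB : IsMUBs B) {X W s : ℕ} {k : ℕ → ℕ → Bool}
    {col : Fin 8 → Option (Fin c)} {lab : Fin 8 → Bool} {f : Fin 8 → Fin 8 → ℤ}
    (h : Rpr c X col lab f) (hk : stpX X W s k = true) : StR B c col lab f W k := by
  have hx8 : Nat.land (Nat.shiftRight s 2) 7 < 8 := land7 _
  have hw8 : Nat.land (Nat.shiftRight s 5) 7 < 8 := land7 _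
  have hy8 : Nat.land (Nat.shiftRight s 8) 7 < 8 := land7 _
  have hk0 : @Bool.rec (fun _ => Bool)
      (stQX X W s (Nat.land (Nat.shiftRight s 2) 7) (Nat.land (Nat.shiftRight s 5) 7)
        (Nat.land (Nat.shiftRight s 8) 7) (qd (wp X) (Nat.land (Nat.shiftRight s 2) 7))
        (qd (wp X) (Nat.land (Nat.shiftRight s 5) 7))
        (qd (wp X) (Nat.land (Nat.shiftRight s 8) 7)) k)
      (st0X X W (Nat.land (Nat.shiftRight s 2) 7) (qd (wp X) (Nat.land (Nat.shiftRight s 2) 7)) k)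
      (Nat.beq (Nat.land s 3) 0) = true := hk
  rw [brc] at hk0
  rcases h0 : Nat.beq (Nat.land s 3) 0 with _ | _
  swap
  · rw [h0, cond_true] at hk0
    exact st0X_sound hB h hx8 hk0
  rw [h0, cond_false] at hk0
  unfold stQX at hk0
  rw [brc, brc] at hk0
  rcases h1 : Nat.beq (Nat.land s 3) 1 with _ | _
  swap
  · have h1' : Nat.beq (Nat.land s (nat_lit 3)) (nat_lit 1) = true := h1
    rw [h1', cond_true] at hk0
    exact st1X_sound hB h hx8 hw8 hy8 hk0
  have h1' : Nat.beq (Nat.land s (nat_lit 3)) (nat_lit 1) = false := h1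
  rw [h1', cond_false] at hk0
  have hst2 : stW s = 2 := by unfold stW; rw [h0, h1]; rfl
  have main : stp c X s (fun Z => k Z (W + 2)) = true := by
    rcases h2 : Nat.beq (Nat.land s 3) 2 with _ | _
    · have h2' : Nat.beq (Nat.land s (nat_lit 3)) (nat_lit 2) = false := h2
      rw [h2', cond_false] at hk0
      exact stp_mrg false h.wok h0 h1 h2 rfl hk0
    · have h2' : Nat.beq (Nat.land s (nat_lit 3)) (nat_lit 2) = true := h2
      rw [h2', cond_true] at hk0
      exact stp_mrg true h.wok h0 h1 h2 rfl hk0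
  obtain ⟨X', col', lab', f', a1, a2, a3⟩ := stp_sound hB h main
  rw [hst2] at a2
  exact ⟨X', col', lab', f', 2, a1, a2, a3⟩

theorem scrX_sound (hB : IsMUBs B) (n : ℕ) : ∀ {X S W : ℕ} {k : ℕ → ℕ → Bool}
    {col : Fin 8 → Option (Fin c)} {lab : Fin 8 → Bool} {f : Fin 8 → Fin 8 → ℤ},
    Rpr c X col lab f → scrX n S X W k = true → StR B c col lab f W k := by
  induction n with
  | zero =>
    intro X S W k col lab f h hk
    exact ⟨X, col, lab, f, 0, h, by rw [pow_zero, one_mul], hk⟩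
  | succ n ih =>
    intro X S W k col lab f h hk
    have e1 : scrX (n + 1) S X W k
        = stpX X W S fun X' W' => scrX n (Nat.shiftRight S 11) X' W' k := rfl
    rw [e1] at hk
    obtain ⟨X1, col1, lab1, f1, d1, a1, a2, a3⟩ := stpX_sound hB h hk
    obtain ⟨X', col', lab', f', d2, b1, b2, b3⟩ := ih a1 a3
    refine ⟨X', col', lab', f', d1 + d2, b1, ?_, by rw [← Nat.add_assoc]; exact b3⟩
    rw [b2, a2, pow_add]; ring

/-! ### legs -/

theorem sbX_eq (p q z : ℕ) : sbX p q z = sbN p q z := by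
  unfold sbX sbN
  cases Nat.beq z p <;> rfl

theorem sbLX_eq (p q : ℕ) (K : List (ℕ × ℕ)) : sbLX p q K = sbL p q K := by
  induction K with
  | nil => rfl
  | cons z K ih =>
    have e1 : sbLX p q (z :: K) = (sbX p q z.1, sbX p q z.2) :: sbLX p q K := rfl
    have e2 : sbL p q (z :: K) = (sbN p q z.1, sbN p q z.2) :: sbL p q K := rfl
    rw [e1, e2, sbX_eq, sbX_eq, ih]

theorem lstX_sound (hB : IsMUBs B) {kd p q : ℕ} {K : List (ℕ × ℕ)} {X W : ℕ}
    {k : List (ℕ × ℕ) → ℕ → ℕ → Bool} {col : Fin 8 → Option (Fin c)} {lab : Fin 8 → Bool}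
    {f : Fin 8 → Fin 8 → ℤ} (h : Rpr c X col lab f) (hp : p < 8) (hq : q < 8) (hK : K8 K)
    (hk : lstX kd p q (qd (wp X) p) (qd (wp X) q) K X W k = true) :
    ∃ X' K' col' lab' f' d, Rpr c X' col' lab' f' ∧ K8 K' ∧
      (gve B col' lab' f' (kf K')).re
        = Real.sqrt 6 ^ d * (gve B col lab f (kf ((p, q) :: K))).re ∧
      k K' X' (W + d) = true := by
  have fin : ∀ d, lsW kd = d → lst c kd p q K X (fun K' X' => k K' X' (W + d)) = true →
      ∃ X' K' col' lab' f' d, Rpr c X' col' lab' f' ∧ K8 K' ∧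
      (gve B col' lab' f' (kf K')).re
        = Real.sqrt 6 ^ d * (gve B col lab f (kf ((p, q) :: K))).re ∧
      k K' X' (W + d) = true := by
    intro d hd h1
    obtain ⟨X', K', col', lab', f', a1, a2, a3, a4⟩ := lst_sound hB h hp hq hK h1
    rw [hd] at a3
    exact ⟨X', K', col', lab', f', d, a1, a2, a3, a4⟩
  unfold lstX at hk
  rw [brc, brc, brc, brc, brc] at hk
  rcases h0 : Nat.beq kd 0 with _ | _
  swap
  · have h0' : Nat.beq kd (nat_lit 0) = true := h0
    rw [h0', cond_true] at hk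
    rcases h1 : Nat.beq p q with _ | _
    · rw [h1, cond_false] at hk; exact absurd hk (by simp)
    rw [h1, cond_true] at hk
    obtain ⟨h2, h3⟩ := cnd_ne hk
    refine fin 0 (by unfold lsW; rw [h0]; rfl) ?_
    unfold lst
    simp only [force_eq]
    rw [h0, cond_true, h1, okw_of h.wok hp h2]
    exact h3
  have h0' : Nat.beq kd (nat_lit 0) = false := h0
  rw [h0', cond_false] at hk
  rcases h1 : Nat.beq kd 1 with _ | _
  swap
  · have h1' : Nat.beq kd (nat_lit 1) = true := h1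
    rw [h1', cond_true] at hk
    unfold lg1X at hk
    rw [brc, brc] at hk
    obtain ⟨h2, h3⟩ := cnd_ne hk
    obtain ⟨h4, h5⟩ := cnd_eq h3
    obtain ⟨n1, n2⟩ := nmul h2
    obtain ⟨n3, n4⟩ := nmul n1
    have hmid := mid_of h4
    have e1 := nxor' n2
    have hpq : p ≠ q := fun h' => e1 (by rw [h'])
    rw [sr1, sr1] at e1
    refine fin 1 (by unfold lsW; rw [h0, h1]; rfl) ?_
    unfold lst
    simp only [force_eq]
    rw [h0, cond_false, okw_of h.wok hp n3, okw_of h.wok hq n4, nbeq_false hpq, hmid, h1, sr1, sr1,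
      nbeq_false e1]
    exact h5
  have h1' : Nat.beq kd (nat_lit 1) = false := h1
  rw [h1', cond_false] at hk
  refine fin 2 (by unfold lsW; rw [h0, h1]; rfl) ?_
  unfold lst
  simp only [force_eq]
  rcases h2 : Nat.beq kd 2 with _ | _
  · have h2' : Nat.beq kd (nat_lit 2) = false := h2
    rw [h2', cond_false] at hk
    unfold lg2X at hk
    rw [brc, brc, mvK_eq] at hk
    obtain ⟨h3, h4⟩ := cnd_ne hk
    obtain ⟨h5, h6⟩ := cnd_eq h4
    obtain ⟨n1, n2⟩ := nmul h3
    obtain ⟨m1, m2⟩ := nlor h5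
    obtain ⟨m3, m4⟩ := nlor m1
    have hmid := mid_of m4
    have hqp : q ≠ p := nxor' n2
    have e2 := nxor m2
    rw [sr1, sr1] at e2
    have o1 := okw_of h.wok hp n1
    have m3 : Nat.land (qd (wp X) q) 1 = 0 := m3
    rw [h0, cond_false, o1, okw_congr e2 o1, nbeq_false hqp.symm, hmid, h1, sr1, sr1, e2,
      Nat.beq_refl, m3]
    rw [sbLX_eq] at h6
    exact h6
  · have h2' : Nat.beq kd (nat_lit 2) = true := h2
    rw [h2', cond_true] at hk
    unfold lg2X at hk
    rw [brc, brc, mvK_eq] at hk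
    obtain ⟨h3, h4⟩ := cnd_ne hk
    obtain ⟨h5, h6⟩ := cnd_eq h4
    obtain ⟨n1, n2⟩ := nmul h3
    obtain ⟨m1, m2⟩ := nlor h5
    obtain ⟨m3, m4⟩ := nlor m1
    have hmid := mid_of m4
    have hqp : p ≠ q := nxor' n2
    have e2 := nxor m2
    rw [sr1, sr1] at e2
    have o1 := okw_of h.wok hp n1
    have m3 : Nat.land (qd (wp X) p) 1 = 0 := m3
    rw [h0, cond_false, o1, okw_congr e2 o1, nbeq_false hqp, hmid, h1, sr1, sr1, e2,
      Nat.beq_refl, m3]
    rw [sbLX_eq] at h6
    exact h6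

theorem lgsX_sound (hB : IsMUBs B) (n : ℕ) : ∀ {K : List (ℕ × ℕ)} {S X W : ℕ}
    {k : ℕ → ℕ → Bool} {col : Fin 8 → Option (Fin c)} {lab : Fin 8 → Bool}
    {f : Fin 8 → Fin 8 → ℤ},
    Rpr c X col lab f → K8 K → lgsX n K S X W k = true →
    ∃ X' col' lab' f' d, Rpr c X' col' lab' f' ∧
      (gv B col' lab' f').re = Real.sqrt 6 ^ d * (gve B col lab f (kf K)).re ∧
      k X' (W + d) = true := by
  induction n with
  | zero =>
    intro K S X W k col lab f h hK hk
    cases K with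
    | nil =>
      refine ⟨X, col, lab, f, 0, h, ?_, hk⟩
      have h2 : kf [] = [] := rfl
      rw [h2, gve_nil, pow_zero, one_mul]
    | cons z K => exact absurd hk (by simp [lgsX])
  | succ n ih =>
    intro K S X W k col lab f h hK hk
    cases K with
    | nil => exact absurd hk (by simp [lgsX])
    | cons z K =>
      have e1 : lgsX (n + 1) (z :: K) S X W k
          = lstX (Nat.land S 3) z.1 z.2 (qd (wp X) z.1) (qd (wp X) z.2) K X W
            fun K'' X' W' => lgsX n K'' (Nat.shiftRight S 2) X' W' k := rfl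
      rw [e1] at hk
      have hz := hK z (by simp)
      obtain ⟨X1, K1, col1, lab1, f1, d1, a1, a2, a3, a4⟩ :=
        lstX_sound hB h hz.1 hz.2 (fun z' hz' => hK z' (by simp [hz'])) hk
      obtain ⟨X', col', lab', f', d2, b1, b2, b3⟩ := ih a1 a2 a4
      refine ⟨X', col', lab', f', d1 + d2, b1, ?_, by rw [← Nat.add_assoc]; exact b3⟩
      rw [b2, a3, pow_add]; ring

/-! ### recognition -/

theorem lor_zero_shl (w x : ℕ) : Nat.lor (Nat.shiftLeft 0 w) x = x := by
  show (0 <<< w) ||| x = x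
  rw [Nat.zero_shiftLeft, Nat.zero_or]

theorem shr_shr (q a b : ℕ) : Nat.shiftRight (Nat.shiftRight q a) b = Nat.shiftRight q (a + b) :=
  (Nat.shiftRight_add q a b).symm

theorem fl8 (w : ℕ) (f : ℕ → ℕ) (q : ℕ) : fl w f 8 q 0 =
    Nat.lor (Nat.shiftLeft (Nat.lor (Nat.shiftLeft (Nat.lor (Nat.shiftLeft (Nat.lor
      (Nat.shiftLeft (Nat.lor (Nat.shiftLeft (Nat.lor (Nat.shiftLeft (Nat.lor (Nat.shiftLeft
      (f (Nat.land q 15)) w) (f (Nat.land (Nat.shiftRight q 4) 15))) w)
      (f (Nat.land (Nat.shiftRight q 8) 15))) w) (f (Nat.land (Nat.shiftRight q 12) 15))) w)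
      (f (Nat.land (Nat.shiftRight q 16) 15))) w) (f (Nat.land (Nat.shiftRight q 20) 15))) w)
      (f (Nat.land (Nat.shiftRight q 24) 15))) w) (f (Nat.land (Nat.shiftRight q 28) 15)) := by
  have h : fl w f 8 q 0 =
    Nat.lor (Nat.shiftLeft (Nat.lor (Nat.shiftLeft (Nat.lor (Nat.shiftLeft (Nat.lor
      (Nat.shiftLeft (Nat.lor (Nat.shiftLeft (Nat.lor (Nat.shiftLeft (Nat.lor (Nat.shiftLeft
      (Nat.lor (Nat.shiftLeft 0 w) (f (Nat.land q 15))) w)
      (f (Nat.land (Nat.shiftRight q 4) 15))) w)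
      (f (Nat.land (Nat.shiftRight (Nat.shiftRight q 4) 4) 15))) w)
      (f (Nat.land (Nat.shiftRight (Nat.shiftRight (Nat.shiftRight q 4) 4) 4) 15))) w)
      (f (Nat.land (Nat.shiftRight (Nat.shiftRight (Nat.shiftRight (Nat.shiftRight q 4) 4) 4) 4)
        15))) w)
      (f (Nat.land (Nat.shiftRight (Nat.shiftRight (Nat.shiftRight (Nat.shiftRight
        (Nat.shiftRight q 4) 4) 4) 4) 4) 15))) w)
      (f (Nat.land (Nat.shiftRight (Nat.shiftRight (Nat.shiftRight (Nat.shiftRight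
        (Nat.shiftRight (Nat.shiftRight q 4) 4) 4) 4) 4) 4) 15))) w)
      (f (Nat.land (Nat.shiftRight (Nat.shiftRight (Nat.shiftRight (Nat.shiftRight
        (Nat.shiftRight (Nat.shiftRight (Nat.shiftRight q 4) 4) 4) 4) 4) 4) 4) 15)) := rfl
  rw [h, lor_zero_shl]
  simp only [shr_shr]

theorem prmX_eq (M q : ℕ) : prmX M q = prm 8 M q := by
  unfold prm pr
  rw [fl8, fl8]
  rfl

theorem pwX_eq (W t q : ℕ) : pwX W t q = pw 8 W t q := by
  unfold pw
  rw [fl8]
  rfl

theorem rvX'_sound (hB : IsMUBs B) {b X : ℕ} {k : ℕ → Bool}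
    {col : Fin 8 → Option (Fin c)} {lab : Fin 8 → Bool} {f : Fin 8 → Fin 8 → ℤ}
    (h : Rpr c X col lab f) (hk : rvX' b X k = true) :
    ∃ X', Asy 8 X' ∧ Wok 8 c X' ∧ vB B 8 c X' = (gv B col lab f).re ∧ k X' = true := by
  unfold rvX' at hk
  rw [brc, brc] at hk
  rcases h0 : Nat.beq b (nat_lit 0) with _ | _
  · rw [h0, cond_false] at hk
    obtain ⟨h1, h2⟩ := cnd_eq hk
    have h3 := h.rv (mid_of h1)
    exact ⟨rvX X, h3.asy, h3.wok, by rw [← h3.val hB, gv_neg_re hB], h2⟩
  · rw [h0, cond_true] at hk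
    exact ⟨X, h.asy, h.wok, (h.val hB).symm, hk⟩

/-- facts from the recognition. -/
theorem finX_facts {par TT C s t q X W : ℕ} (h : finX par TT C s t q X W = true) :
    ckJ X t q C = true ∧ (W + parC C + par) % 2 = 0 ∧ (W + parC C) / 2 = s ∧ s ≤ TT := by
  have h0 : Nat.beq (Nat.lor (Nat.lor (Nat.xor (prmX X q) (Nat.land C
    39402006196394479212279040100143613805079739270465446667948293404245721771497210611414266254884915640806627990306815))
    (Nat.xor (pwX (Nat.shiftRight X 384) t q) (Nat.land (Nat.shiftRight C 384) 4294967295)))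
    (Nat.lor (Nat.lor (Nat.land (Nat.add (Nat.add W (parC C)) par) 1)
      (Nat.xor (Nat.shiftRight (Nat.add W (parC C)) 1) s)) (Nat.sub s TT))) 0 = true := h
  rw [Nat.beq_eq] at h0
  obtain ⟨h1, h2⟩ := nlor h0
  obtain ⟨h3, h4⟩ := nlor h1
  obtain ⟨h5, h6⟩ := nlor h2
  obtain ⟨h7, h8⟩ := nlor h5
  have e3 := nxor h3
  have e4 := nxor h4
  have e8 := nxor h8
  rw [la1] at h7
  rw [sr1] at e8
  refine ⟨?_, h7, e8, Nat.sub_eq_zero_iff_le.1 h6⟩
  unfold ckJ
  rw [Bool.and_eq_true, Nat.beq_eq, Nat.beq_eq]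
  rw [prmX_eq] at e3
  rw [pwX_eq] at e4
  exact ⟨e3, e4⟩

theorem rcdX_sound (hB : IsMUBs B) (hc : c ≤ 7) {T : ℕ} {cls mv : ℕ → ℕ}
    (hmv : ∀ i, mvOK c (mv i) = true) {a b nl : ℕ} (ha : a = 0 ∨ a = 1) (hb : b = 0 ∨ b = 1)
    {K : List (ℕ × ℕ)} {X r : ℕ} (hK : K8 K)
    {col : Fin 8 → Option (Fin c)} {lab : Fin 8 → Bool} {f : Fin 8 → Fin 8 → ℤ}
    (h : Rpr c X col lab f) (hr : rcdX c T cls mv (a + b) nl K X r = true) :
    (6 : ℝ) ^ T * (pwp a * pwp b * (gve B col lab f (kf K)).re)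
      = (mmb2 a b : ℝ) * ((6 ^ (T - Nat.land (Nat.shiftRight r 16) 7) : ℕ) : ℝ)
        * cvB B c (cls (Nat.land r 65535)) := by
  set M := mv (Nat.shiftRight r 20) with hM
  have hr' : lgsX nl K (Nat.shiftRight M 3) X 0 (fun X1 W1 =>
      scrX (Nat.land M 7) (mS c M) X1 W1 fun X2 W2 =>
      rvX' (Nat.land (Nat.shiftRight r 19) 1) X2 fun X3 =>
      finX (a + b) T (cls (Nat.land r 65535)) (Nat.land (Nat.shiftRight r 16) 7) (mT M)
        (mQ c M) X3 W2) = true := hr
  obtain ⟨X1, col1, lab1, f1, d1, a1, a2, a3⟩ := lgsX_sound hB nl h hK hr'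
  obtain ⟨X2', col2, lab2, f2, d2, b1', b3', b4'⟩ := scrX_sound hB _ a1 a3
  obtain ⟨X2, b1, b2, b3, b4⟩ := rvX'_sound hB b1' b4'
  rw [b3'] at b3
  obtain ⟨c1, c2, c3, c4⟩ := finX_facts b4
  rw [Nat.zero_add] at c2 c3
  have hm := hmv (Nat.shiftRight r 20)
  rw [← hM] at hm
  unfold mvOK at hm
  rw [Bool.and_eq_true] at hm
  have hv := ckJ_sound hB hc b1 b2 c1 hm.1 hm.2
  set C := cls (Nat.land r 65535) with hC
  set s := Nat.land (Nat.shiftRight r 16) 7 with hs
  have hpc : parC C = 0 ∨ parC C = 1 := by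
    have : parC C = Nat.shiftRight C 416 % 2 := by unfold parC; exact la1 _
    omega
  -- everything in powers of √6
  have h6 : (6 : ℝ) = Real.sqrt 6 ^ 2 := (Real.sq_sqrt (by norm_num)).symm
  set G := (gve B col lab f (kf K)).re with hG
  have hval : cvB B c C = Real.sqrt 6 ^ (d1 + d2 + parC C) * G := by
    unfold cvB
    rw [← hv, b3, a2, pwp_eq hpc, pow_add, pow_add]; ring
  rw [hval, pwp_eq ha, pwp_eq hb]
  obtain ⟨d, hd⟩ : ∃ d, T = s + d := ⟨T - s, by omega⟩
  have hTs : T - s = d := by omega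
  rw [hTs, hd]
  push_cast
  have hpar : (d1 + d2 + parC C) = 2 * s + (a + b) % 2 := by omega
  rw [hpar]
  have e6 : ∀ n : ℕ, (6 : ℝ) ^ n = Real.sqrt 6 ^ (2 * n) := fun n => by
    rw [pow_mul, ← h6]
  have hmm : Real.sqrt 6 ^ a * Real.sqrt 6 ^ b = (mmb2 a b : ℝ) * Real.sqrt 6 ^ ((a + b) % 2) := by
    have m00 : mmb2 0 0 = 1 := rfl
    have m01 : mmb2 0 1 = 1 := rfl
    have m10 : mmb2 1 0 = 1 := rfl
    have m11 : mmb2 1 1 = 6 := rfl
    rcases ha with rfl | rfl <;> rcases hb with rfl | rfl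
    · rw [m00]; simp
    · rw [m01]; simp
    · rw [m10]; simp
    · rw [m11]
      have h7 : Real.sqrt 6 * Real.sqrt 6 = 6 := Real.mul_self_sqrt (by norm_num)
      norm_num
  calc (6 : ℝ) ^ (s + d) * (Real.sqrt 6 ^ a * Real.sqrt 6 ^ b * G)
      = (6 : ℝ) ^ d * (6 : ℝ) ^ s * ((mmb2 a b : ℝ) * Real.sqrt 6 ^ ((a + b) % 2) * G) := by
        rw [hmm, pow_add]; ring
    _ = _ := by
        rw [pow_add (Real.sqrt 6), ← e6 s]; ring

/-! ### tables with large leaves -/

theorem TT.atX_eq (s ls w mk : ℕ) (t : TT) (i : ℕ) :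
    t.atX s ls w mk i = t.get w mk (Nat.shiftRight i s) (Nat.land i ls) := by
  have key : ∀ (t : TT) (hi lo : ℕ), TT.rec (motive := fun _ => ℕ → ℕ → ℕ)
      (fun C _ lo => Nat.land (Nat.shiftRight C (Nat.mul w lo)) mk)
      (fun _ _ ia ib hi lo => Bool.rec (motive := fun _ => ℕ)
        (ib (Nat.shiftRight hi (nat_lit 1)) lo)
        (ia (Nat.shiftRight hi (nat_lit 1)) lo)
        (Nat.beq (Nat.land hi (nat_lit 1)) (nat_lit 0))) t hi lo = t.get w mk hi lo := by
    intro t
    induction t with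
    | lf C => intro hi lo; rfl
    | nd a b iha ihb =>
      intro hi lo
      have e : (TT.nd a b).get w mk hi lo = Nat.rec (motive := fun _ => ℕ)
        (a.get w mk (Nat.shiftRight hi 1) lo)
        (fun _ _ => b.get w mk (Nat.shiftRight hi 1) lo) (Nat.land hi 1) := rfl
      rw [e, ← iha, ← ihb]
      show Bool.rec (motive := fun _ => ℕ) _ _ (Nat.beq (Nat.land hi 1) 0) = _
      generalize Nat.land hi 1 = z
      cases z with
      | zero => rfl
      | succ z => rfl
  exact key t _ _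

/-- all entries, leaves of `n` entries. -/
noncomputable def TT.allX (n w mk : ℕ) (p : ℕ → Bool) (t : TT) : Bool :=
  TT.rec (motive := fun _ => Bool)
    (fun C => allK n fun lo => p (Nat.land (Nat.shiftRight C (Nat.mul w lo)) mk))
    (fun _ _ ia ib => and ia ib) t

theorem TT.allX_spec {n w mk : ℕ} {p : ℕ → Bool} {t : TT} (h : t.allX n w mk p = true) :
    ∀ hi lo, lo < n → p (t.get w mk hi lo) = true := by
  induction t with
  | lf C =>
    intro hi lo hlo
    have h1 : allK n (fun lo => p (Nat.land (Nat.shiftRight C (Nat.mul w lo)) mk)) = true := h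
    exact allK_spec h1 lo hlo
  | nd a b iha ihb =>
    intro hi lo hlo
    have h1 : (TT.allX n w mk p a && TT.allX n w mk p b) = true := h
    rw [Bool.and_eq_true] at h1
    have e : (TT.nd a b).get w mk hi lo = Nat.rec (motive := fun _ => ℕ)
        (a.get w mk (Nat.shiftRight hi 1) lo)
        (fun _ _ => b.get w mk (Nat.shiftRight hi 1) lo) (Nat.land hi 1) := rfl
    rw [e]
    generalize Nat.land hi 1 = z
    cases z with
    | zero => exact iha h1.1 _ _ hlo
    | succ z => exact ihb h1.2 _ _ hlo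

theorem TT.atX_spec {n s ls w mk : ℕ} {p : ℕ → Bool} {t : TT} (h : t.allX n w mk p = true)
    (hls : Nat.blt ls n = true) (i : ℕ) : p (t.atX s ls w mk i) = true := by
  rw [TT.atX_eq]
  rw [Nat.blt_eq] at hls
  exact TT.allX_spec h _ _ (lt_of_le_of_lt Nat.and_le_right hls)

end Vale.Agent.P355.H998.E
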