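import Vale.Agent.P355.H998.E.Fl

/-! Records of vanishing products. -/

namespace Vale.Agent.P355.H998.E

open Finset Matrix Vale.Agent.P355 H147
open Vale.Agent.P355.H693 (net w2c re_rec pwp net_addE net_mrg re_rule1s)
open Vale.Agent.P355.H129 (force force_eq)

variable {m c k l : ℕ} {B : Fin m → M6}

/-- a free vertex `x` of level one between two labelled vertices of one colour. -/
def stzX (X x w y wx ww wy : ℕ) : Bool :=
  (Bool.rec (motive := fun _ => Bool) (Nat.beq (Nat.lor (Nat.lor (Nat.lor (Nat.lor (Nat.land wx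
    (nat_lit 1)) (Nat.xor (Nat.land ww (nat_lit 1)) (nat_lit 1))) (Nat.xor (Nat.land wy (nat_lit
    1)) (nat_lit 1))) (Nat.xor (Nat.shiftRight ww (nat_lit 1)) (Nat.shiftRight wy (nat_lit 1))))
    (Nat.xor (Nat.land (Nat.shiftRight X (Nat.mul (nat_lit 48) x)) (nat_lit 281474976710655))
    (Nat.sub (Nat.add (nat_lit 142971416741920) (Nat.shiftLeft (nat_lit 1) (Nat.mul (nat_lit 6)
    y))) (Nat.shiftLeft (nat_lit 1) (Nat.mul (nat_lit 6) w))))) (nat_lit 0)) false (Nat.beq
    (Nat.mul (Nat.mul (Nat.mul (Nat.shiftRight wx (nat_lit 1)) (Nat.shiftRight ww (nat_lit 1)))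
    (Nat.xor (Nat.shiftRight ww (nat_lit 1)) (Nat.shiftRight wx (nat_lit 1)))) (Nat.xor w y))
    (nat_lit 0)))

/-- the same for a step. -/
def stzS (X s : ℕ) : Bool :=
  (fun x w y : ℕ => stzX X x w y (Nat.land (Nat.shiftRight (Nat.shiftRight X (nat_lit 384))
    (Nat.mul (nat_lit 4) x)) (nat_lit 15)) (Nat.land (Nat.shiftRight (Nat.shiftRight X (nat_lit
    384)) (Nat.mul (nat_lit 4) w)) (nat_lit 15)) (Nat.land (Nat.shiftRight (Nat.shiftRight X
    (nat_lit 384)) (Nat.mul (nat_lit 4) y)) (nat_lit 15))) (Nat.land (Nat.shiftRight s (nat_lit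
    2)) (nat_lit 7)) (Nat.land (Nat.shiftRight s (nat_lit 5)) (nat_lit 7)) (Nat.land
    (Nat.shiftRight s (nat_lit 8)) (nat_lit 7))

/-- a bracket of two labelled vertices of one colour. -/
def lgzX (p q wp wq : ℕ) : Bool :=
  (Bool.rec (motive := fun _ => Bool) (Nat.beq (Nat.lor (Nat.lor (Nat.xor (Nat.land wp (nat_lit
    1)) (nat_lit 1)) (Nat.xor (Nat.land wq (nat_lit 1)) (nat_lit 1))) (Nat.xor (Nat.shiftRight wp
    (nat_lit 1)) (Nat.shiftRight wq (nat_lit 1)))) (nat_lit 0)) false (Nat.beq (Nat.mul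
    (Nat.shiftRight wp (nat_lit 1)) (Nat.xor p q)) (nat_lit 0)))

/-- `n` leg steps. -/
def lgkX (n : ℕ) : List (ℕ × ℕ) → ℕ → ℕ → ℕ → (List (ℕ × ℕ) → ℕ → ℕ → Bool) → Bool :=
  Nat.rec (motive := fun _ => List (ℕ × ℕ) → ℕ → ℕ → ℕ → (List (ℕ × ℕ) → ℕ → ℕ → Bool) → Bool)
    (fun K _ X W k => k K X W)
    (fun _ ih K S X W k => List.rec (motive := fun _ => Bool) false
      (fun z K' _ => (fun p q : ℕ => lstX (Nat.land S (nat_lit 3)) p q (Nat.land (Nat.shiftRight
        (Nat.shiftRight X (nat_lit 384)) (Nat.mul (nat_lit 4) p)) (nat_lit 15)) (Nat.land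
        (Nat.shiftRight (Nat.shiftRight X (nat_lit 384)) (Nat.mul (nat_lit 4) q)) (nat_lit 15)) K'
        X W fun K'' X' W' =>
        ih K'' (Nat.shiftRight S (nat_lit 2)) X' W' k) z.1 z.2) K) n

/-- a zero record. -/
def zrX (c : ℕ) (mv : ℕ → ℕ) (nl : ℕ) (K : List (ℕ × ℕ)) (X r : ℕ) : Bool :=
  (fun M : ℕ => (Bool.rec (motive := fun _ => Bool) (lgkX (Nat.land M (nat_lit 7)) K
    (Nat.shiftRight M (nat_lit 3)) X 0 fun K1 X1 _ => List.rec (motive := fun _ => Bool) false
    (fun z _ _ => (fun p q : ℕ => lgzX p q (Nat.land (Nat.shiftRight (Nat.shiftRight X1 (nat_lit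
    384)) (Nat.mul (nat_lit 4) p)) (nat_lit 15)) (Nat.land (Nat.shiftRight (Nat.shiftRight X1
    (nat_lit 384)) (Nat.mul (nat_lit 4) q)) (nat_lit 15))) z.1 z.2) K1) (lgsX nl K (Nat.shiftRight
    M (nat_lit 3)) X 0 fun X1 W1 => scrX (Nat.land M (nat_lit 7)) (Nat.shiftRight M (Nat.add
    (nat_lit 41) (Nat.mul (nat_lit 4) c))) X1 W1 fun X2 _ => stzS X2 (Nat.shiftRight
    (Nat.shiftRight M (Nat.add (nat_lit 41) (Nat.mul (nat_lit 4) c))) (Nat.mul (nat_lit 11)
    (Nat.land M (nat_lit 7))))) (Nat.beq (Nat.land (Nat.shiftRight r (nat_lit 19)) (nat_lit 1))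
    (nat_lit 0)))) (mv (Nat.shiftRight r (nat_lit 20)))

/-- a record, possibly of a vanishing product (exponent field `7`). -/
def rcdZ (c TT : ℕ) (cls mv : ℕ → ℕ) (par nl : ℕ) (K : List (ℕ × ℕ)) (X r : ℕ) : Bool :=
  (Bool.rec (motive := fun _ => Bool) (rcdX c TT cls mv par nl K X r) (zrX c mv nl K X r) (Nat.beq
    (Nat.land (Nat.shiftRight r (nat_lit 16)) (nat_lit 7)) (nat_lit 7)))

theorem odd_of {a : ℕ} (h : Nat.xor (Nat.land a (nat_lit 1)) (nat_lit 1) = 0) : a % 2 = 1 := by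
  have h1 : Nat.land a 1 = 1 := nxor h
  rw [la1] at h1
  exact h1

theorem stzX_sound (hB : IsMUBs B) {X x w y : ℕ}
    {col : Fin 8 → Option (Fin c)} {lab : Fin 8 → Bool} {f : Fin 8 → Fin 8 → ℤ}
    (h : Rpr c X col lab f) (hx8 : x < 8) (hw8 : w < 8) (hy8 : y < 8)
    (hk : stzX X x w y (qd (wp X) x) (qd (wp X) w) (qd (wp X) y) = true) :
    (gv B col lab f).re = 0 := by
  unfold stzX at hk
  rw [brc] at hk
  obtain ⟨h1, h2⟩ := cnd_ne hk
  rw [Nat.beq_eq] at h2
  obtain ⟨n1, n2⟩ := nmul h1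
  obtain ⟨n3, n4⟩ := nmul n1
  obtain ⟨n5, n6⟩ := nmul n3
  obtain ⟨m1, m2⟩ := nlor h2
  obtain ⟨m3, m4⟩ := nlor m1
  obtain ⟨m5, m6⟩ := nlor m3
  obtain ⟨m7, m8⟩ := nlor m5
  have hokx := okw_of h.wok hx8 n5
  have hokw := okw_of h.wok hw8 n6
  have e1 := nxor' n4
  have e2 := nxor m4
  rw [sr1, sr1] at e1 e2
  have hoky := okw_congr e2 hokw
  have hrow : rwX X x = rowL w y := nxor m2
  have hne : w ≠ y := nxor' n2
  set xf : Fin 8 := ⟨x, hx8⟩ with hxf
  set wf : Fin 8 := ⟨w, hw8⟩ with hwf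
  set yf : Fin 8 := ⟨y, hy8⟩ with hyf
  have ccx : col xf = w2c c (qd (wp X) x) := (h.cl xf).symm
  have ccw : col wf = w2c c (qd (wp X) w) := (h.cl wf).symm
  have ccy : col yf = w2c c (qd (wp X) y) := (h.cl yf).symm
  have hcx : col xf ≠ none := by rw [ccx]; exact okw_ne hokx
  have hcw : col wf ≠ none := by rw [ccw]; exact okw_ne hokw
  have hcy : col yf ≠ none := by rw [ccy]; exact okw_ne hoky
  have hcc : col wf = col yf := by rw [ccw, ccy]; exact H693.w2c_congr e2
  have hnw : col wf ≠ col xf := by rw [ccw, ccx]; exact w2c_ne' hokw hokx e1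
  have hny : col yf ≠ col xf := by rw [← hcc]; exact hnw
  have hwyf : wf ≠ yf := fun h' => hne (congrArg Fin.val h')
  have hlx : lab xf = false := by
    refine lab_free h hcx ?_
    rw [Nat.beq_eq]; exact m7
  have hlw : lab wf = true := by
    rw [← h.lb wf hcw]
    show (qd (wp X) w % 2 == 1) = true
    rw [odd_of m8]; rfl
  have hly : lab yf = true := by
    rw [← h.lb yf hcy]
    show (qd (wp X) y % 2 == 1) = true
    rw [odd_of m6]; rfl
  have hpe := peers_free col lab xf hlx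
  have hl1 := lev1_of h hcx hcw hcy hnw hny hwyf hrow
  have hr := re_rule1s hB (lab := lab) col f xf wf yf hcx hl1 hcc hlw hly
  rw [hpe, Finset.sum_empty, add_zero] at hr
  linarith

theorem lgzX_sound (hB : IsMUBs B) {X p q : ℕ} {K : List (ℕ × ℕ)}
    {col : Fin 8 → Option (Fin c)} {lab : Fin 8 → Bool} {f : Fin 8 → Fin 8 → ℤ}
    (h : Rpr c X col lab f) (hp : p < 8) (hq : q < 8)
    (hk : lgzX p q (qd (wp X) p) (qd (wp X) q) = true) :
    (gve B col lab f (kf ((p, q) :: K))).re = 0 := by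
  unfold lgzX at hk
  rw [brc] at hk
  obtain ⟨h1, h2⟩ := cnd_ne hk
  rw [Nat.beq_eq] at h2
  obtain ⟨n1, n2⟩ := nmul h1
  obtain ⟨m1, m2⟩ := nlor h2
  obtain ⟨m3, m4⟩ := nlor m1
  have hokp := okw_of h.wok hp n1
  have e2 := nxor m2
  rw [sr1, sr1] at e2
  have ccp : col (sl p) = w2c c (qd (wp X) p) := by
    rw [← h.cl]; unfold colB; rw [sl_val hp]
  have ccq : col (sl q) = w2c c (qd (wp X) q) := by
    rw [← h.cl]; unfold colB; rw [sl_val hq]
  have hcp : col (sl p) ≠ none := by rw [ccp]; exact okw_ne hokp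
  have hcc : col (sl p) = col (sl q) := by rw [ccp, ccq]; exact H693.w2c_congr e2
  have hcq : col (sl q) ≠ none := by rw [← hcc]; exact hcp
  have hsne : sl p ≠ sl q := fun h' => nxor' n2 ((sl_inj hp hq).1 h')
  have hlp : lab (sl p) = true := by
    rw [← h.lb _ hcp]
    unfold labB
    rw [sl_val hp, odd_of m3]; rfl
  have hlq : lab (sl q) = true := by
    rw [← h.lb _ hcq]
    unfold labB
    rw [sl_val hq, odd_of m4]; rfl
  have hkf : kf ((p, q) :: K) = (sl p, sl q) :: kf K := rfl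
  rw [hkf, gve_zero hB col f (sl p) (sl q) hsne hcp hcc hlp hlq, Complex.zero_re]

theorem lgkX_sound (hB : IsMUBs B) (n : ℕ) : ∀ {K : List (ℕ × ℕ)} {S X W : ℕ}
    {k : List (ℕ × ℕ) → ℕ → ℕ → Bool} {col : Fin 8 → Option (Fin c)} {lab : Fin 8 → Bool}
    {f : Fin 8 → Fin 8 → ℤ},
    Rpr c X col lab f → K8 K → lgkX n K S X W k = true →
    ∃ X' K' col' lab' f' d, Rpr c X' col' lab' f' ∧ K8 K' ∧
      (gve B col' lab' f' (kf K')).re = Real.sqrt 6 ^ d * (gve B col lab f (kf K)).re ∧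
      k K' X' (W + d) = true := by
  induction n with
  | zero =>
    intro K S X W k col lab f h hK hk
    exact ⟨X, K, col, lab, f, 0, h, hK, by rw [pow_zero, one_mul], hk⟩
  | succ n ih =>
    intro K S X W k col lab f h hK hk
    cases K with
    | nil => exact absurd hk (by simp [lgkX])
    | cons z K =>
      have e1 : lgkX (n + 1) (z :: K) S X W k
          = lstX (Nat.land S 3) z.1 z.2 (qd (wp X) z.1) (qd (wp X) z.2) K X W
            fun K'' X' W' => lgkX n K'' (Nat.shiftRight S 2) X' W' k := rfl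
      rw [e1] at hk
      have hz := hK z (by simp)
      obtain ⟨X1, K1, col1, lab1, f1, d1, a1, a2, a3, a4⟩ :=
        lstX_sound hB h hz.1 hz.2 (fun z' hz' => hK z' (by simp [hz'])) hk
      obtain ⟨X', K', col', lab', f', d2, b1, b2, b3, b4⟩ := ih a1 a2 a4
      refine ⟨X', K', col', lab', f', d1 + d2, b1, b2, ?_, by rw [← Nat.add_assoc]; exact b4⟩
      rw [b3, a3, pow_add]; ring

theorem zero_of {a b : ℝ} {d : ℕ} (h : a = Real.sqrt 6 ^ d * b) (ha : a = 0) : b = 0 := by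
  rw [ha] at h
  have h1 : Real.sqrt 6 ^ d ≠ 0 := by positivity
  rcases mul_eq_zero.1 h.symm with h2 | h2
  · exact absurd h2 h1
  · exact h2

theorem zrX_sound (hB : IsMUBs B) {mv : ℕ → ℕ} {nl : ℕ} {K : List (ℕ × ℕ)} {X r : ℕ}
    (hK : K8 K) {col : Fin 8 → Option (Fin c)} {lab : Fin 8 → Bool} {f : Fin 8 → Fin 8 → ℤ}
    (h : Rpr c X col lab f) (hr : zrX c mv nl K X r = true) :
    (gve B col lab f (kf K)).re = 0 := by
  set M := mv (Nat.shiftRight r 20) with hM
  have hr' : @Bool.rec (fun _ => Bool)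
      (lgkX (Nat.land M 7) K (Nat.shiftRight M 3) X 0 fun K1 X1 _ =>
        List.rec (motive := fun _ => Bool) false
          (fun z _ _ => lgzX z.1 z.2 (qd (wp X1) z.1) (qd (wp X1) z.2)) K1)
      (lgsX nl K (Nat.shiftRight M 3) X 0 fun X1 W1 =>
        scrX (Nat.land M 7) (mS c M) X1 W1 fun X2 _ =>
          stzS X2 (Nat.shiftRight (mS c M) (Nat.mul 11 (Nat.land M 7))))
      (Nat.beq (Nat.land (Nat.shiftRight r 19) 1) 0) = true := hr
  rw [brc] at hr'
  rcases h0 : Nat.beq (Nat.land (Nat.shiftRight r 19) 1) 0 with _ | _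
  · rw [h0, cond_false] at hr'
    obtain ⟨X1, K1, col1, lab1, f1, d, a1, a2, a3, a4⟩ := lgkX_sound hB _ h hK hr'
    cases K1 with
    | nil => exact absurd a4 (by simp)
    | cons z K1 =>
      have hz := a2 z (by simp)
      have a5 : lgzX z.1 z.2 (qd (wp X1) z.1) (qd (wp X1) z.2) = true := a4
      have a6 := lgzX_sound hB (K := K1) a1 hz.1 hz.2 a5
      exact zero_of a3 a6
  · rw [h0, cond_true] at hr'
    obtain ⟨X1, col1, lab1, f1, d1, a1, a2, a3⟩ := lgsX_sound hB nl h hK hr'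
    obtain ⟨X2, col2, lab2, f2, d2, b1, b2, b3⟩ := scrX_sound hB _ a1 a3
    set s := Nat.shiftRight (mS c M) (Nat.mul 11 (Nat.land M 7)) with hs
    have b4 : stzX X2 (Nat.land (Nat.shiftRight s 2) 7) (Nat.land (Nat.shiftRight s 5) 7)
        (Nat.land (Nat.shiftRight s 8) 7) (qd (wp X2) (Nat.land (Nat.shiftRight s 2) 7))
        (qd (wp X2) (Nat.land (Nat.shiftRight s 5) 7))
        (qd (wp X2) (Nat.land (Nat.shiftRight s 8) 7)) = true := b3
    have b5 := stzX_sound hB b1 (land7 _) (land7 _) (land7 _) b4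
    exact zero_of a2 (zero_of b2 b5)

/-- reading of the records; exponent `7`: zero. -/
def RcZ (T rw : ℕ) : Rec where
  rw := rw
  fi := fun e => Nat.land e 65535
  fm := fun e => Bool.rec (motive := fun _ => ℕ)
    (Nat.pow 6 (Nat.sub T (Nat.land (Nat.shiftRight e 16) 7))) 0
    (Nat.beq (Nat.land (Nat.shiftRight e 16) 7) 7)

theorem RcZ_zero {T rw e : ℕ} (h : Nat.beq (Nat.land (Nat.shiftRight e 16) 7) 7 = true) :
    (RcZ T rw).fm e = 0 := by
  show Bool.rec (motive := fun _ => ℕ) _ _ (Nat.beq (Nat.land (Nat.shiftRight e 16) 7) 7) = 0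
  rw [h]

theorem RcZ_ne {T rw e : ℕ} (h : Nat.beq (Nat.land (Nat.shiftRight e 16) 7) 7 = false) :
    (RcZ T rw).fm e = 6 ^ (T - Nat.land (Nat.shiftRight e 16) 7) := by
  show Bool.rec (motive := fun _ => ℕ) _ _ (Nat.beq (Nat.land (Nat.shiftRight e 16) 7) 7) = _
  rw [h]
  rfl

theorem RcZ_le (T rw e : ℕ) : (RcZ T rw).fm e ≤ 6 ^ T := by
  rcases h : Nat.beq (Nat.land (Nat.shiftRight e 16) 7) 7 with _ | _
  · rw [RcZ_ne h]
    exact Nat.pow_le_pow_right (by norm_num) (Nat.sub_le _ _)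
  · rw [RcZ_zero h]; exact Nat.zero_le _

theorem prod_soundZ [NeZero c] (hB : IsMUBs B) (hc : c ≤ 7) {T : TyD} {TT rw : ℕ}
    {cls mv : ℕ → ℕ} (hmv : ∀ i, mvOK c (mv i) = true) {e : GD} {x y : PF}
    (hT : T.Ok c) (he : e.Ok c k l T) (hx : x.Ok c k l T)
    (hy : y.Ok c k l T) {r : ℕ}
    (hr : rcdZ c TT cls mv (Nat.add x.b y.b) (Nat.add k l) (mkK (eL e y (k + l)) x.pt k)
      (Nat.add x.F (img e y)) r = true) :
    (6 : ℝ) ^ TT * (sb x.b * sb y.b
        * (T.ty c).M B (x.dec c k l) ((sy c k l e).act (y.dec c k l)))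
      = (mmu x.b y.b : ℝ) * (RcZ TT rw).fm r * cvB B c (cls ((RcZ TT rw).fi r)) := by
  unfold rcdZ at hr
  rw [brc] at hr
  rcases h0 : Nat.beq (Nat.land (Nat.shiftRight r 16) 7) 7 with _ | _
  · have h0' : Nat.beq (Nat.land (Nat.shiftRight r (nat_lit 16)) (nat_lit 7)) (nat_lit 7)
        = false := h0
    rw [h0', cond_false] at hr
    have h2 := prod_soundX (rw := rw) hB hc hmv hT he hx hy hr
    rw [h2, RcZ_ne h0]
    rfl
  · have h0' : Nat.beq (Nat.land (Nat.shiftRight r (nat_lit 16)) (nat_lit 7)) (nat_lit 7)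
        = true := h0
    rw [h0', cond_true] at hr
    have h1 := prod_rpr hT he hx hy hc ((sy c k l e).act (y.dec c k l)) (sy_col e _) (sy_net e _)
    have hcx := PF.clean hx
    have hcy := LSym_clean (sy_ok hT he) (PF.clean hy)
    have hK : K8 (mkK (eL e y (k + l)) x.pt k) := by
      intro z hz
      have hx8 : ∀ p ∈ x.pt, p < 8 := fun p hp => (hx.ks p hp).1
      have hy8 := eL_lt hT he hy
      rcases mem_mkK _ _ _ _ hz with h | h
      · exact ⟨hy8 _ h.1, hx8 _ h.2⟩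
      · exact ⟨hx8 _ h.1, hy8 _ h.2⟩
    rw [Lty.M_eq (T.ty c) (TyD.ty_ok hT) hB _ _ hcx hcy, ← kf_mkK hT he hx hy,
      zrX_sound hB hK h1 hr, RcZ_zero h0]
    simp

/-- products of a flag with a list of images; `E`: the records. -/
def grpZ (c TT : ℕ) (cls mv : ℕ → ℕ) (rw mk par kk kl F : ℕ) (xp : List ℕ)
    (IM : List (ℕ × List ℕ)) : ℕ → Bool :=
  List.rec (motive := fun _ => ℕ → Bool) (fun _ => true)
    (fun z _ ih E => Bool.rec (motive := fun _ => Bool) false (ih (Nat.shiftRight E rw))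
      (rcdZ c TT cls mv par kl (mkK z.2 xp kk) (Nat.add F z.1) (Nat.land E mk))) IM

theorem grpZ_spec {c TT : ℕ} {cls mv : ℕ → ℕ} {w mk par kk kl F : ℕ} {xp : List ℕ}
    (hmk : mk = 2 ^ w - 1) : ∀ {IM : List (ℕ × List ℕ)} {E : ℕ},
    grpZ c TT cls mv w mk par kk kl F xp IM E = true → ∀ j < IM.length,
      rcdZ c TT cls mv par kl (mkK (IM.getD j (0, [])).2 xp kk)
        (Nat.add F (IM.getD j (0, [])).1) (fld w E j) = true
  | [], E, _, j, hj => absurd hj (by simp)
  | z :: IM, E, h, j, hj => by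
    have e1 : grpZ c TT cls mv w mk par kk kl F xp (z :: IM) E
        = Bool.rec (motive := fun _ => Bool) false
          (grpZ c TT cls mv w mk par kk kl F xp IM (Nat.shiftRight E w))
          (rcdZ c TT cls mv par kl (mkK z.2 xp kk) (Nat.add F z.1) (Nat.land E mk)) := rfl
    rw [e1, brc] at h
    rcases h1 : rcdZ c TT cls mv par kl (mkK z.2 xp kk) (Nat.add F z.1) (Nat.land E mk) with _ | _
    · rw [h1, cond_false] at h; exact absurd h (by simp)
    rw [h1, cond_true] at h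
    cases j with
    | zero =>
      have e2 : Nat.land E mk = E % 2 ^ w := by
        rw [hmk]; exact Nat.and_two_pow_sub_one_eq_mod E w
      rw [fld_zero, ← e2]
      exact h1
    | succ j =>
      rw [fld_succ]
      exact grpZ_spec hmk h j (by simpa using hj)

/-- one column: flags `xs` with the images `IM`; `W`: shift, `W'`: mask of a group of records. -/
def colRZ (c TT : ℕ) (cls mv : ℕ → ℕ) (rw mk kk kl W W' b : ℕ) (IM : List (ℕ × List ℕ))
    (xs : List PF) : List ℕ → Bool :=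
  List.rec (motive := fun _ => List ℕ → Bool) (fun _ => true)
    (fun x _ ih Es => List.rec (motive := fun _ => Bool) false
      (fun E Es' _ => Bool.rec (motive := fun _ => Bool) false (ih Es')
        (grpZ c TT cls mv rw mk (Nat.add x.b b) kk kl x.F x.pt IM
          (Nat.land (Nat.shiftRight E W) W'))) Es) xs

theorem colRZ_spec {c TT : ℕ} {cls mv : ℕ → ℕ} {w mk kk kl W W' b : ℕ}
    {IM : List (ℕ × List ℕ)} : ∀ {xs : List PF} {Es : List ℕ},
    colRZ c TT cls mv w mk kk kl W W' b IM xs Es = true → ∀ i < xs.length,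
      grpZ c TT cls mv w mk (Nat.add (xs.getD i pf0).b b) kk kl (xs.getD i pf0).F
        (xs.getD i pf0).pt IM (Nat.land (Nat.shiftRight (Es.getD i 0) W) W') = true
  | [], Es, _, i, hi => absurd hi (by simp)
  | x :: xs, [], h, i, hi => absurd h (by simp [colRZ])
  | x :: xs, E :: Es, h, i, hi => by
    have e1 : colRZ c TT cls mv w mk kk kl W W' b IM (x :: xs) (E :: Es)
        = Bool.rec (motive := fun _ => Bool) false
          (colRZ c TT cls mv w mk kk kl W W' b IM xs Es)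
          (grpZ c TT cls mv w mk (Nat.add x.b b) kk kl x.F x.pt IM
          (Nat.land (Nat.shiftRight E W) W')) := rfl
    rw [e1, brc] at h
    rcases h1 : grpZ c TT cls mv w mk (Nat.add x.b b) kk kl x.F x.pt IM
          (Nat.land (Nat.shiftRight E W) W') with _ | _
    · rw [h1, cond_false] at h; exact absurd h (by simp)
    rw [h1, cond_true] at h
    cases i with
    | zero => exact h1
    | succ i => exact colRZ_spec h i (by simpa using hi)

/-- `cnt` columns from `l` on; `xs`, `Es`: flags and records from `l` on. -/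
def colsZ (c TT : ℕ) (cls mv : ℕ → ℕ) (rw n kk kl : ℕ) (es : List GD) (cnt : ℕ) :
    ℕ → List PF → List ℕ → Bool :=
  Nat.rec (motive := fun _ => ℕ → List PF → List ℕ → Bool) (fun _ _ _ => true)
    (fun _ ih l xs Es => List.rec (motive := fun _ => Bool) false
      (fun y xs' _ => List.rec (motive := fun _ => Bool) false
        (fun _ Es' _ => and (imF kl y es fun IM =>
          force (Nat.mul (Nat.mul rw n) l) fun W =>
          force (Nat.sub (Nat.pow 2 (Nat.mul rw n)) 1) fun W' =>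
          force (Nat.sub (Nat.pow 2 rw) 1) fun mk => force y.b fun b =>
          colRZ c TT cls mv rw mk kk kl W W' b IM xs Es) (ih (Nat.succ l) xs' Es')) Es) xs) cnt

theorem colsZ_spec {c TT : ℕ} {cls mv : ℕ → ℕ} {w n kk kl : ℕ} {es : List GD} :
    ∀ {cnt l : ℕ} {xs : List PF} {Es : List ℕ},
    colsZ c TT cls mv w n kk kl es cnt l xs Es = true → ∀ d < cnt, ∀ i, d ≤ i → i < xs.length →
      ∀ j (hj : j < es.length),
      rcdZ c TT cls mv (Nat.add (xs.getD i pf0).b (xs.getD d pf0).b) kl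
        (mkK (eL es[j] (xs.getD d pf0) kl) (xs.getD i pf0).pt kk)
        (Nat.add (xs.getD i pf0).F (img es[j] (xs.getD d pf0)))
        (fld w ((Es.getD i 0) >>> (w * n * (l + d)) % 2 ^ (w * n)) j) = true
  | 0, l, xs, Es, _, d, hd => absurd hd (by simp)
  | cnt + 1, l, [], Es, h, d, hd => absurd h (by simp [colsZ])
  | cnt + 1, l, y :: xs, [], h, d, hd => absurd h (by simp [colsZ])
  | cnt + 1, l, y :: xs, E :: Es, h, d, hd => by
    intro i hdi hi j hj
    have e1 : colsZ c TT cls mv w n kk kl es (cnt + 1) l (y :: xs) (E :: Es)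
        = ((imF kl y es fun IM =>
          force (Nat.mul (Nat.mul w n) l) fun W =>
          force (Nat.sub (Nat.pow 2 (Nat.mul w n)) 1) fun W' =>
          force (Nat.sub (Nat.pow 2 w) 1) fun mk => force y.b fun b =>
          colRZ c TT cls mv w mk kk kl W W' b IM (y :: xs) (E :: Es)) &&
          colsZ c TT cls mv w n kk kl es cnt (Nat.succ l) xs Es) := rfl
    rw [e1, Bool.and_eq_true] at h
    simp only [force_eq, imF_eq] at h
    cases d with
    | zero =>
      have h2 := colRZ_spec h.1 i hi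
      have hmk : Nat.sub (Nat.pow 2 w) 1 = 2 ^ w - 1 := rfl
      have h3 := grpZ_spec hmk h2 j (by simpa using hj)
      have e2 : ((es.map fun e => (img e y, eL e y kl)).getD j (0, []))
          = (img es[j] y, eL es[j] y kl) := by
        simp [List.getD_eq_getElem?_getD, hj]
      rw [e2] at h3
      have e3 : Nat.land (Nat.shiftRight ((E :: Es).getD i 0) (Nat.mul (Nat.mul w n) l))
          (Nat.sub (Nat.pow 2 (Nat.mul w n)) 1)
          = ((E :: Es).getD i 0) >>> (w * n * (l + 0)) % 2 ^ (w * n) := by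
        rw [Nat.add_zero]
        exact Nat.and_two_pow_sub_one_eq_mod _ _
      rw [e3] at h3
      have e4 : (y :: xs).getD 0 pf0 = y := rfl
      rw [e4]
      dsimp only at h3
      exact h3
    | succ d =>
      cases i with
      | zero => exact absurd hdi (by simp)
      | succ i =>
        have h2 := colsZ_spec h.2 d (by omega) i (by omega) (by simpa using hi) j hj
        have e2 : Nat.succ l + d = l + (d + 1) := by omega
        rw [e2] at h2
        exact h2

/-- `cnt` columns from `l` on. -/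
def colsAtZ (c TT : ℕ) (cls mv : ℕ → ℕ) (rw n kk kl : ℕ) (es : List GD) (XL : List PF)
    (EL : List ℕ) (l cnt : ℕ) : Bool :=
  colsZ c TT cls mv rw n kk kl es cnt l (drp l XL) (drp l EL)

theorem colsAtZ_spec {c TT : ℕ} {cls mv : ℕ → ℕ} {w n kk kl : ℕ} {es : List GD}
    {XL : List PF} {EL : List ℕ} {l cnt : ℕ}
    (h : colsAtZ c TT cls mv w n kk kl es XL EL l cnt = true) (l' : ℕ) (h1 : l ≤ l')
    (h2 : l' < l + cnt) (i : ℕ) (h3 : l' ≤ i) (h4 : i < XL.length) (j : ℕ)
    (hj : j < es.length) :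
    rcdZ c TT cls mv (Nat.add (XL.getD i pf0).b (XL.getD l' pf0).b) kl
      (mkK (eL es[j] (XL.getD l' pf0) kl) (XL.getD i pf0).pt kk)
      (Nat.add (XL.getD i pf0).F (img es[j] (XL.getD l' pf0)))
      (fld w ((EL.getD i 0) >>> (w * n * l') % 2 ^ (w * n)) j) = true := by
  unfold colsAtZ at h
  rw [drp_eq, drp_eq] at h
  have h5 := colsZ_spec h (l' - l) (by omega) (i - l) (by omega)
    (by rw [List.length_drop]; omega) j hj
  rw [getD_drop, getD_drop, getD_drop] at h5
  have e1 : l + (i - l) = i := by omega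
  have e2 : l + (l' - l) = l' := by omega
  rw [e1, e2] at h5
  exact h5

/-- the columns `l ≤ l' < r` are checked. -/
def CZ (c k l : ℕ) (D : ED) (cls mv : ℕ → ℕ) (a b : ℕ) : Prop :=
  ∀ l', a ≤ l' → l' < b → ∃ l0 cnt, l0 ≤ l' ∧ l' < l0 + cnt ∧
    colsAtZ c D.TT cls mv D.rw D.G.n k (k + l) D.G.gl D.XL D.EL l0 cnt = true

theorem CZ.ck {D : ED} {cls mv : ℕ → ℕ} (a cnt : ℕ)
    (h : colsAtZ c D.TT cls mv D.rw D.G.n k (Nat.add k l) D.G.gl D.XL D.EL a cnt = true) :
    CZ c k l D cls mv a (Nat.add a cnt) :=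
  fun _ h1 h2 => ⟨a, cnt, h1, h2, h⟩

theorem CZ.trans {D : ED} {cls mv : ℕ → ℕ} {a b d : ℕ} (h : CZ c k l D cls mv a b)
    (h' : CZ c k l D cls mv b d) : CZ c k l D cls mv a d := by
  intro l' h1 h2
  rcases Nat.lt_or_ge l' b with h3 | h3
  · exact h l' h1 h3
  · exact h' l' h3 h2

/-- **The records give the values of all products.** -/
theorem ED.sokZ [NeZero c] (hB : IsMUBs B) (hc : c ≤ 7) {D : ED} {cls mv : ℕ → ℕ}
    (hmv : ∀ i, mvOK c (mv i) = true) (hck : D.ck c k l = true)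
    {nk : ℕ} (hnk : D.XL.length = nk) (hR : CZ c k l D cls mv 0 nk) :
    SOk D.G.n nk (D.G.act c k l) D.G.nu ((D.T.ty c).M B)
      (fun i => (D.XL.getD i pf0).dec c k l) ((6 : ℝ) ^ D.TT) (RcZ D.TT D.rw)
      (fun i => cvB B c (cls i)) D.BP D.EL := by
  obtain ⟨hT', hG, hx, hn, hb⟩ := ED.ck_spec hck
  have hT := TyD.ok_spec hT'
  have he := (GG.ck_spec hG).2.1
  have key : ∀ i < nk, ∀ l' ≤ i, ∀ j < D.G.n,
      (6 : ℝ) ^ D.TT * (sb (bP D.BP i) * sb (bP D.BP l') * (D.T.ty c).M B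
        ((D.XL.getD i pf0).dec c k l) (D.G.act c k l j ((D.XL.getD l' pf0).dec c k l)))
      = (mmu (bP D.BP i) (bP D.BP l') : ℝ) * (RcZ D.TT D.rw).fm
          (fld D.rw ((D.EL.getD i 0) >>> (D.rw * D.G.n * l') % 2 ^ (D.rw * D.G.n)) j)
        * cvB B c (cls ((RcZ D.TT D.rw).fi
          (fld D.rw ((D.EL.getD i 0) >>> (D.rw * D.G.n * l') % 2 ^ (D.rw * D.G.n)) j))) := by
    intro i hi l' hl' j hj
    obtain ⟨l0, cnt, h1, h2, h3⟩ := hR l' (by omega) (by omega)
    have hj' : j < D.G.gl.length := by rw [hn]; exact hj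
    have h4 := colsAtZ_spec h3 l' h1 h2 i hl' (by omega) j hj'
    have e1 : D.G.gl[j] = D.G.g j := by
      rw [GG.g_eq]; simp [List.getD_eq_getElem?_getD, hj']
    rw [e1] at h4
    rw [← hb i (by omega), ← hb l' (by omega)]
    exact prod_soundZ hB hc hmv hT (he j hj) (hx i (by omega)) (hx l' (by omega)) h4
  refine lty_sok hB hT' hG (by positivity) ?_ ?_
  · intro i hi l' hl' j hj
    exact key i hi l' hl'.le j hj
  · intro i hi j hj
    have h1 := key i hi i le_rfl j hj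
    have e1 : fld D.rw ((D.EL.getD i 0) >>> (D.rw * D.G.n * i) % 2 ^ (D.rw * D.G.n)) j
        = fld (RcZ D.TT D.rw).rw (eKK (RcZ D.TT D.rw) D.G.n (D.EL.getD i 0) i) j := by
      have e2 : (RcZ D.TT D.rw).rw = D.rw := rfl
      unfold eKK
      rw [e2]
      generalize (D.EL.getD i 0) >>> (D.rw * D.G.n * i) = E
      show ((E % 2 ^ (D.rw * D.G.n)) >>> (D.rw * j)) % 2 ^ D.rw
        = (E >>> (D.rw * j)) % 2 ^ D.rw
      apply Nat.eq_of_testBit_eq
      intro b
      rw [Nat.testBit_mod_two_pow, Nat.testBit_mod_two_pow, Nat.testBit_shiftRight,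
        Nat.testBit_shiftRight, Nat.testBit_mod_two_pow]
      by_cases hb' : b < D.rw
      · have : D.rw * j + b < D.rw * D.G.n := by
          have h5 : D.rw * (j + 1) ≤ D.rw * D.G.n := Nat.mul_le_mul_left _ hj
          rw [Nat.mul_succ] at h5
          omega
        simp [hb', this]
      · simp [hb']
    rw [← e1]
    exact h1

end Vale.Agent.P355.H998.E
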