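import Vale.Agent.P355.H998.E.Pr

/-! Images of packed flags and products with them. -/

namespace Vale.Agent.P355.H998.E

open Finset Matrix Vale.Agent.P355 H147
open Vale.Agent.P355.H693 (net w2c re_rec pwp net_addE net_mrg)
open Vale.Agent.P355.H129 (force force_eq)

variable {m c k l : ℕ} {B : Fin m → M6}

/-- right factor of a product: image of a flag. -/
def img (e : GD) (y : PF) : ℕ :=
  Nat.add (prm 8 (cond e.s y.F y.F') e.q) (Nat.shiftLeft (pw 8 y.W e.t e.q) 384)

theorem wim_zero {t : ℕ} (h : ckT c t = true) : wim t 0 = 0 := by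
  unfold ckT at h
  rw [Bool.and_eq_true, Nat.beq_eq] at h
  rw [wim_eq]
  simp [h.1]

theorem wim_half {t w : ℕ} (h : ckT c t = true) (hw : w / 2 ≤ c) : wim t w / 2 ≤ c := by
  unfold ckT at h
  rw [Bool.and_eq_true, Nat.beq_eq] at h
  have h1 := (isp_spec h.2).1 (w / 2) (Nat.lt_succ_of_le hw)
  have h2 : Nat.succ c = c + 1 := rfl
  rw [h2] at h1
  rw [wim_eq]
  omega

theorem w2c_wim [NeZero c] {t w : ℕ} (h : ckT c t = true) (hw : w / 2 ≤ c) :
    w2c c (wim t w) = (w2c c w).map (permF c (cf t)) := by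
  have h1 : w2c c (wim t w) = oc c (wim t w / 2) := rfl
  have h2 : w2c c w = oc c (w / 2) := rfl
  rw [h1, h2, oc_map h hw rfl]
  congr 1
  rw [wim_eq]; omega

theorem PF.word {t : TyD} {x : PF} (hT : t.Ok c) (h : x.Ok c k l t) (p : ℕ) (hp : p < 8) :
    qd x.W p / 2 ≤ c ∧ qd x.W p % 2 = 0 ∧ qd (wp x.F) p / 2 ≤ c := by
  rcases hr : mb t.rm p with _ | _
  · rcases hl : mb t.lm p with _ | _
    · have := h.wo p hp hr hl
      rw [this.1, this.2]; simp
    · have := h.wl p hp hl hr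
      rw [this.1]
      exact ⟨this.2.2, this.2.1, this.2.2⟩
  · have := h.wr p hp hr
    rw [this.1, this.2]
    exact ⟨by simp, by simp, hT.wc p hp⟩

theorem img_spec {T : TyD} {e : GD} {y : PF} (hT : T.Ok c) (he : e.Ok c k l T)
    (hy : y.Ok c k l T) (hc : c ≤ 7) :
    (∀ i < 64, img e y / 64 ^ i % 64 < 32) ∧
    (∀ a < 8, ∀ b < 8, dg (img e y) a b
      = dg (cond e.s y.F y.F') (qv 8 e.q a) (qv 8 e.q b)) ∧
    ∀ a < 8, qd (wp (img e y)) a = wim e.t (qd y.W (qv 8 e.q a)) := by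
  have hq8 : ∀ i < 8, qv 8 e.q i < 8 := (isp_qv he.q).1
  obtain ⟨P, hP⟩ : ∃ P, P = prm 8 (cond e.s y.F y.F') e.q := ⟨_, rfl⟩
  obtain ⟨Wd, hWd⟩ : ∃ Wd, Wd = pw 8 y.W e.t e.q := ⟨_, rfl⟩
  have ee : img e y = P + 64 ^ 64 * Wd := by
    rw [hP, hWd]
    show prm 8 (cond e.s y.F y.F') e.q + pw 8 y.W e.t e.q <<< (6 * 64) = _
    rw [Nat.shiftLeft_eq, pw64]
    generalize (64 : ℕ) ^ 64 = Z
    ring
  have hlow : ∀ i < 64, img e y / 64 ^ i % 64 = P / 64 ^ i % 64 := by
    intro i hi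
    rw [ee]
    exact low_dg (by norm_num) hi
  have hG : ∀ i < 64, (cond e.s y.F y.F') / 64 ^ i % 64 < 32 := by
    intro i hi
    cases e.s
    · exact hy.lo' i hi
    · exact hy.lo i hi
  have hPd : ∀ i < 64, P / 64 ^ i % 64 = dg P (i / 8) (i % 8) := by
    intro i hi
    rw [dg_eq, show 8 * (i / 8) + i % 8 = i by omega]
  have hPlt : ∀ i < 64, P / 64 ^ i % 64 < 32 := by
    intro i hi
    rw [hPd i hi]
    have a1 : i / 8 < 8 := by omega
    have a2 : i % 8 < 8 := by omega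
    rw [hP, dg_prm 8 _ e.q _ _ le_rfl hq8 a1 a2, dg_eq]
    refine hG _ ?_
    have h2 := hq8 _ a1
    have h3 := hq8 _ a2
    omega
  refine ⟨fun i hi => by rw [hlow i hi]; exact hPlt i hi, ?_, ?_⟩
  · intro a ha b hb
    rw [dg_eq, hlow _ (by omega), ← dg_eq, hP, dg_prm 8 _ e.q a b le_rfl hq8 ha hb]
  · intro a ha
    have h2 : P < 64 ^ 64 := by
      have h3 := wp_prm 8 (cond e.s y.F y.F') e.q le_rfl hq8
      rw [← hP, wp_eq] at h3
      rcases Nat.div_eq_zero_iff.1 h3 with h4 | h4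
      · exact absurd h4 (by positivity)
      · exact h4
    have h5 : wp (img e y) = Wd := by rw [wp_eq, ee]; exact high_dg h2
    rw [h5, hWd]
    refine fl4_digit (f := fun d => wim e.t (qd y.W d)) 8 e.q (fun j hj => ?_) a ha
    have h6 := PF.word hT hy _ (hq8 j hj)
    have h7 := wim_half he.t h6.1
    have h8 : wim e.t (qd y.W (qv 8 e.q j)) / 2 ≤ c := h7
    show wim e.t (qd y.W (qv 8 e.q j)) < 16
    omega

/-- the symmetry of the slots. -/
noncomputable def GD.σ (e : GD) : Equiv.Perm (Fin 8) := permF 8 (qv 8 e.g)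

theorem GD.σ_val {T : TyD} {e : GD} (he : e.Ok c k l T) (a : Fin 8) :
    ((e.σ a : Fin 8) : ℕ) = qv 8 e.g a := permF_val (isp_qv he.g) a

theorem GD.q_val {T : TyD} {e : GD} (hT : T.Ok c) (he : e.Ok c k l T) (a : Fin 8) :
    qv 8 e.q a = ((e.σ ((T.ty c).ι a) : Fin 8) : ℕ) := by
  rw [GD.σ_val he, TyD.iota hT, he.qe a a.2]

/-- **Products with images.** `y'` is the image of `y` under the element. -/
theorem prod_rpr [NeZero c] {T : TyD} {e : GD} {x y : PF} (hT : T.Ok c) (he : e.Ok c k l T)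
    (hx : x.Ok c k l T) (hy : y.Ok c k l T) (hc : c ≤ 7) (y' : LFlg 8 c k l)
    (hcol : ∀ p, y'.col p = ((y.dec c k l).col (e.σ p)).map (permF c (cf e.t)))
    (hfl : ∀ a b, net y'.fl a b = sg e.s * net (y.dec c k l).fl (e.σ a) (e.σ b)) :
    Rpr c (Nat.add x.F (img e y)) ((T.ty c).pcol (x.dec c k l) y') (T.ty c).lab
      ((T.ty c).pfl (x.dec c k l) y') := by
  obtain ⟨hR1, hR2, hR3⟩ := img_spec hT he hy hc
  set R := img e y with hRdef
  have hX : Nat.add x.F R = x.F + R := rfl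
  rw [hX]
  have hok := TyD.ty_ok hT
  have hnc : ∀ i < 64, x.F / 64 ^ i % 64 + R / 64 ^ i % 64 < 64 := by
    intro i hi
    have h1 := hx.lo i hi
    have h2 := hR1 i hi
    omega
  have hdg : ∀ a : Fin 8, ∀ b : Fin 8, dg (x.F + R) a b = dg x.F a b
      + dg (cond e.s y.F y.F') (e.σ ((T.ty c).ι a) : Fin 8) (e.σ ((T.ty c).ι b) : Fin 8) := by
    intro a b
    rw [dg_add hnc a.2 b.2, hR2 a a.2 b b.2, GD.q_val hT he, GD.q_val hT he]
  have hne : ∀ a b : Fin 8, a ≠ b → e.σ ((T.ty c).ι a) ≠ e.σ ((T.ty c).ι b) :=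
    fun a b hab h => hab ((T.ty c).ι.injective (e.σ.injective h))
  have hsec : ∀ a b : Fin 8, a ≠ b → (dg (cond e.s y.F y.F') a b : ℤ)
      = 16 - sg e.s * ((dg y.F a b : ℤ) - 16) := by
    intro a b hab
    have h1 := hy.sm a a.2 b b.2 (fun h' => hab (Fin.ext h'))
    unfold sg
    cases e.s
    · simp only [cond_false, Bool.false_eq_true, if_false]; omega
    · simp only [cond_true, if_true]; omega
  -- a non-root slot is fixed
  have hfix : ∀ p : Fin 8, mb T.rm p = false → e.σ p = p := fun p hp => by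
    apply Fin.ext
    rw [GD.σ_val he]; exact he.fx p p.2 hp
  have hiota : ∀ p : Fin 8, mb T.rm p = false → mb T.rm ((T.ty c).ι p : Fin 8) = false := by
    intro p hp
    by_contra h1
    have h2 : mb T.rm ((T.ty c).ι p : Fin 8) = true := by simpa using h1
    have h3 := hok.rι _ h2
    rw [hok.inv] at h3
    rw [← h3, hp] at h2
    exact absurd h2 (by simp)
  -- words
  have hwd : ∀ p : Fin 8,
      (mb T.rm p = true → qd (wp x.F) p = qd T.W p ∧ qd (wp R) p = 0) ∧
      (mb T.rm p = false → mb T.lm p = true → qd (wp R) p = 0) ∧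
      (mb T.rm p = false → mb T.lm p = false → qd (wp x.F) p = 0 ∧
        qd (wp R) p = wim e.t (qd y.W ((T.ty c).ι p : Fin 8))) := by
    intro p
    have hRp : qd (wp R) p = wim e.t (qd y.W (e.σ ((T.ty c).ι p) : Fin 8)) := by
      rw [hR3 p p.2, GD.q_val hT he]
    refine ⟨fun hr => ⟨(hx.wr p p.2 hr).1, ?_⟩, fun hr hl => ?_, fun hr hl =>
      ⟨(hx.wo p p.2 hr hl).1, ?_⟩⟩
    · have h1 : (T.ty c).ι p = p := hok.rι p hr
      have h2 : mb T.rm (e.σ p : Fin 8) = true := by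
        rw [GD.σ_val he]; exact (he.rr p p.2 hr).1
      rw [hRp, h1, (hy.wr _ (e.σ p).2 h2).2, wim_zero he.t]
    · have h1 := hiota p hr
      rw [hRp, hfix _ h1]
      have h2 : mb T.lm ((T.ty c).ι p : Fin 8) = false := hok.LR p hl
      rw [(hy.wo _ ((T.ty c).ι p).2 h1 h2).2, wim_zero he.t]
    · rw [hRp, hfix _ (hiota p hr)]
  have hWd : ∀ p : Fin 8, qd (wp (x.F + R)) p = qd (wp x.F) p + qd (wp R) p := by
    intro p
    rw [wp_add hnc, qd_eq, qd_eq, qd_eq]
    refine nocarry_dg (b := 16) (by norm_num) 8 (fun i hi => ?_) p p.2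
    rw [← qd_eq, ← qd_eq]
    have h1 := hwd ⟨i, hi⟩
    simp only at h1
    have h2 := qd_lt (wp x.F) i
    have h3 := qd_lt (wp R) i
    rcases hr : mb T.rm i with _ | _
    · rcases hl : mb T.lm i with _ | _
      · rw [(h1.2.2 hr hl).1]; omega
      · rw [h1.2.1 hr hl]; omega
    · rw [(h1.1 hr).2]; omega
  have hA : Asy 8 (x.F + R) := by
    intro a ha b hb hab
    have h1 := hdg ⟨a, ha⟩ ⟨b, hb⟩
    have h2 := hdg ⟨b, hb⟩ ⟨a, ha⟩
    simp only at h1 h2
    have hab' : (⟨a, ha⟩ : Fin 8) ≠ ⟨b, hb⟩ := fun h => hab (congrArg Fin.val h)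
    have h3 := hne _ _ hab'
    have h4 := hsec _ _ h3
    have h5 := hsec _ _ (Ne.symm h3)
    have h6 := hx.as a ha b hb hab
    have h7 := hy.as _ (e.σ ((T.ty c).ι ⟨a, ha⟩)).2 _ (e.σ ((T.ty c).ι ⟨b, hb⟩)).2
      (fun h' => h3 (Fin.ext h'))
    rw [h1, h2]
    zify at h6 h7 ⊢
    rw [h4, h5]
    have h8 : ((dg y.F (e.σ ((T.ty c).ι ⟨b, hb⟩) : Fin 8)
        (e.σ ((T.ty c).ι ⟨a, ha⟩) : Fin 8) : ℤ) - 16)
        = - ((dg y.F (e.σ ((T.ty c).ι ⟨a, ha⟩) : Fin 8)
        (e.σ ((T.ty c).ι ⟨b, hb⟩) : Fin 8) : ℤ) - 16) := by linarith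
    rw [h8, mul_neg]; linarith
  have hnet : ∀ p q : Fin 8, p ≠ q →
      net ((T.ty c).pfl (x.dec c k l) y') p q = (dg (x.F + R) p q : ℤ) - 32 := by
    intro p q hpq
    have e1 : net ((T.ty c).pfl (x.dec c k l) y') p q
        = net (x.dec c k l).fl p q - net y'.fl ((T.ty c).ι p) ((T.ty c).ι q) := by
      unfold Lty.pfl net
      ring
    rw [e1, hfl, PF.net hx p q hpq, PF.net hy _ _ (hne p q hpq), hdg p q]
    have h4 := hsec _ _ (hne p q hpq)
    push_cast
    rw [h4]; ring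
  have hcl : ∀ p, colB 8 c (x.F + R) p = (T.ty c).pcol (x.dec c k l) y' p := by
    intro p
    have h0 : colB 8 c (x.F + R) p = w2c c (qd (wp (x.F + R)) p) := rfl
    rw [h0, hWd p]
    have h1 := hwd p
    unfold Lty.pcol
    rcases hr : mb T.rm p with _ | _
    · have hr' : (T.ty c).rt p = false := hr
      rw [hr']
      simp only [Bool.false_eq_true, if_false]
      rcases hl : mb T.lm p with _ | _
      · have hl' : (T.ty c).L p = false := hl
        rw [hl', (h1.2.2 hr hl).1, (h1.2.2 hr hl).2, zero_add]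
        simp only [Bool.false_eq_true, if_false]
        unfold Lty.xc
        have hir : (T.ty c).rt ((T.ty c).ι p) = false := hiota p hr
        rw [hir]
        simp only [Bool.false_eq_true, if_false]
        rcases hil : mb T.lm ((T.ty c).ι p : Fin 8) with _ | _
        · have hil' : (T.ty c).L ((T.ty c).ι p) = false := hil
          rw [hil']
          simp only [Bool.false_eq_true, if_false]
          rw [(hy.wo _ ((T.ty c).ι p).2 (hiota p hr) hil).2, wim_zero he.t]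
          exact H693.w2c_none (by norm_num)
        · have hil' : (T.ty c).L ((T.ty c).ι p) = true := hil
          rw [hil', if_pos rfl, hcol, hfix _ (hiota p hr)]
          have h5 := hy.wl _ ((T.ty c).ι p).2 hil (hiota p hr)
          have h6 : (y.dec c k l).col ((T.ty c).ι p)
              = w2c c (qd y.W ((T.ty c).ι p : Fin 8)) := by
            show w2c c (qd (wp y.F) _) = _
            rw [h5.1]
          rw [h6, w2c_wim he.t h5.2.2]
      · have hl' : (T.ty c).L p = true := hl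
        rw [hl', if_pos rfl, h1.2.1 hr hl, add_zero]
        rfl
    · have hr' : (T.ty c).rt p = true := hr
      rw [hr', if_pos rfl, (h1.1 hr).1, (h1.1 hr).2, add_zero]
      rfl
  refine ⟨hA, ?_, ?_, hcl, ?_, fun p q hpq _ _ => hnet p q hpq⟩
  · intro p hp
    have h1 := hdg ⟨p, hp⟩ ⟨p, hp⟩
    simp only at h1
    rw [h1, (hx.di p hp).1]
    have h2 := hy.di _ (e.σ ((T.ty c).ι ⟨p, hp⟩)).2
    cases e.s
    · rw [cond_false, h2.2]
    · rw [cond_true, h2.1]
  · intro p hp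
    have h1 := hwd ⟨p, hp⟩
    have h2 := hWd ⟨p, hp⟩
    simp only at h1 h2
    rw [h2]
    have hxw := (PF.word hT hx p hp).2.2
    rcases hr : mb T.rm p with _ | _
    · rcases hl : mb T.lm p with _ | _
      · rw [(h1.2.2 hr hl).1, (h1.2.2 hr hl).2, zero_add]
        exact wim_half he.t (PF.word hT hy _ ((T.ty c).ι ⟨p, hp⟩).2).1
      · rw [h1.2.1 hr hl, add_zero]; exact hxw
    · rw [(h1.1 hr).2, add_zero]; exact hxw
  · intro p _
    have h1 := hwd p
    unfold labB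
    rw [hWd p]
    show _ = (mb T.rm p && (qd T.W p % 2 == 1))
    rcases hr : mb T.rm p with _ | _
    · rw [Bool.false_and]
      have h3 : (qd (wp x.F) p + qd (wp R) p) % 2 = 0 := by
        rcases hl : mb T.lm p with _ | _
        · rw [(h1.2.2 hr hl).1, (h1.2.2 hr hl).2, zero_add, wim_eq]
          have := (PF.word hT hy _ ((T.ty c).ι p).2).2.1
          omega
        · have h4 := hx.wl p p.2 hl hr
          rw [h1.2.1 hr hl, add_zero, h4.1]; exact h4.2.1
      rw [h3]; rfl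
    · rw [(h1.1 hr).1, (h1.1 hr).2, add_zero, Bool.true_and]

end Vale.Agent.P355.H998.E
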