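import Vale.Agent.P355.H998.E.Sc

/-! Reversal of packed graphs. -/

namespace Vale.Agent.P355.H998.E

open Finset Matrix Vale.Agent.P355 H147
open Vale.Agent.P355.H693 (net w2c re_rec pwp net_addE net_mrg)
open Vale.Agent.P355.H129 (force force_eq)

variable {m c : ℕ} {B : Fin m → M6}

/-- all digits `63`. -/
def lowM : ℕ := 39402006196394479212279040100143613805079739270465446667948293404245721771497210611414266254884915640806627990306815

/-- all digits `1`. -/
def c01M : ℕ := 625428669784039352575857779367358949286979988420086455046798308003900345579320803355782004045792311758835364925505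

/-- the digits `64 - d`, same words. -/
def rvX (X : ℕ) : ℕ := Nat.add (Nat.xor X lowM) c01M

theorem lowM_aux : (List.range 64).all (fun i => (lowM >>> (6 * i)) &&& 63 == 63) = true := by
  decide +kernel

theorem c01_aux : (List.range 64).all (fun i => c01M / 64 ^ i % 64 == 1) = true := by
  decide +kernel

theorem c01_wp : wp c01M = 0 := by decide +kernel

theorem lowM_wp : lowM >>> 384 = 0 := by decide +kernel

theorem xor63 : (List.range 64).all (fun d => (d ^^^ 63) == 63 - d) = true := by decide +kernel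

theorem xlow_dg (X i : ℕ) (hi : i < 64) :
    (Nat.xor X lowM) / 64 ^ i % 64 = 63 - X / 64 ^ i % 64 := by
  have e : ∀ Y : ℕ, Y / 64 ^ i % 64 = (Y >>> (6 * i)) &&& 63 := by
    intro Y
    rw [show (63 : ℕ) = 2 ^ 6 - 1 by norm_num, Nat.and_two_pow_sub_one_eq_mod,
      Nat.shiftRight_eq_div_pow, pw64]
  have h1 : Nat.xor X lowM = X ^^^ lowM := rfl
  have h2 : (lowM >>> (6 * i)) &&& 63 = 63 :=
    beq_iff_eq.1 (List.all_eq_true.1 lowM_aux i (List.mem_range.2 hi))
  rw [h1, e, e, Nat.shiftRight_xor_distrib, Nat.and_xor_distrib_right, h2]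
  have h3 : (X >>> (6 * i)) &&& 63 < 64 := lt_of_le_of_lt Nat.and_le_right (by norm_num)
  exact beq_iff_eq.1 (List.all_eq_true.1 xor63 _ (List.mem_range.2 h3))

theorem xlow_wp (X : ℕ) : wp (Nat.xor X lowM) = wp X := by
  show (X ^^^ lowM) >>> 384 = X >>> 384
  rw [Nat.shiftRight_xor_distrib, lowM_wp, Nat.xor_zero]

theorem rvX_spec {X : ℕ} (h : midOK X = true) :
    (∀ a < 8, ∀ b < 8, dg (rvX X) a b + dg X a b = 64) ∧ wp (rvX X) = wp X := by
  have hm := mid_spec h
  have hc : ∀ i < 64, c01M / 64 ^ i % 64 = 1 := fun i hi =>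
    beq_iff_eq.1 (List.all_eq_true.1 c01_aux i (List.mem_range.2 hi))
  have hn : ∀ i < 64, (Nat.xor X lowM) / 64 ^ i % 64 + c01M / 64 ^ i % 64 < 64 := by
    intro i hi
    have h1 := hm i hi
    rw [xlow_dg X i hi, hc i hi]
    omega
  constructor
  · intro a ha b hb
    have e1 : rvX X = Nat.xor X lowM + c01M := rfl
    rw [e1, dg_add hn ha hb, dg_eq, dg_eq, dg_eq, xlow_dg X _ (by omega), hc _ (by omega)]
    have h1 := hm (8 * a + b) (by omega)
    omega
  · have e1 : rvX X = Nat.xor X lowM + c01M := rfl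
    rw [e1, wp_add hn, xlow_wp, c01_wp, add_zero]

/-- the reversed graph. -/
theorem Rpr.rv {X : ℕ} {col : Fin 8 → Option (Fin c)} {lab : Fin 8 → Bool}
    {f : Fin 8 → Fin 8 → ℤ} (h : Rpr c X col lab f) (hX : midOK X = true) :
    Rpr c (rvX X) col lab fun p q => - f p q := by
  obtain ⟨h1, h2⟩ := rvX_spec hX
  refine ⟨?_, ?_, ?_, ?_, ?_, ?_⟩
  · intro a ha b hb hab
    have h3 := h.asy a ha b hb hab
    have h4 := h1 a ha b hb
    have h5 := h1 b hb a ha
    omega
  · intro p hp
    have h4 := h1 p hp p hp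
    have h5 := h.dia p hp
    omega
  · intro p hp
    rw [h2]; exact h.wok p hp
  · intro p
    have h3 := h.cl p
    unfold colB at h3 ⊢
    rw [h2]; exact h3
  · intro p hp
    have h3 := h.lb p hp
    unfold labB at h3 ⊢
    rw [h2]; exact h3
  · intro p q hpq hp hq
    have h3 := h.nt p q hpq hp hq
    have h4 := h1 p p.2 q q.2
    unfold H693.net at h3 ⊢
    have h5 : (dg (rvX X) p q : ℤ) = 64 - (dg X p q : ℤ) := by omega
    rw [h5]
    linarith

/-- conditional reversal. -/
def rvc (b X : ℕ) (k : ℕ → Bool) : Bool :=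
  Nat.rec (motive := fun _ => Bool) (k X)
    (fun _ _ => cond (midOK X) (force (rvX X) k) false) b

theorem rvc_sound (hB : IsMUBs B) {b X : ℕ} {k : ℕ → Bool}
    {col : Fin 8 → Option (Fin c)} {lab : Fin 8 → Bool} {f : Fin 8 → Fin 8 → ℤ}
    (h : Rpr c X col lab f) (hk : rvc b X k = true) :
    ∃ X', Asy 8 X' ∧ Wok 8 c X' ∧ vB B 8 c X' = (gv B col lab f).re ∧ k X' = true := by
  cases b with
  | zero => exact ⟨X, h.asy, h.wok, (h.val hB).symm, hk⟩
  | succ b =>
    have e : rvc (b + 1) X k = cond (midOK X) (force (rvX X) k) false := rfl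
    rw [e] at hk
    rcases h1 : midOK X with _ | _
    · rw [h1, cond_false] at hk; exact absurd hk (by simp)
    rw [h1, cond_true, force_eq] at hk
    have h2 := h.rv h1
    exact ⟨rvX X, h2.asy, h2.wok, by rw [← h2.val hB, gv_neg_re hB], hk⟩

theorem scr_rpr (hB : IsMUBs B) (n : ℕ) : ∀ {X S : ℕ} {k : ℕ → Bool}
    {col : Fin 8 → Option (Fin c)} {lab : Fin 8 → Bool} {f : Fin 8 → Fin 8 → ℤ},
    Rpr c X col lab f → scr c n S X k = true →
    ∃ X' col' lab' f', Rpr c X' col' lab' f' ∧
      (gv B col' lab' f').re = Real.sqrt 6 ^ scW n S * (gv B col lab f).re ∧ k X' = true := by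
  induction n with
  | zero =>
    intro X S k col lab f h hk
    refine ⟨X, col, lab, f, h, ?_, hk⟩
    have : scW 0 S = 0 := rfl
    rw [this, pow_zero, one_mul]
  | succ n ih =>
    intro X S k col lab f h hk
    have e1 : scr c (n + 1) S X k
        = stp c X S fun X' => force (Nat.shiftRight S 11) fun S' => scr c n S' X' k := rfl
    have e2 : scW (n + 1) S = stW S + scW n (Nat.shiftRight S 11) := rfl
    rw [e1] at hk
    obtain ⟨X1, col1, lab1, f1, a1, a2, a3⟩ := stp_sound hB h hk
    rw [force_eq] at a3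
    obtain ⟨X', col', lab', f', b1, b2, b3⟩ := ih a1 a3
    refine ⟨X', col', lab', f', b1, ?_, b3⟩
    rw [b2, a2, e2, pow_add]; ring

end Vale.Agent.P355.H998.E
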