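import Vale.Agent.P355.H998.E.Im
import Vale.Agent.P355.H998.E.Rv
import Vale.Agent.P355.H147.Legs2

/-! Leg steps, tables of moves and classes, records of products. -/

namespace Vale.Agent.P355.H998.E

open Finset Matrix Vale.Agent.P355 H147
open Vale.Agent.P355.H693 (net w2c re_rec pwp net_addE net_mrg)
open Vale.Agent.P355.H129 (force force_eq)

variable {m c k l : ℕ} {B : Fin m → M6}

/-! ### leg steps -/

/-- `p` is replaced by `q`. -/
def sbN (p q z : ℕ) : ℕ := cond (Nat.beq z p) q z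

/-- the same for the legs. -/
def sbL (p q : ℕ) (K : List (ℕ × ℕ)) : List (ℕ × ℕ) :=
  List.rec (motive := fun _ => List (ℕ × ℕ)) [] (fun z _ ih => (sbN p q z.1, sbN p q z.2) :: ih) K

theorem sbL_eq (p q : ℕ) (K : List (ℕ × ℕ)) :
    sbL p q K = K.map fun z => (sbN p q z.1, sbN p q z.2) := by
  induction K with
  | nil => rfl
  | cons z K ih =>
    have : sbL p q (z :: K) = (sbN p q z.1, sbN p q z.2) :: sbL p q K := rfl
    rw [this, ih]; rfl

/-- slots of the legs. -/
def kf (K : List (ℕ × ℕ)) : List (Fin 8 × Fin 8) := K.map fun z => (sl z.1, sl z.2)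

/-- all slots are smaller than `8`. -/
def K8 (K : List (ℕ × ℕ)) : Prop := ∀ z ∈ K, z.1 < 8 ∧ z.2 < 8

theorem sl_inj {p q : ℕ} (hp : p < 8) (hq : q < 8) : sl p = sl q ↔ p = q :=
  ⟨fun h => by rw [← sl_val hp, h, sl_val hq], fun h => by rw [h]⟩

theorem sb_sl {p q z : ℕ} (hp : p < 8) (hz : z < 8) :
    sl (sbN p q z) = if sl z = sl p then sl q else sl z := by
  unfold sbN
  by_cases h : z = p
  · subst h
    rw [Nat.beq_refl, cond_true, if_pos rfl]
  · have h1 : Nat.beq z p = false := by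
      rw [Bool.eq_false_iff]; intro h'; rw [Nat.beq_eq] at h'; exact h h'
    rw [h1, cond_false, if_neg (fun h' => h ((sl_inj hz hp).1 h'))]

theorem sbN_lt {p q z : ℕ} (hq : q < 8) (hz : z < 8) : sbN p q z < 8 := by
  unfold sbN
  cases Nat.beq z p
  · exact hz
  · exact hq

/-- one leg step of kind `kd`. -/
def lst (c kd p q : ℕ) (K : List (ℕ × ℕ)) (X : ℕ) (k : List (ℕ × ℕ) → ℕ → Bool) : Bool :=
  force (qd (wp X) p) fun a =>
  cond (Nat.beq kd 0) (cond (and (Nat.beq p q) (okw c a)) (k K X) false)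
  (force (qd (wp X) q) fun b =>
   cond (and (and (okw c a) (okw c b)) (and (not (Nat.beq p q)) (midOK X)))
    (cond (Nat.beq kd 1)
      (cond (not (Nat.beq (Nat.shiftRight a 1) (Nat.shiftRight b 1)))
        (force (addF X p q) fun X' => k K X') false)
      (cond (Nat.beq (Nat.shiftRight a 1) (Nat.shiftRight b 1))
        (cond (Nat.beq kd 2)
          (cond (Nat.beq (Nat.land a 1) 0) (force (mvF X p q) fun X' => k (sbL p q K) X') false)
          (cond (Nat.beq (Nat.land b 1) 0) (force (mvF X q p) fun X' => k (sbL q p K) X') false))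
        false)) false)

/-- weight of a leg step. -/
def lsW (kd : ℕ) : ℕ := cond (Nat.beq kd 0) 0 (cond (Nat.beq kd 1) 1 2)

theorem lab_fr {X : ℕ} {col : Fin 8 → Option (Fin c)} {lab : Fin 8 → Bool}
    {f : Fin 8 → Fin 8 → ℤ} (h : Rpr c X col lab f) {p : ℕ} (hp : p < 8)
    (hx : col (sl p) ≠ none) (hl : Nat.beq (Nat.land (qd (wp X) p) 1) 0 = true) :
    lab (sl p) = false := by
  refine lab_free h hx ?_
  rw [sl_val hp]; exact hl

theorem lst_sound (hB : IsMUBs B) {kd p q : ℕ} {K : List (ℕ × ℕ)} {X : ℕ}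
    {k : List (ℕ × ℕ) → ℕ → Bool} {col : Fin 8 → Option (Fin c)} {lab : Fin 8 → Bool}
    {f : Fin 8 → Fin 8 → ℤ} (h : Rpr c X col lab f) (hp : p < 8) (hq : q < 8) (hK : K8 K)
    (hk : lst c kd p q K X k = true) :
    ∃ X' K' col' lab' f', Rpr c X' col' lab' f' ∧ K8 K' ∧
      (gve B col' lab' f' (kf K')).re
        = Real.sqrt 6 ^ lsW kd * (gve B col lab f (kf ((p, q) :: K))).re ∧ k K' X' = true := by
  unfold lst at hk
  simp only [force_eq] at hk
  have hkf : kf ((p, q) :: K) = (sl p, sl q) :: kf K := rfl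
  have ccp : col (sl p) = w2c c (qd (wp X) p) := by
    rw [← h.cl]; unfold colB; rw [sl_val hp]
  have ccq : col (sl q) = w2c c (qd (wp X) q) := by
    rw [← h.cl]; unfold colB; rw [sl_val hq]
  have s6 : Real.sqrt 6 ^ 2 = 6 := Real.sq_sqrt (by norm_num)
  rcases h0 : Nat.beq kd 0 with _ | _
  swap
  · rw [h0, cond_true] at hk
    rcases h1 : (and (Nat.beq p q) (okw c (qd (wp X) p))) with _ | _
    · rw [h1, cond_false] at hk; exact absurd hk (by simp)
    rw [h1, cond_true] at hk
    rw [Bool.and_eq_true, Nat.beq_eq] at h1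
    obtain ⟨rfl, h2⟩ := h1
    refine ⟨X, K, col, lab, f, h, hK, ?_, hk⟩
    have : lsW kd = 0 := by unfold lsW; rw [h0]; rfl
    rw [this, pow_zero, one_mul, hkf, gve_self hB]
    rw [ccp]; exact okw_ne h2
  rw [h0, cond_false] at hk
  rcases h1 : (and (and (okw c (qd (wp X) p)) (okw c (qd (wp X) q)))
      (and (not (Nat.beq p q)) (midOK X))) with _ | _
  · rw [h1, cond_false] at hk; exact absurd hk (by simp)
  rw [h1, cond_true] at hk
  simp only [Bool.and_eq_true] at h1
  obtain ⟨⟨hokp, hokq⟩, hne, hmid⟩ := h1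
  have hne : p ≠ q := H693.beq_false_ne hne
  have hcp : col (sl p) ≠ none := by rw [ccp]; exact okw_ne hokp
  have hcq : col (sl q) ≠ none := by rw [ccq]; exact okw_ne hokq
  have hsne : sl p ≠ sl q := fun h' => hne ((sl_inj hp hq).1 h')
  rcases h2 : Nat.beq kd 1 with _ | _
  swap
  · rw [h2, cond_true] at hk
    rcases h3 : (!Nat.beq (Nat.shiftRight (qd (wp X) p) 1) (Nat.shiftRight (qd (wp X) q) 1))
      with _ | _
    · rw [h3, cond_false] at hk; exact absurd hk (by simp)
    rw [h3, cond_true] at hk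
    rw [sr1, sr1] at h3
    have h3 := H693.beq_false_ne h3
    have hcc : col (sl p) ≠ col (sl q) := by rw [ccp, ccq]; exact w2c_ne' hokp hokq h3
    have hA := h.addF hmid (sl p) (sl q) hsne
    rw [sl_val hp, sl_val hq] at hA
    refine ⟨addF X p q, K, col, lab, addE f (sl p) (sl q), hA, hK, ?_, hk⟩
    have : lsW kd = 1 := by unfold lsW; rw [h0, h2]; rfl
    rw [this, pow_one, hkf]
    have hr := congrArg Complex.re (gve_flow (lab := lab) hB col f (sl p) (sl q) hcp hcq hcc (kf K))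
    rw [H693.r6_re] at hr
    exact hr.symm
  rw [h2, cond_false] at hk
  have hw2 : lsW kd = 2 := by unfold lsW; rw [h0, h2]; rfl
  rcases h3 : Nat.beq (Nat.shiftRight (qd (wp X) p) 1) (Nat.shiftRight (qd (wp X) q) 1) with _ | _
  · rw [h3, cond_false] at hk; exact absurd hk (by simp)
  rw [h3, cond_true] at hk
  rw [Nat.beq_eq, sr1, sr1] at h3
  have hcc : col (sl p) = col (sl q) := by rw [ccp, ccq]; exact H693.w2c_congr h3
  have hsub : ∀ p q : ℕ, p < 8 → q < 8 → kf (sbL p q K)
      = (kf K).map fun z => (sbs (sl p) (sl q) z.1, sbs (sl p) (sl q) z.2) := by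
    intro p q hp hq
    unfold kf
    rw [sbL_eq, List.map_map, List.map_map]
    refine List.map_congr_left fun z hz => ?_
    have h4 := hK z hz
    simp only [Function.comp]
    rw [sb_sl hp h4.1, sb_sl hp h4.2]; rfl
  have hK8 : ∀ p q : ℕ, q < 8 → K8 (sbL p q K) := by
    intro p q hq z hz
    rw [sbL_eq, List.mem_map] at hz
    obtain ⟨z', hz', rfl⟩ := hz
    exact ⟨sbN_lt hq (hK z' hz').1, sbN_lt hq (hK z' hz').2⟩
  rcases h4 : Nat.beq kd 2 with _ | _
  · rw [h4, cond_false] at hk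
    rcases h5 : Nat.beq (Nat.land (qd (wp X) q) 1) 0 with _ | _
    · rw [h5, cond_false] at hk; exact absurd hk (by simp)
    rw [h5, cond_true] at hk
    have hl := lab_fr h hq hcq h5
    have hM := h.mvF hmid (sl q) (sl p) (Ne.symm hsne) hcq
    rw [sl_val hp, sl_val hq] at hM
    refine ⟨mvF X q p, sbL q p K, _, _, _, hM, hK8 q p hp, ?_, hk⟩
    rw [hw2, s6, hkf, hsub q p hq hp]
    have hr := congrArg Complex.re (gve_mrg' hB col f (sl p) (sl q) hsne hcp hcc hl (kf K))
    rw [H693.re6m] at hr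
    exact hr.symm
  · rw [h4, cond_true] at hk
    rcases h5 : Nat.beq (Nat.land (qd (wp X) p) 1) 0 with _ | _
    · rw [h5, cond_false] at hk; exact absurd hk (by simp)
    rw [h5, cond_true] at hk
    have hl := lab_fr h hp hcp h5
    have hM := h.mvF hmid (sl p) (sl q) hsne hcp
    rw [sl_val hp, sl_val hq] at hM
    refine ⟨mvF X p q, sbL p q K, _, _, _, hM, hK8 p q hq, ?_, hk⟩
    rw [hw2, s6, hkf, hsub p q hp hq]
    have hr := congrArg Complex.re (gve_mrg hB col f (sl p) (sl q) hsne hcp hcc hl (kf K))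
    rw [H693.re6m] at hr
    exact hr.symm

/-- all leg steps (kinds: 2 bits each). -/
def lgs (c n : ℕ) : List (ℕ × ℕ) → ℕ → ℕ → (ℕ → Bool) → Bool :=
  Nat.rec (motive := fun _ => List (ℕ × ℕ) → ℕ → ℕ → (ℕ → Bool) → Bool)
    (fun K _ X k => List.rec (motive := fun _ => Bool) (k X) (fun _ _ _ => false) K)
    (fun _ ih K S X k => List.rec (motive := fun _ => Bool) false
      (fun z K' _ => force z.1 fun p => force z.2 fun q => force (Nat.land S 3) fun kd =>
        lst c kd p q K' X fun K'' X' => ih K'' (Nat.shiftRight S 2) X' k) K) n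

/-- weight of the leg steps. -/
def lgW (n : ℕ) : ℕ → ℕ :=
  Nat.rec (motive := fun _ => ℕ → ℕ) (fun _ => 0)
    (fun _ ih S => Nat.add (lsW (Nat.land S 3)) (ih (Nat.shiftRight S 2))) n

theorem lgs_sound (hB : IsMUBs B) (n : ℕ) : ∀ {K : List (ℕ × ℕ)} {S X : ℕ} {k : ℕ → Bool}
    {col : Fin 8 → Option (Fin c)} {lab : Fin 8 → Bool} {f : Fin 8 → Fin 8 → ℤ},
    Rpr c X col lab f → K8 K → lgs c n K S X k = true →
    ∃ X' col' lab' f', Rpr c X' col' lab' f' ∧
      (gv B col' lab' f').re = Real.sqrt 6 ^ lgW n S * (gve B col lab f (kf K)).re ∧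
      k X' = true := by
  induction n with
  | zero =>
    intro K S X k col lab f h hK hk
    cases K with
    | nil =>
      refine ⟨X, col, lab, f, h, ?_, hk⟩
      have h1 : lgW 0 S = 0 := rfl
      have h2 : kf [] = [] := rfl
      rw [h1, h2, gve_nil, pow_zero, one_mul]
    | cons z K => exact absurd hk (by simp [lgs])
  | succ n ih =>
    intro K S X k col lab f h hK hk
    cases K with
    | nil => exact absurd hk (by simp [lgs])
    | cons z K =>
      have e1 : lgs c (n + 1) (z :: K) S X k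
          = force z.1 fun p => force z.2 fun q => force (Nat.land S 3) fun kd =>
            lst c kd p q K X fun K'' X' => lgs c n K'' (Nat.shiftRight S 2) X' k := rfl
      have e2 : lgW (n + 1) S = lsW (Nat.land S 3) + lgW n (Nat.shiftRight S 2) := rfl
      rw [e1] at hk
      simp only [force_eq] at hk
      have hz := hK z (by simp)
      obtain ⟨X1, K1, col1, lab1, f1, a1, a2, a3, a4⟩ :=
        lst_sound hB h hz.1 hz.2 (fun z' hz' => hK z' (by simp [hz'])) hk
      obtain ⟨X', col', lab', f', b1, b2, b3⟩ := ih a1 a2 a4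
      refine ⟨X', col', lab', f', b1, ?_, b3⟩
      rw [b2, a3, e2, pow_add]; ring

/-! ### tables -/

/-- tree of packed leaves (64 entries each). -/
inductive TT where
  | lf : ℕ → TT
  | nd : TT → TT → TT

/-- entry. -/
noncomputable def TT.get (w mk : ℕ) (t : TT) : ℕ → ℕ → ℕ :=
  TT.rec (motive := fun _ => ℕ → ℕ → ℕ)
    (fun C _ lo => Nat.land (Nat.shiftRight C (Nat.mul w lo)) mk)
    (fun _ _ ia ib hi lo => Nat.rec (motive := fun _ => ℕ) (ia (Nat.shiftRight hi 1) lo)
      (fun _ _ => ib (Nat.shiftRight hi 1) lo) (Nat.land hi 1)) t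

/-- entry number `i`. -/
noncomputable def TT.at (w mk : ℕ) (t : TT) (i : ℕ) : ℕ := t.get w mk (Nat.shiftRight i 6) (Nat.land i 63)

/-- all entries. -/
noncomputable def TT.all (w mk : ℕ) (p : ℕ → Bool) (t : TT) : Bool :=
  TT.rec (motive := fun _ => Bool)
    (fun C => allK 64 fun lo => p (Nat.land (Nat.shiftRight C (Nat.mul w lo)) mk))
    (fun _ _ ia ib => and ia ib) t

theorem TT.all_spec {w mk : ℕ} {p : ℕ → Bool} {t : TT} (h : t.all w mk p = true) :
    ∀ hi lo, lo < 64 → p (t.get w mk hi lo) = true := by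
  induction t with
  | lf C =>
    intro hi lo hlo
    have h1 : allK 64 (fun lo => p (Nat.land (Nat.shiftRight C (Nat.mul w lo)) mk)) = true := h
    exact allK_spec h1 lo hlo
  | nd a b iha ihb =>
    intro hi lo hlo
    have h1 : (TT.all w mk p a && TT.all w mk p b) = true := h
    rw [Bool.and_eq_true] at h1
    have e : (TT.nd a b).get w mk hi lo = Nat.rec (motive := fun _ => ℕ)
        (a.get w mk (Nat.shiftRight hi 1) lo)
        (fun _ _ => b.get w mk (Nat.shiftRight hi 1) lo) (Nat.land hi 1) := rfl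
    rw [e]
    generalize Nat.land hi 1 = z
    cases z with
    | zero => exact iha h1.1 _ _ hlo
    | succ z => exact ihb h1.2 _ _ hlo

theorem TT.at_spec {w mk : ℕ} {p : ℕ → Bool} {t : TT} (h : t.all w mk p = true) (i : ℕ) :
    p (t.at w mk i) = true :=
  TT.all_spec h _ _ (lt_of_le_of_lt Nat.and_le_right (by norm_num))

/-! ### moves

Number of steps (3 bits), kinds of the leg steps (6 bits), colours (`4 c` bits), placement
(32 bits), steps (11 bits each). -/

/-- colours of a move. -/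
def mT (M : ℕ) : ℕ := Nat.shiftLeft (Nat.shiftRight M 9) 4
/-- placement of a move. -/
def mQ (c M : ℕ) : ℕ := Nat.shiftRight M (Nat.add 9 (Nat.mul 4 c))
/-- steps of a move. -/
def mS (c M : ℕ) : ℕ := Nat.shiftRight M (Nat.add 41 (Nat.mul 4 c))

/-- check of a move. -/
def mvOK (c M : ℕ) : Bool := and (isp 8 (mQ c M)) (ckT c (mT M))

/-- recognition with a checked move. -/
def ckJ (X t q C : ℕ) : Bool :=
  and (Nat.beq (prm 8 X q) (Nat.land C
    39402006196394479212279040100143613805079739270465446667948293404245721771497210611414266254884915640806627990306815))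
    (Nat.beq (pw 8 (wp X) t q) (Nat.land (wp C) 4294967295))

theorem ckJ_sound (hB : IsMUBs B) (hc : c ≤ 7) {X t q C : ℕ} (hX : Asy 8 X) (hW : Wok 8 c X)
    (h : ckJ X t q C = true) (hq : isp 8 q = true) (ht : ckT c t = true) :
    vB B 8 c X = vB B 8 c C := by
  refine ckI_sound hB le_rfl hc hX hW (q := q) (t := t) ?_
  unfold ckJ at h
  unfold ckI
  rw [Bool.and_eq_true] at h
  have e : lowm = 39402006196394479212279040100143613805079739270465446667948293404245721771497210611414266254884915640806627990306815 := by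
    decide +kernel
  rw [e, h.1, h.2, hq, ht]
  rfl

/-- parity of a class. -/
def parC (C : ℕ) : ℕ := Nat.land (Nat.shiftRight C 416) 1

/-- value of a class. -/
noncomputable def cvB (B : Fin m → M6) (c C : ℕ) : ℝ := pwp (parC C) * vB B 8 c C

theorem abs_cvB_le (hB : IsMUBs B) (C : ℕ) : |cvB B c C| ≤ 5 / 2 := by
  unfold cvB pwp
  rw [abs_mul]
  have h1 : |(if parC C = 1 then Real.sqrt 6 else 1)| ≤ 5 / 2 := by
    split_ifs
    · rw [abs_of_nonneg (Real.sqrt_nonneg 6)]; exact sqrt6_le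
    · norm_num
  have h2 : |vB B 8 c C| ≤ 1 := (Complex.abs_re_le_norm _).trans (gv_norm hB _ _)
  calc _ ≤ (5 / 2) * 1 := mul_le_mul h1 h2 (abs_nonneg _) (by norm_num)
    _ = 5 / 2 := by norm_num

/-- check of a product: `par` (sum of the parities), word `X`, legs `K` (`nl` of them), record
`r`: class (16 bits), exponent (3 bits), reversal (1 bit), move. -/
def rcd (c T : ℕ) (cls mv : ℕ → ℕ) (par nl : ℕ) (K : List (ℕ × ℕ)) (X r : ℕ) : Bool :=
  force (mv (Nat.shiftRight r 20)) fun M => force X fun X => force (Nat.shiftRight M 3) fun LS =>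
    lgs c nl K LS X fun X1 => force (mS c M) fun S => force (Nat.land M 7) fun n =>
      scr c n S X1 fun X2 => rvc (Nat.land (Nat.shiftRight r 19) 1) X2 fun X2 =>
        force (cls (Nat.land r 65535)) fun C => force (mQ c M) fun q =>
        force (mT M) fun t => and (ckJ X2 t q C)
          (force (Nat.add (Nat.add (lgW nl LS) (scW n S)) (parC C)) fun h =>
            and (Nat.beq (Nat.land (Nat.add h par) 1) 0)
              (and (Nat.beq (Nat.shiftRight h 1) (Nat.land (Nat.shiftRight r 16) 7))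
                (Nat.ble (Nat.land (Nat.shiftRight r 16) 7) T)))

/-- multiplicity of parities. -/
def mmb2 (a b : ℕ) : ℕ := cond (and (Nat.beq a 1) (Nat.beq b 1)) 6 1

theorem pwp_eq {b : ℕ} (h : b = 0 ∨ b = 1) : pwp b = Real.sqrt 6 ^ b := by
  unfold pwp
  rcases h with rfl | rfl <;> simp

theorem rcd_sound (hB : IsMUBs B) (hc : c ≤ 7) {T : ℕ} {cls mv : ℕ → ℕ}
    (hmv : ∀ i, mvOK c (mv i) = true) {a b nl : ℕ} (ha : a = 0 ∨ a = 1) (hb : b = 0 ∨ b = 1)
    {K : List (ℕ × ℕ)} {X r : ℕ} (hK : K8 K)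
    {col : Fin 8 → Option (Fin c)} {lab : Fin 8 → Bool} {f : Fin 8 → Fin 8 → ℤ}
    (h : Rpr c X col lab f) (hr : rcd c T cls mv (a + b) nl K X r = true) :
    (6 : ℝ) ^ T * (pwp a * pwp b * (gve B col lab f (kf K)).re)
      = (mmb2 a b : ℝ) * ((6 ^ (T - Nat.land (Nat.shiftRight r 16) 7) : ℕ) : ℝ)
        * cvB B c (cls (Nat.land r 65535)) := by
  unfold rcd at hr
  simp only [force_eq] at hr
  set M := mv (Nat.shiftRight r 20) with hM
  obtain ⟨X1, col1, lab1, f1, a1, a2, a3⟩ := lgs_sound hB nl h hK hr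
  obtain ⟨X2', col2, lab2, f2, b1', b3', b4'⟩ := scr_rpr hB _ a1 a3
  obtain ⟨X2, b1, b2, b3, b4⟩ := rvc_sound hB b1' b4'
  rw [b3'] at b3
  rw [Bool.and_eq_true, Bool.and_eq_true, Bool.and_eq_true] at b4
  obtain ⟨c1, c2, c3, c4⟩ := b4
  have hm := hmv (Nat.shiftRight r 20)
  rw [← hM] at hm
  unfold mvOK at hm
  rw [Bool.and_eq_true] at hm
  have hv := ckJ_sound hB hc b1 b2 c1 hm.1 hm.2
  set C := cls (Nat.land r 65535) with hC
  set s := Nat.land (Nat.shiftRight r 16) 7 with hs
  set w1 := lgW nl (Nat.shiftRight M 3) with hw1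
  set w2 := scW (Nat.land M 7) (mS c M) with hw2
  rw [Nat.beq_eq, la1] at c2
  rw [Nat.beq_eq, sr1] at c3
  have c4 : s ≤ T := Nat.le_of_ble_eq_true c4
  have hpc : parC C = 0 ∨ parC C = 1 := by
    have : parC C = Nat.shiftRight C 416 % 2 := by unfold parC; exact la1 _
    omega
  have c2' : (w1 + w2 + parC C + (a + b)) % 2 = 0 := c2
  have c3' : (w1 + w2 + parC C) / 2 = s := c3
  -- everything in powers of √6
  have h6 : (6 : ℝ) = Real.sqrt 6 ^ 2 := (Real.sq_sqrt (by norm_num)).symm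
  set G := (gve B col lab f (kf K)).re with hG
  have hval : cvB B c C = Real.sqrt 6 ^ (w1 + w2 + parC C) * G := by
    unfold cvB
    rw [← hv, b3, a2, pwp_eq hpc, pow_add, pow_add]; ring
  rw [hval, pwp_eq ha, pwp_eq hb]
  obtain ⟨d, hd⟩ : ∃ d, T = s + d := ⟨T - s, by omega⟩
  have hTs : T - s = d := by omega
  rw [hTs, hd]
  push_cast
  have hpar : (w1 + w2 + parC C) = 2 * s + (a + b) % 2 := by omega
  rw [hpar]
  have e6 : ∀ n : ℕ, (6 : ℝ) ^ n = Real.sqrt 6 ^ (2 * n) := fun n => by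
    rw [pow_mul, ← h6]
  have hmm : Real.sqrt 6 ^ a * Real.sqrt 6 ^ b = (mmb2 a b : ℝ) * Real.sqrt 6 ^ ((a + b) % 2) := by
    have m00 : mmb2 0 0 = 1 := rfl
    have m01 : mmb2 0 1 = 1 := rfl
    have m10 : mmb2 1 0 = 1 := rfl
    have m11 : mmb2 1 1 = 6 := rfl
    rcases ha with rfl | rfl <;> rcases hb with rfl | rfl
    · rw [m00]; simp
    · rw [m01]; simp
    · rw [m10]; simp
    · rw [m11]
      have h7 : Real.sqrt 6 * Real.sqrt 6 = 6 := Real.mul_self_sqrt (by norm_num)
      norm_num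
  calc (6 : ℝ) ^ (s + d) * (Real.sqrt 6 ^ a * Real.sqrt 6 ^ b * G)
      = (6 : ℝ) ^ d * (6 : ℝ) ^ s * ((mmb2 a b : ℝ) * Real.sqrt 6 ^ ((a + b) % 2) * G) := by
        rw [hmm, pow_add]; ring
    _ = _ := by
        rw [pow_add (Real.sqrt 6), ← e6 s]; ring

end Vale.Agent.P355.H998.E
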