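import Vale.Agent.P355.H998.E.Vb

/-! Products of flags: sum of two packed numbers without carry. -/

namespace Vale.Agent.P355.H998.E

open Finset Matrix Vale.Agent.P355 H147
open Vale.Agent.P355.H693 (net w2c re_rec pwp)

/-! ### sums without carry -/

theorem nocarry {b : ℕ} (hb : 0 < b) {A B : ℕ} (n : ℕ)
    (h : ∀ i < n, A / b ^ i % b + B / b ^ i % b < b) :
    ∀ i ≤ n, (A + B) / b ^ i = A / b ^ i + B / b ^ i := by
  intro i hi
  induction i with
  | zero => simp
  | succ i ih =>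
    have h1 := ih (by omega)
    have h2 := h i (by omega)
    rw [pow_succ, ← Nat.div_div_eq_div_mul, ← Nat.div_div_eq_div_mul, ← Nat.div_div_eq_div_mul, h1,
      Nat.add_div hb, if_neg (by omega), add_zero]

theorem nocarry_dg {b : ℕ} (hb : 0 < b) {A B : ℕ} (n : ℕ)
    (h : ∀ i < n, A / b ^ i % b + B / b ^ i % b < b) (i : ℕ) (hi : i < n) :
    (A + B) / b ^ i % b = A / b ^ i % b + B / b ^ i % b := by
  rw [nocarry hb n h i hi.le, Nat.add_mod, Nat.mod_eq_of_lt (h i hi)]

theorem pw64 (n : ℕ) : (2 : ℕ) ^ (6 * n) = 64 ^ n := by rw [pow_mul]; norm_num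

theorem wp_eq (X : ℕ) : wp X = X / 64 ^ 64 := by
  have h : wp X = X >>> (6 * 64) := rfl
  rw [h, Nat.shiftRight_eq_div_pow, pw64]

theorem wp_add {A B : ℕ} (h : ∀ i < 64, A / 64 ^ i % 64 + B / 64 ^ i % 64 < 64) :
    wp (A + B) = wp A + wp B := by
  rw [wp_eq, wp_eq, wp_eq]
  exact nocarry (by norm_num) 64 h 64 le_rfl

theorem dg_add {A B : ℕ} (h : ∀ i < 64, A / 64 ^ i % 64 + B / 64 ^ i % 64 < 64) {x y : ℕ}
    (hx : x < 8) (hy : y < 8) : dg (A + B) x y = dg A x y + dg B x y := by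
  rw [dg_eq, dg_eq, dg_eq]
  exact nocarry_dg (by norm_num) 64 h _ (by omega)

/-! ### digits of a permuted matrix -/

theorem wp_prm (K M q : ℕ) (hK : K ≤ 8) (hq : ∀ i < K, qv K q i < 8) : wp (prm K M q) = 0 := by
  apply Nat.eq_of_testBit_eq
  intro b
  have h : wp (prm K M q) = (prm K M q) >>> 384 := rfl
  rw [h, Nat.testBit_shiftRight, Nat.zero_testBit, Bool.eq_false_iff]
  intro h1
  rw [prm_bit K M q _ hK hq] at h1
  omega

/-! ### flags -/

variable {m r c : ℕ} {B : Fin m → M6}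

/-- a flag as a number `F` and its reversal `F'` (without words). -/
structure Fok (r : ℕ) (w : ℕ → ℕ) (k F F' : ℕ) : Prop where
  lo : ∀ i < 64, F / 64 ^ i % 64 < 32
  lo' : ∀ i < 64, F' / 64 ^ i % 64 < 32
  sm : ∀ a < r + 2, ∀ b < r + 2, a ≠ b → dg F a b + dg F' a b = 32
  as : ∀ a < r + 2, ∀ b < r + 2, a ≠ b → dg F a b + dg F b a = 32
  di : ∀ a < r + 2, dg F a a = 16 ∧ dg F' a a = 16
  cl : ∀ a < r + 1, dg F a (r + 1) = 16
  wr : ∀ a < r, qd (wp F) a = w a
  wk : qd (wp F) r = 2 * k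
  wj : qd (wp F) (r + 1) = 0

/-- right factor. -/
def rF (K F F' q k : ℕ) (s : Bool) : ℕ :=
  Nat.add (prm K (cond s F F') q) (Nat.shiftLeft k (Nat.add 385 (Nat.mul 4 (Nat.sub K 1))))

theorem flg_clean' {w : ℕ → ℕ} {k F F' : ℕ} (h : Fok r w k F F') :
    (typ r c w).Clean (flg r c (dg F) k) := by
  intro q
  constructor
  · show (if jS r < q then _ else _) = _
    rw [if_neg]
    intro h1
    have : (r + 1 : ℕ) < q := h1
    omega
  · show (if q < jS r then _ else _) = _
    split_ifs with h1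
    · have h2 : (q : ℕ) < r + 1 := h1
      have h3 : dg F q (r + 1) = 16 := h.cl q h2
      show ((dg F q (r + 1) : ℕ) : ℤ) - 16 = 0
      rw [h3]; norm_num
    · rfl

theorem net_flg {w : ℕ → ℕ} {k F F' : ℕ} (h : Fok r w k F F') (a b : Fin (r + 2)) (hab : a ≠ b) :
    net (flg r c (dg F) k).2 a b = (dg F a b : ℤ) - 16 := by
  have h2 := h.as a a.2 b b.2 (fun h' => hab (Fin.ext h'))
  unfold net
  show (if a < b then (dg F a b : ℤ) - 16 else 0) - (if b < a then (dg F b a : ℤ) - 16 else 0) = _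
  rcases lt_or_gt_of_ne hab with h1 | h1
  · rw [if_pos h1, if_neg (not_lt.2 h1.le), sub_zero]
  · rw [if_neg (not_lt.2 h1.le), if_pos h1]; omega

/-- the flows of an image. -/
theorem act_clean {w : ℕ → ℕ} {x : Flg (r + 2) c} (h : (typ r c w).Clean x)
    {s : H147.Sym (r + 2) c} (hj : s.σ (jS r) = jS r) : (typ r c w).Clean (s.act x) := by
  intro q
  have hj' : s.σ (typ r c w).j0 = (typ r c w).j0 := hj
  constructor
  · show sg s.neg * x.2 (s.σ (typ r c w).j0) (s.σ q) = 0
    rw [hj', (h _).1, mul_zero]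
  · show sg s.neg * x.2 (s.σ q) (s.σ (typ r c w).j0) = 0
    rw [hj', (h _).2, mul_zero]

theorem rF_dg {K F F' q k : ℕ} {s : Bool} (hK : K ≤ 8) (h1 : 1 ≤ K)
    (hlo : ∀ i < 64, F / 64 ^ i % 64 < 32) (hlo' : ∀ i < 64, F' / 64 ^ i % 64 < 32)
    (hq : ∀ a < K, qv K q a < K) :
    (∀ i < 64, rF K F F' q k s / 64 ^ i % 64 < 32) ∧
    (∀ a < K, ∀ b < K, dg (rF K F F' q k s) a b = dg (cond s F F') (qv K q a) (qv K q b)) ∧
    wp (rF K F F' q k s) = 2 * k * 16 ^ (K - 1) := by
  have hq8 : ∀ i < K, qv K q i < 8 := fun i hi => lt_of_lt_of_le (hq i hi) hK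
  set P := prm K (cond s F F') q with hP
  have e : rF K F F' q k s = P + 64 ^ 64 * (2 * k * 16 ^ (K - 1)) := by
    show P + k <<< (6 * 64 + 1 + 4 * (K - 1)) = _
    rw [Nat.shiftLeft_eq, pow_add, pow_succ, pw64, pow_mul, show (2 : ℕ) ^ 4 = 16 by norm_num]
    generalize (64 : ℕ) ^ 256 = Z
    ring
  have hlow : ∀ i < 64, rF K F F' q k s / 64 ^ i % 64 = P / 64 ^ i % 64 := by
    intro i hi
    rw [e]
    exact low_dg (by norm_num) hi
  have hG : ∀ i < 64, (cond s F F') / 64 ^ i % 64 < 32 := by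
    intro i hi
    cases s
    · exact hlo' i hi
    · exact hlo i hi
  have hPd : ∀ i < 64, P / 64 ^ i % 64 = dg P (i / 8) (i % 8) := by
    intro i hi
    rw [dg_eq]
    congr 3
    omega
  have hPlt : ∀ i < 64, P / 64 ^ i % 64 < 32 := by
    intro i hi
    rw [hPd i hi]
    by_cases h : i / 8 < K ∧ i % 8 < K
    · rw [hP, dg_prm K _ q _ _ hK hq8 h.1 h.2, dg_eq]
      refine hG _ ?_
      have h2 := hq _ h.1
      have h3 := hq _ h.2
      omega
    · rw [hP, dg_prm0 K _ q _ _ hK hq8 (by omega) h]; norm_num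
  refine ⟨fun i hi => by rw [hlow i hi]; exact hPlt i hi, ?_, ?_⟩
  · intro a ha b hb
    rw [dg_eq, hlow _ (by omega), ← dg_eq, hP, dg_prm K _ q a b hK hq8 ha hb]
  · rw [wp_eq, e]
    have h2 : P < 64 ^ 64 := by
      have h3 := wp_prm K (cond s F F') q hK hq8
      rw [← hP, wp_eq] at h3
      rcases Nat.div_eq_zero_iff.1 h3 with h4 | h4
      · exact absurd h4 (by positivity)
      · exact h4
    exact high_dg h2

/-- **Products.** -/
theorem prod_eq (hB : IsMUBs B) (hr : r + 2 ≤ 8) (hc : c ≤ 7) {w : ℕ → ℕ} {kx ky k' : ℕ}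
    {Fx Fx' Fy Fy' : ℕ} (hx : Fok r w kx Fx Fx') (hy : Fok r w ky Fy Fy') (hkx : kx ≤ c)
    (hk' : k' ≤ c) (hw : ∀ a < r, w a / 2 ≤ c) (s : H147.Sym (r + 2) c)
    (hs : s.σ (jS r) = jS r) {q : ℕ}
    (hq : ∀ a : Fin (r + 2), qv (r + 2) q a = (s.σ (Equiv.swap (iS r) (jS r) a) : Fin (r + 2)))
    (hk : (oc c ky).map s.τ.symm = oc c k') :
    (typ r c w).M B (flg r c (dg Fx) kx) (s.act (flg r c (dg Fy) ky))
        = vB B (r + 2) c (Nat.add Fx (rF (r + 2) Fy Fy' q k' s.neg)) ∧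
      Asy (r + 2) (Nat.add Fx (rF (r + 2) Fy Fy' q k' s.neg)) ∧
      Wok (r + 2) c (Nat.add Fx (rF (r + 2) Fy Fy' q k' s.neg)) ∧
      ∀ p < r + 2, dg (Nat.add Fx (rF (r + 2) Fy Fy' q k' s.neg)) p p = 32 := by
  have hqlt : ∀ a < r + 2, qv (r + 2) q a < r + 2 := by
    intro a ha
    have := hq ⟨a, ha⟩
    simp only at this
    rw [this]; exact Fin.is_lt _
  obtain ⟨hR1, hR2, hR3⟩ := rF_dg (s := s.neg) (k := k') hr (by omega) hy.lo hy.lo' hqlt
  set R := rF (r + 2) Fy Fy' q k' s.neg with hRdef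
  have hX : Nat.add Fx R = Fx + R := rfl
  rw [hX]
  have hnc : ∀ i < 64, Fx / 64 ^ i % 64 + R / 64 ^ i % 64 < 64 := by
    intro i hi
    have h1 := hx.lo i hi
    have h2 := hR1 i hi
    omega
  -- digits
  have hdg : ∀ a : Fin (r + 2), ∀ b : Fin (r + 2), dg (Fx + R) a b = dg Fx a b
      + dg (cond s.neg Fy Fy') (s.σ (Equiv.swap (iS r) (jS r) a) : Fin (r + 2))
        (s.σ (Equiv.swap (iS r) (jS r) b) : Fin (r + 2)) := by
    intro a b
    rw [dg_add hnc (by omega) (by omega), hR2 a a.2 b b.2, hq a, hq b]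
  have hne : ∀ a b : Fin (r + 2), a ≠ b → s.σ (Equiv.swap (iS r) (jS r) a)
      ≠ s.σ (Equiv.swap (iS r) (jS r) b) :=
    fun a b hab h => hab ((Equiv.swap (iS r) (jS r)).injective (s.σ.injective h))
  -- the value of the second digit
  have hsec : ∀ a b : Fin (r + 2), a ≠ b → (dg (cond s.neg Fy Fy') a b : ℤ)
      = 16 - sg s.neg * ((dg Fy a b : ℤ) - 16) := by
    intro a b hab
    have h1 := hy.sm a a.2 b b.2 (fun h' => hab (Fin.ext h'))
    unfold sg
    cases s.neg
    · simp only [cond_false, Bool.false_eq_true, if_false]; omega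
    · simp only [cond_true, if_true]; omega
  -- words
  have hW : wp (Fx + R) = wp Fx + 2 * k' * 16 ^ (r + 1) := by
    rw [wp_add hnc, hR3]; rfl
  have hWd : ∀ p < r + 2, qd (wp (Fx + R)) p = lw r w kx p + rw' r k' p := by
    intro p hp
    rw [hW]
    have hx16 : ∀ i, i < r + 2 → wp Fx / 16 ^ i % 16 + (2 * k' * 16 ^ (r + 1)) / 16 ^ i % 16
        = lw r w kx i + rw' r k' i ∧
        wp Fx / 16 ^ i % 16 + (2 * k' * 16 ^ (r + 1)) / 16 ^ i % 16 < 16 := by
      intro i hi
      rw [← qd_eq (wp Fx) i]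
      have h16 := qd_lt (wp Fx) i
      by_cases h1 : i = r + 1
      · subst h1
        rw [hx.wj, Nat.mul_div_cancel _ (by positivity)]
        have : lw r w kx (r + 1) = 0 := by unfold lw; rw [if_neg (by omega), if_neg (by omega)]
        have h2 : rw' r k' (r + 1) = 2 * k' := by unfold rw'; rw [if_pos rfl]
        rw [this, h2]
        omega
      · have h3 : (2 * k' * 16 ^ (r + 1)) / 16 ^ i % 16 = 0 := by
          obtain ⟨j, hj⟩ : ∃ j, r + 1 = i + (j + 1) := ⟨r - i, by omega⟩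
          rw [hj, pow_add, pow_succ]
          have : 2 * k' * (16 ^ i * (16 ^ j * 16)) = 16 ^ i * (2 * k' * 16 ^ j * 16) := by ring
          rw [this, Nat.mul_div_cancel_left _ (by positivity), Nat.mul_mod_left]
        rw [h3]
        have h4 : rw' r k' i = 0 := by unfold rw'; rw [if_neg h1]
        rw [h4, add_zero, add_zero]
        refine ⟨?_, by omega⟩
        unfold lw
        by_cases h5 : i < r
        · rw [if_pos h5, hx.wr i h5]
        · rw [if_neg h5]
          have : i = r := by omega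
          subst this
          rw [if_pos rfl, hx.wk]
    rw [qd_eq]
    rw [nocarry_dg (b := 16) (by norm_num) (r + 2) (fun i hi => (hx16 i hi).2) p hp]
    exact (hx16 p hp).1
  have hw' : ∀ a < r, w a < 16 := fun a ha => by rw [← hx.wr a ha]; exact qd_lt _ _
  have hcol : colB (r + 2) c (Fx + R)
      = (typ r c w).pcol (flg r c (dg Fx) kx) (s.act (flg r c (dg Fy) ky)) := by
    funext p
    have h0 : colB (r + 2) c (Fx + R) p = oc c (qd (wp (Fx + R)) p / 2) := rfl
    rw [h0, hWd p p.2]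
    unfold Typ.pcol
    by_cases hj : p = jS r
    · subst hj
      have h1 : lw r w kx (jS r) + rw' r k' (jS r) = 2 * k' := by
        simp [lw, rw', jS]
      rw [h1, Nat.mul_div_cancel_left _ (by norm_num)]
      have h2 : (s.act (flg r c (dg Fy) ky)).1 = oc c k' := hk
      simp [typ, h2]
    · by_cases hi : p = iS r
      · subst hi
        have h1 : lw r w kx (iS r) + rw' r k' (iS r) = 2 * kx := by
          simp [lw, rw', iS]
        rw [h1, Nat.mul_div_cancel_left _ (by norm_num)]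
        have h2 : iS r ≠ jS r := by simp [iS, jS]
        simp [typ, flg, h2]
      · have hpr : (p : ℕ) < r := by
          have h1 : (p : ℕ) ≠ r := fun h => hi (Fin.ext h)
          have h2 : (p : ℕ) ≠ r + 1 := fun h => hj (Fin.ext h)
          have := p.2; omega
        have h1 : lw r w kx p + rw' r k' p = w p := by
          unfold lw rw'
          rw [if_pos hpr, if_neg (by omega), add_zero]
        rw [h1]
        have h2 : p ≠ (typ r c w).j0 := hj
        have h3 : p ≠ (typ r c w).i0 := hi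
        rw [Function.update_of_ne h2, Function.update_of_ne h3]
        show _ = if (p : ℕ) < r then _ else _
        rw [if_pos hpr]
  have hlab : labB (r + 2) (Fx + R) = (typ r c w).lab := by
    funext p
    unfold labB
    rw [hWd p p.2]
    show _ = (decide ((p : ℕ) < r) && (w p % 2 == 1))
    by_cases hpr : (p : ℕ) < r
    · have h1 : lw r w kx p + rw' r k' p = w p := by
        unfold lw rw'
        rw [if_pos hpr, if_neg (by omega), add_zero]
      rw [h1]; simp [hpr]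
    · have h1 : (lw r w kx p + rw' r k' p) % 2 = 0 := by
        unfold lw rw'
        rw [if_neg hpr]
        split_ifs <;> omega
      rw [h1]; simp [hpr]
  have hA : Asy (r + 2) (Fx + R) := by
    intro a ha b hb hab
    have h1 := hdg ⟨a, ha⟩ ⟨b, hb⟩
    have h2 := hdg ⟨b, hb⟩ ⟨a, ha⟩
    simp only at h1 h2
    have hab' : (⟨a, ha⟩ : Fin (r + 2)) ≠ ⟨b, hb⟩ := fun h => hab (congrArg Fin.val h)
    have h3 := hne _ _ hab'
    have h4 := hsec _ _ h3
    have h5 := hsec _ _ (Ne.symm h3)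
    have h6 := hx.as a ha b hb hab
    have h7 := hy.as _ (s.σ (Equiv.swap (iS r) (jS r) ⟨a, ha⟩)).2 _
      (s.σ (Equiv.swap (iS r) (jS r) ⟨b, hb⟩)).2 (fun h' => h3 (Fin.ext h'))
    rw [h1, h2]
    zify at h6 h7 ⊢
    rw [h4, h5]
    have h8 : sg s.neg * ((dg Fy (s.σ (Equiv.swap (iS r) (jS r) ⟨b, hb⟩) : Fin (r + 2))
        (s.σ (Equiv.swap (iS r) (jS r) ⟨a, ha⟩) : Fin (r + 2)) : ℤ) - 16)
        = - (sg s.neg * ((dg Fy (s.σ (Equiv.swap (iS r) (jS r) ⟨a, ha⟩) : Fin (r + 2))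
        (s.σ (Equiv.swap (iS r) (jS r) ⟨b, hb⟩) : Fin (r + 2)) : ℤ) - 16)) := by
      rw [← mul_neg]; congr 1; linarith
    rw [h8]; linarith
  refine ⟨?_, hA, ?_, ?_⟩
  · rw [(typ r c w).M_eq (typ_ok r c w) hB _ _ (flg_clean' hx) (act_clean (flg_clean' hy) hs)]
    unfold vB
    rw [hcol, hlab]
    refine congrArg Complex.re (gv_congr hB _ _ _ fun p q _ _ hpq => ?_)
    have hne' : p ≠ q := fun h => hpq (by rw [h])
    have e1 : flB (r + 2) (Fx + R) p q - flB (r + 2) (Fx + R) q p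
        = (dg (Fx + R) p q : ℤ) - 32 := net_flB hA p q hne'
    have e2 : (typ r c w).pfl (flg r c (dg Fx) kx) (s.act (flg r c (dg Fy) ky)) p q
        - (typ r c w).pfl (flg r c (dg Fx) kx) (s.act (flg r c (dg Fy) ky)) q p
        = net (flg r c (dg Fx) kx).2 p q - sg s.neg * net (flg r c (dg Fy) ky).2
          (s.σ (Equiv.swap (iS r) (jS r) p)) (s.σ (Equiv.swap (iS r) (jS r) q)) := by
      unfold Typ.pfl Sym.act net
      have h1 : (typ r c w).i0 = iS r := rfl
      have h2 : (typ r c w).j0 = jS r := rfl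
      rw [h1, h2]
      simp only
      ring
    rw [e1, e2, net_flg hx p q hne', net_flg hy _ _ (hne p q hne'), hdg p q]
    have h4 := hsec _ _ (hne p q hne')
    push_cast
    rw [h4]; ring
  · intro p hp
    rw [hWd p hp]
    unfold lw rw'
    by_cases h1 : p < r
    · rw [if_pos h1, if_neg (by omega), add_zero]; exact hw p h1
    · rw [if_neg h1]
      by_cases h2 : p = r
      · rw [if_pos h2, if_neg (by omega)]; omega
      · rw [if_neg h2]
        split_ifs <;> omega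
  · intro p hp
    have h1 := hdg ⟨p, hp⟩ ⟨p, hp⟩
    simp only at h1
    rw [h1, (hx.di p hp).1]
    have h2 := hy.di _ (s.σ (Equiv.swap (iS r) (jS r) ⟨p, hp⟩)).2
    cases s.neg
    · rw [cond_false, h2.2]
    · rw [cond_true, h2.1]

end Vale.Agent.P355.H998.E
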