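import Mathlib

/-! Matrices packed in one natural number (digits of 6 bits, rows of 8 digits): digits, permutation
of rows and columns by block operations. -/

namespace Vale.Agent.P355.H998.E

open Finset

/-- digit at row `x`, column `y`. -/
def dg (M x y : ℕ) : ℕ := Nat.land (Nat.shiftRight M (Nat.add (Nat.mul 48 x) (Nat.mul 6 y))) 63

theorem dg_testBit (M x y b : ℕ) : (dg M x y).testBit b = (decide (b < 6) && M.testBit (48 * x + 6 * y + b)) := by
  have h : dg M x y = (M >>> (48 * x + 6 * y)) &&& 63 := rfl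
  rw [h, Nat.testBit_and, Nat.testBit_shiftRight]
  have h63 : (63 : ℕ).testBit b = decide (b < 6) := by
    rw [show (63 : ℕ) = 2 ^ 6 - 1 by norm_num, Nat.testBit_two_pow_sub_one]
  rw [h63, Bool.and_comm]

theorem dg_eq (M x y : ℕ) : dg M x y = M / 64 ^ (8 * x + y) % 64 := by
  have h : dg M x y = (M >>> (48 * x + 6 * y)) &&& 63 := rfl
  rw [h, show (63 : ℕ) = 2 ^ 6 - 1 by norm_num, Nat.and_two_pow_sub_one_eq_mod,
    Nat.shiftRight_eq_div_pow]
  congr 2
  rw [show (64 : ℕ) = 2 ^ 6 by norm_num, ← pow_mul]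
  congr 1
  ring

theorem dg_lt (M x y : ℕ) : dg M x y < 64 := by rw [dg_eq]; exact Nat.mod_lt _ (by norm_num)

/-- digits of 4 bits. -/
def qd (q t : ℕ) : ℕ := Nat.land (Nat.shiftRight q (Nat.mul 4 t)) 15

theorem qd_eq (q t : ℕ) : qd q t = q / 16 ^ t % 16 := by
  have h : qd q t = (q >>> (4 * t)) &&& 15 := rfl
  rw [h, show (15 : ℕ) = 2 ^ 4 - 1 by norm_num, Nat.and_two_pow_sub_one_eq_mod,
    Nat.shiftRight_eq_div_pow, pow_mul]
  norm_num

theorem qd_lt (q t : ℕ) : qd q t < 16 := by rw [qd_eq]; exact Nat.mod_lt _ (by norm_num)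

theorem qd_shift (q t : ℕ) : qd (Nat.shiftRight q 4) t = qd q (t + 1) := by
  rw [qd_eq, qd_eq]
  have h : Nat.shiftRight q 4 = q >>> 4 := rfl
  rw [h, Nat.shiftRight_eq_div_pow, Nat.div_div_eq_div_mul]
  congr 2
  rw [pow_succ]; norm_num; ring

/-- concatenation of blocks of width `w`: the block number `i < n` of the result is the value of `f`
at the digit number `n - 1 - i` of `q`. -/
def fl (w : ℕ) (f : ℕ → ℕ) (n : ℕ) : ℕ → ℕ → ℕ :=
  Nat.rec (fun _ acc => acc)
    (fun _ ih q acc => ih (Nat.shiftRight q 4)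
      (Nat.lor (Nat.shiftLeft acc w) (f (Nat.land q 15)))) n

theorem fl_testBit (w : ℕ) (f : ℕ → ℕ) (n : ℕ) : ∀ q acc s,
    (fl w f n q acc).testBit s = true ↔
      (w * n ≤ s ∧ acc.testBit (s - w * n) = true) ∨
      ∃ i < n, w * i ≤ s ∧ (f (qd q (n - 1 - i))).testBit (s - w * i) = true := by
  induction n with
  | zero =>
    intro q acc s
    have h : fl w f 0 q acc = acc := rfl
    rw [h]; simp
  | succ n ih =>
    intro q acc s
    have h : fl w f (n + 1) q acc = fl w f n (Nat.shiftRight q 4)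
        ((acc <<< w) ||| f (Nat.land q 15)) := rfl
    have hq : Nat.land q 15 = qd q 0 := by
      unfold qd; simp [Nat.shiftRight]
    rw [h, ih, hq]
    simp only [Nat.testBit_or, Nat.testBit_shiftLeft, Bool.or_eq_true, Bool.and_eq_true,
      decide_eq_true_eq, qd_shift]
    constructor
    · rintro (⟨h1, (⟨h2, h3⟩ | h3)⟩ | ⟨i, hi, h1, h2⟩)
      · left
        refine ⟨?_, ?_⟩
        · rw [Nat.mul_succ]; omega
        · rw [Nat.mul_succ, ← Nat.sub_sub]; exact h3
      · right
        refine ⟨n, by omega, h1, ?_⟩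
        rw [show n + 1 - 1 - n = 0 by omega]; exact h3
      · right
        refine ⟨i, by omega, h1, ?_⟩
        rw [show n + 1 - 1 - i = n - 1 - i + 1 by omega]; exact h2
    · rintro (⟨h1, h2⟩ | ⟨i, hi, h1, h2⟩)
      · left
        rw [Nat.mul_succ] at h1 h2
        refine ⟨by omega, Or.inl ⟨by omega, ?_⟩⟩
        rw [Nat.sub_sub]; exact h2
      · rcases Nat.lt_succ_iff_lt_or_eq.1 hi with hi' | rfl
        · right
          refine ⟨i, hi', h1, ?_⟩
          rw [show n - 1 - i + 1 = n + 1 - 1 - i by omega]; exact h2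
        · left
          refine ⟨h1, Or.inr ?_⟩
          rw [show i + 1 - 1 - i = 0 by omega] at h2; exact h2

/-- permutation of blocks of width `w`. -/
def pr (w mask M : ℕ) : ℕ → ℕ → ℕ → ℕ :=
  fl w fun d => Nat.land (Nat.shiftRight M (Nat.mul w d)) mask

theorem pr_testBit (w mask M : ℕ) (n : ℕ) (q acc s : ℕ) :
    (pr w mask M n q acc).testBit s = true ↔
      (w * n ≤ s ∧ acc.testBit (s - w * n) = true) ∨
      ∃ i < n, w * i ≤ s ∧ mask.testBit (s - w * i) = true ∧
        M.testBit (w * qd q (n - 1 - i) + (s - w * i)) = true := by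
  unfold pr
  rw [fl_testBit]
  have e : ∀ d u, (Nat.land (Nat.shiftRight M (Nat.mul w d)) mask).testBit u = true ↔
      mask.testBit u = true ∧ M.testBit (w * d + u) = true := by
    intro d u
    have h : Nat.land (Nat.shiftRight M (Nat.mul w d)) mask = (M >>> (w * d)) &&& mask := rfl
    rw [h, Nat.testBit_and, Nat.testBit_shiftRight, Bool.and_eq_true, and_comm]
  simp only [e]

/-- mask of a row. -/
def rowmask : ℕ := 281474976710655

/-- mask of a column. -/
def colmask : ℕ := 0x3f00000000003f00000000003f00000000003f00000000003f00000000003f00000000003f00000000003f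

theorem rowmask_testBit (u : ℕ) : rowmask.testBit u = decide (u < 48) := by
  rw [show rowmask = 2 ^ 48 - 1 by unfold rowmask; norm_num, Nat.testBit_two_pow_sub_one]

theorem colmask_aux : (List.range 384).all (fun u => (colmask.testBit u) == (Nat.blt (u % 48) 6)) = true := by
  decide +kernel

theorem colmask_testBit (u : ℕ) : colmask.testBit u = true ↔ u < 384 ∧ u % 48 < 6 := by
  by_cases hu : u < 384
  · have h := List.all_eq_true.1 colmask_aux u (List.mem_range.2 hu)
    have h2 : colmask.testBit u = Nat.blt (u % 48) 6 := eq_of_beq h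
    rw [h2, Nat.blt_eq]
    exact ⟨fun h => ⟨hu, h⟩, fun h => h.2⟩
  · have h1 : colmask < 2 ^ 384 := by
      set_option exponentiation.threshold 2000 in
      decide +kernel
    have h2 : colmask.testBit u = false :=
      Nat.testBit_lt_two_pow (lt_of_lt_of_le h1 (Nat.pow_le_pow_right (by norm_num) (by omega)))
    rw [h2]
    constructor
    · intro h; exact absurd h (by simp)
    · intro h; exact absurd h.1 hu

/-- permutation of rows and columns. -/
def prm (K M q : ℕ) : ℕ := pr 6 colmask (pr 48 rowmask M K q 0) K q 0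

/-- vertex at position `i`. -/
def qv (K q i : ℕ) : ℕ := qd q (K - 1 - i)

theorem prm_bit (K M q s : ℕ) (hK : K ≤ 8) (hq : ∀ i < K, qv K q i < 8) :
    (prm K M q).testBit s = true ↔ s / 48 < K ∧ s % 48 / 6 < K ∧
      M.testBit (48 * qv K q (s / 48) + 6 * qv K q (s % 48 / 6) + s % 6) = true := by
  unfold prm
  rw [pr_testBit]
  have hrow : ∀ s, (pr 48 rowmask M K q 0).testBit s = true ↔
      s < 48 * K ∧ M.testBit (48 * qv K q (s / 48) + s % 48) = true := by
    intro s
    rw [pr_testBit]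
    constructor
    · rintro (⟨_, h⟩ | ⟨i, hi, h1, h2, h3⟩)
      · simp at h
      · rw [rowmask_testBit, decide_eq_true_eq] at h2
        have e1 : s / 48 = i := by omega
        have e2 : s % 48 = s - 48 * i := by omega
        rw [e1, e2]
        exact ⟨by omega, h3⟩
    · rintro ⟨h1, h2⟩
      right
      refine ⟨s / 48, by omega, by omega, ?_, ?_⟩
      · rw [rowmask_testBit, decide_eq_true_eq]; omega
      · have e : s - 48 * (s / 48) = s % 48 := by omega
        rw [e]; exact h2
  constructor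
  · rintro (⟨_, h⟩ | ⟨i, hi, h1, h2, h3⟩)
    · simp at h
    · rw [colmask_testBit] at h2
      obtain ⟨h21, h2⟩ := h2
      have hd : qd q (K - 1 - i) < 8 := hq i hi
      rw [hrow] at h3
      have e1 : (6 * qd q (K - 1 - i) + (s - 6 * i)) / 48 = s / 48 := by omega
      have e2 : (6 * qd q (K - 1 - i) + (s - 6 * i)) % 48 = 6 * qd q (K - 1 - i) + s % 6 := by omega
      have e3 : s % 48 / 6 = i := by omega
      rw [e1, e2] at h3
      refine ⟨by omega, by omega, ?_⟩
      rw [e3, add_assoc]; exact h3.2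
  · rintro ⟨h1, h2, h3⟩
    right
    have hd : qd q (K - 1 - s % 48 / 6) < 8 := hq _ h2
    refine ⟨s % 48 / 6, h2, by omega, ?_, ?_⟩
    · rw [colmask_testBit]; omega
    · rw [hrow]
      have e1 : (6 * qd q (K - 1 - s % 48 / 6) + (s - 6 * (s % 48 / 6))) / 48 = s / 48 := by omega
      have e2 : (6 * qd q (K - 1 - s % 48 / 6) + (s - 6 * (s % 48 / 6))) % 48
          = 6 * qd q (K - 1 - s % 48 / 6) + s % 6 := by omega
      rw [e1, e2]
      refine ⟨by omega, ?_⟩
      rw [← add_assoc]; exact h3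

theorem dg_prm (K M q x y : ℕ) (hK : K ≤ 8) (hq : ∀ i < K, qv K q i < 8) (hx : x < K)
    (hy : y < K) : dg (prm K M q) x y = dg M (qv K q x) (qv K q y) := by
  apply Nat.eq_of_testBit_eq
  intro b
  rw [dg_testBit, dg_testBit]
  by_cases hb : b < 6
  · have h := prm_bit K M q (48 * x + 6 * y + b) hK hq
    have e1 : (48 * x + 6 * y + b) / 48 = x := by omega
    have e2 : (48 * x + 6 * y + b) % 48 / 6 = y := by omega
    have e3 : (48 * x + 6 * y + b) % 6 = b := by omega
    rw [e1, e2, e3] at h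
    congr 1
    exact Bool.eq_iff_iff.2 (h.trans ⟨fun h => h.2.2, fun h => ⟨hx, hy, h⟩⟩)
  · simp [hb]

theorem dg_prm0 (K M q x y : ℕ) (hK : K ≤ 8) (hq : ∀ i < K, qv K q i < 8) (hy : y < 8)
    (h : ¬ (x < K ∧ y < K)) : dg (prm K M q) x y = 0 := by
  apply Nat.eq_of_testBit_eq
  intro b
  rw [dg_testBit, Nat.zero_testBit]
  by_cases hb : b < 6
  · rw [decide_eq_true hb, Bool.true_and, Bool.eq_false_iff]
    intro h1
    rw [prm_bit K M q _ hK hq] at h1
    have e1 : (48 * x + 6 * y + b) / 48 = x := by omega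
    have e2 : (48 * x + 6 * y + b) % 48 / 6 = y := by omega
    rw [e1, e2] at h1
    exact h ⟨h1.1, h1.2.1⟩
  · simp [hb]

/-- the set of the digits. -/
def vq (n q : ℕ) : ℕ := fl 0 (fun d => Nat.shiftLeft 1 d) n q 0

theorem vq_testBit (n q s : ℕ) : (vq n q).testBit s = true ↔ ∃ i < n, qd q i = s := by
  unfold vq
  rw [fl_testBit]
  have e : ∀ d u, (Nat.shiftLeft 1 d).testBit u = true ↔ d = u := by
    intro d u
    have h : Nat.shiftLeft 1 d = 2 ^ d := by
      show 1 <<< d = 2 ^ d
      rw [Nat.shiftLeft_eq, one_mul]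
    rw [h, Nat.testBit_two_pow]
    simp
  simp only [e, zero_mul, Nat.zero_le, true_and, Nat.sub_zero, Nat.zero_testBit]
  constructor
  · rintro (h | ⟨i, hi, h⟩)
    · simp at h
    · exact ⟨n - 1 - i, by omega, h⟩
  · rintro ⟨i, hi, h⟩
    right
    refine ⟨n - 1 - i, by omega, ?_⟩
    rw [show n - 1 - (n - 1 - i) = i by omega]; exact h

/-- the first `n` digits of `q` are a permutation. -/
def isp (n q : ℕ) : Bool := Nat.beq (vq n q) (Nat.sub (Nat.shiftLeft 1 n) 1)

theorem isp_spec {n q : ℕ} (h : isp n q = true) : (∀ i < n, qd q i < n) ∧ ∀ j < n, ∃ i < n, qd q i = j := by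
  unfold isp at h
  rw [Nat.beq_eq] at h
  have h2 : Nat.sub (Nat.shiftLeft 1 n) 1 = 2 ^ n - 1 := by
    show 1 <<< n - 1 = 2 ^ n - 1
    rw [Nat.shiftLeft_eq, one_mul]
  rw [h2] at h
  constructor
  · intro i hi
    have h3 : (vq n q).testBit (qd q i) = true := (vq_testBit n q _).2 ⟨i, hi, rfl⟩
    rw [h, Nat.testBit_two_pow_sub_one, decide_eq_true_eq] at h3
    exact h3
  · intro j hj
    have h3 : (vq n q).testBit j = true := by
      rw [h, Nat.testBit_two_pow_sub_one, decide_eq_true_eq]; exact hj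
    exact (vq_testBit n q j).1 h3

/-- permuted colours. -/
def pc (K G T q : ℕ) : ℕ := fl 4 (fun d => qd T (qd G d)) K q 0

theorem qd_testBit (q t b : ℕ) : (qd q t).testBit b = (decide (b < 4) && q.testBit (4 * t + b)) := by
  have h : qd q t = (q >>> (4 * t)) &&& 15 := rfl
  rw [h, Nat.testBit_and, Nat.testBit_shiftRight]
  have h15 : (15 : ℕ).testBit b = decide (b < 4) := by
    rw [show (15 : ℕ) = 2 ^ 4 - 1 by norm_num, Nat.testBit_two_pow_sub_one]
  rw [h15, Bool.and_comm]

theorem qd_pc (K G T q i : ℕ) (hi : i < K) : qd (pc K G T q) i = qd T (qd G (qv K q i)) := by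
  apply Nat.eq_of_testBit_eq
  intro b
  rw [qd_testBit]
  by_cases hb : b < 4
  · simp only [hb, decide_true, Bool.true_and]
    apply Bool.eq_iff_iff.2
    unfold pc
    rw [fl_testBit]
    constructor
    · rintro (⟨_, h⟩ | ⟨i', hi', h1, h2⟩)
      · simp at h
      · rw [qd_testBit, Bool.and_eq_true, decide_eq_true_eq] at h2
        have : i' = i := by omega
        subst this
        unfold qv
        rw [qd_testBit, Bool.and_eq_true, decide_eq_true_eq]
        rw [show 4 * i' + b - 4 * i' = b by omega] at h2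
        exact h2
    · intro h
      right
      refine ⟨i, hi, by omega, ?_⟩
      rw [show 4 * i + b - 4 * i = b by omega]; exact h
  · simp only [hb, decide_false, Bool.false_and]
    rw [qd_testBit]; simp [hb]

end Vale.Agent.P355.H998.E
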