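import Vale.Agent.P355.H998.E.Sc
import Vale.Agent.P355.H147.Legs

/-! Packed flags with legs and their products. -/

namespace Vale.Agent.P355.H998.E

open Finset Matrix Vale.Agent.P355 H147
open Vale.Agent.P355.H693 (net w2c re_rec pwp net_addE net_mrg)
open Vale.Agent.P355.H129 (force force_eq)

variable {m c k l : ℕ} {B : Fin m → M6}

/-! ### types -/

/-- data of a type: words of the roots, masks of the roots and of the left internal slots,
involution. -/
structure TyD where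
  W : ℕ
  rm : ℕ
  lm : ℕ
  io : ℕ

/-- bit of a mask. -/
def mb (M p : ℕ) : Bool := Nat.beq (Nat.land (Nat.shiftRight M p) 1) 1

/-- the type. -/
noncomputable def TyD.ty (c : ℕ) (t : TyD) : Lty 8 c where
  T := fun p => w2c c (qd t.W p)
  lab := fun p => mb t.rm p && (qd t.W p % 2 == 1)
  rt := fun p => mb t.rm p
  L := fun p => mb t.lm p
  ι := permF 8 (qv 8 t.io)

/-- check of a type. -/
def TyD.ok (c : ℕ) (t : TyD) : Bool :=
  and (isp 8 t.io) (allK 8 fun p =>
    and (Nat.beq (qv 8 t.io (qv 8 t.io p)) p)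
    (and (or (not (mb t.rm p)) (Nat.beq (qv 8 t.io p) p))
    (and (or (not (mb t.lm p)) (not (mb t.rm p)))
    (and (or (not (mb t.lm p)) (not (mb t.lm (qv 8 t.io p))))
    (Nat.ble (Nat.shiftRight (qd t.W p) 1) c)))))

structure TyD.Ok (c : ℕ) (t : TyD) : Prop where
  io : isp 8 t.io = true
  inv : ∀ p < 8, qv 8 t.io (qv 8 t.io p) = p
  rio : ∀ p < 8, mb t.rm p = true → qv 8 t.io p = p
  lr : ∀ p < 8, mb t.lm p = true → mb t.rm p = false
  ll : ∀ p < 8, mb t.lm p = true → mb t.lm (qv 8 t.io p) = false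
  wc : ∀ p < 8, qd t.W p / 2 ≤ c

theorem TyD.ok_spec {t : TyD} (h : t.ok c = true) : t.Ok c := by
  unfold TyD.ok at h
  rw [Bool.and_eq_true] at h
  have h2 := allK_spec h.2
  simp only [Bool.and_eq_true, Bool.or_eq_true, Bool.not_eq_true', Nat.beq_eq, sr1] at h2
  refine ⟨h.1, fun p hp => (h2 p hp).1, fun p hp hr => ?_, fun p hp hl => ?_, fun p hp hl => ?_,
    fun p hp => Nat.le_of_ble_eq_true (h2 p hp).2.2.2.2⟩
  · rcases (h2 p hp).2.1 with h3 | h3
    · rw [hr] at h3; exact absurd h3 (by simp)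
    · exact h3
  · rcases (h2 p hp).2.2.1 with h3 | h3
    · rw [hl] at h3; exact absurd h3 (by simp)
    · exact h3
  · rcases (h2 p hp).2.2.2.1 with h3 | h3
    · rw [hl] at h3; exact absurd h3 (by simp)
    · exact h3

theorem TyD.iota {t : TyD} (h : t.Ok c) (p : Fin 8) :
    (((t.ty c).ι p : Fin 8) : ℕ) = qv 8 t.io p := permF_val (isp_qv h.io) p

theorem TyD.ty_ok {t : TyD} (h : t.Ok c) : (t.ty c).Ok := by
  refine ⟨fun p => ?_, fun p hp => ?_, fun p hp => ?_, fun p hp => ?_, fun p hp => ?_⟩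
  · apply Fin.ext
    rw [TyD.iota h, TyD.iota h]; exact h.inv p p.2
  · apply Fin.ext
    rw [TyD.iota h]; exact h.rio p p.2 hp
  · exact h.lr p p.2 hp
  · show mb t.lm ((t.ty c).ι p : Fin 8) = false
    rw [TyD.iota h]; exact h.ll p p.2 hp
  · show (mb t.rm p && _) = false
    have : mb t.rm p = false := hp
    rw [this]; rfl

/-! ### flags -/

/-- packed flag: digits plus words, reversed digits, words of the left internal slots, slots of the
ends (kets, then bras), parity. -/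
structure PF where
  F : ℕ
  F' : ℕ
  W : ℕ
  pt : List ℕ
  b : ℕ

/-- slot. -/
def sl (p : ℕ) : Fin 8 := Fin.ofNat 8 p

theorem sl_val {p : ℕ} (h : p < 8) : ((sl p : Fin 8) : ℕ) = p := Nat.mod_eq_of_lt h

/-- the flag. -/
noncomputable def PF.dec (c k l : ℕ) (x : PF) : LFlg 8 c k l where
  col := fun p => w2c c (qd (wp x.F) p)
  fl := fun a b => if a < b then (dg x.F a b : ℤ) - 16 else 0
  kt := fun i => sl (x.pt.getD i 0)
  br := fun j => sl (x.pt.getD (k + j) 0)

/-- slots of a list are roots or left internal. -/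
def okS (t : TyD) (p : ℕ) : Bool := and (Nat.blt p 8) (or (mb t.rm p) (mb t.lm p))

/-- check of a flag. -/
def PF.ok (c k l : ℕ) (t : TyD) (x : PF) : Bool :=
  and (Nat.beq (Nat.land x.F hm) 0) (and (Nat.beq (Nat.land x.F' hm) 0)
    (and (allK 8 fun a => allK 8 fun b => cond (Nat.beq a b)
      (and (Nat.beq (dg x.F a b) 16) (Nat.beq (dg x.F' a b) 16))
      (and (Nat.beq (Nat.add (dg x.F a b) (dg x.F' a b)) 32)
        (Nat.beq (Nat.add (dg x.F a b) (dg x.F b a)) 32)))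
    (and (allK 8 fun a => or (or (mb t.rm a) (mb t.lm a))
      (allK 8 fun b => Nat.beq (dg x.F a b) 16))
    (and (allK 8 fun a => cond (mb t.rm a)
        (and (Nat.beq (qd (wp x.F) a) (qd t.W a)) (Nat.beq (qd x.W a) 0))
        (cond (mb t.lm a) (and (Nat.beq (qd (wp x.F) a) (qd x.W a))
          (and (Nat.beq (Nat.land (qd x.W a) 1) 0) (Nat.ble (Nat.shiftRight (qd x.W a) 1) c)))
          (and (Nat.beq (qd (wp x.F) a) 0) (Nat.beq (qd x.W a) 0))))
    (and (x.pt.all (okS t))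
      (and (Nat.beq x.pt.length (Nat.add k l))
        (or (Nat.beq x.b 0) (Nat.beq x.b 1))))))))

structure PF.Ok (c k l : ℕ) (t : TyD) (x : PF) : Prop where
  lo : ∀ i < 64, x.F / 64 ^ i % 64 < 32
  lo' : ∀ i < 64, x.F' / 64 ^ i % 64 < 32
  sm : ∀ a < 8, ∀ b < 8, a ≠ b → dg x.F a b + dg x.F' a b = 32
  as : ∀ a < 8, ∀ b < 8, a ≠ b → dg x.F a b + dg x.F b a = 32
  di : ∀ a < 8, dg x.F a a = 16 ∧ dg x.F' a a = 16
  cl : ∀ a < 8, mb t.rm a = false → mb t.lm a = false → ∀ b < 8, dg x.F a b = 16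
  wr : ∀ a < 8, mb t.rm a = true → qd (wp x.F) a = qd t.W a ∧ qd x.W a = 0
  wl : ∀ a < 8, mb t.lm a = true → mb t.rm a = false → qd (wp x.F) a = qd x.W a ∧
    qd x.W a % 2 = 0 ∧ qd x.W a / 2 ≤ c
  wo : ∀ a < 8, mb t.rm a = false → mb t.lm a = false → qd (wp x.F) a = 0 ∧ qd x.W a = 0
  ks : ∀ p ∈ x.pt, p < 8 ∧ (mb t.rm p = true ∨ mb t.lm p = true)
  kl : x.pt.length = k + l
  b2 : x.b = 0 ∨ x.b = 1

theorem okS_spec {t : TyD} {p : ℕ} (h : okS t p = true) :
    p < 8 ∧ (mb t.rm p = true ∨ mb t.lm p = true) := by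
  unfold okS at h
  rw [Bool.and_eq_true, Bool.or_eq_true, Nat.blt_eq] at h
  exact h

theorem PF.ok_spec {t : TyD} {x : PF} (h : x.ok c k l t = true) : x.Ok c k l t := by
  unfold PF.ok at h
  rw [Bool.and_eq_true, Bool.and_eq_true, Bool.and_eq_true, Bool.and_eq_true, Bool.and_eq_true,
    Bool.and_eq_true, Bool.and_eq_true] at h
  obtain ⟨h1, h2, h3, h4, h5, h6, h7, h9⟩ := h
  have h3' : ∀ a < 8, ∀ b < 8, a ≠ b →
      dg x.F a b + dg x.F' a b = 32 ∧ dg x.F a b + dg x.F b a = 32 := by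
    intro a ha b hb hab
    have h8 := allK_spec (allK_spec h3 a ha) b hb
    have h9 : Nat.beq a b = false := by
      rw [Bool.eq_false_iff]; intro h'; rw [Nat.beq_eq] at h'; exact hab h'
    rw [h9, cond_false, Bool.and_eq_true, Nat.beq_eq, Nat.beq_eq] at h8
    exact h8
  have h3'' : ∀ a < 8, dg x.F a a = 16 ∧ dg x.F' a a = 16 := by
    intro a ha
    have h8 := allK_spec (allK_spec h3 a ha) a ha
    rw [Nat.beq_refl, cond_true, Bool.and_eq_true, Nat.beq_eq, Nat.beq_eq] at h8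
    exact h8
  have h5' := allK_spec h5
  refine ⟨low_of_hm h1, low_of_hm h2, fun a ha b hb hab => (h3' a ha b hb hab).1,
    fun a ha b hb hab => (h3' a ha b hb hab).2, h3'', ?_, ?_, ?_, ?_, ?_, ?_, ?_⟩
  · intro a ha hr hl b hb
    have e := allK_spec h4 a ha
    rw [hr, hl, Bool.or_self, Bool.false_or] at e
    have := allK_spec e b hb
    rwa [Nat.beq_eq] at this
  · intro a ha hr
    have e := h5' a ha
    rw [hr, cond_true, Bool.and_eq_true, Nat.beq_eq, Nat.beq_eq] at e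
    exact e
  · intro a ha hl hr
    have e := h5' a ha
    rw [hr, cond_false, hl, cond_true, Bool.and_eq_true, Bool.and_eq_true, Nat.beq_eq,
      Nat.beq_eq, la1, sr1] at e
    exact ⟨e.1, e.2.1, Nat.le_of_ble_eq_true e.2.2⟩
  · intro a ha hr hl
    have e := h5' a ha
    rw [hr, cond_false, hl, cond_false, Bool.and_eq_true, Nat.beq_eq, Nat.beq_eq] at e
    exact e
  · intro p hp
    exact okS_spec (List.all_eq_true.1 h6 p hp)
  · rwa [Nat.beq_eq] at h7
  · rw [Bool.or_eq_true, Nat.beq_eq, Nat.beq_eq] at h9; exact h9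

theorem PF.port_ok {t : TyD} {x : PF} (h : x.Ok c k l t) (i : ℕ) (hi : i < k + l) :
    x.pt.getD i 0 < 8 ∧ (mb t.rm (x.pt.getD i 0) = true ∨ mb t.lm (x.pt.getD i 0) = true) := by
  have hi : i < x.pt.length := by rw [h.kl]; exact hi
  have e : x.pt.getD i 0 = x.pt[i] := by simp [List.getD_eq_getElem?_getD, hi]
  exact h.ks (x.pt.getD i 0) (by rw [e]; exact List.getElem_mem hi)

theorem PF.clean {t : TyD} {x : PF} (h : x.Ok c k l t) : (t.ty c).Clean (x.dec c k l) := by
  refine ⟨fun p hr hl q => ?_, fun i => ?_, fun i => ?_⟩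
  · have hr' : mb t.rm p = false := hr
    have hl' : mb t.lm p = false := hl
    have e1 := h.cl p p.2 hr' hl' q q.2
    constructor
    · show (if p < q then (dg x.F p q : ℤ) - 16 else 0) = 0
      rw [e1]; simp
    · show (if q < p then (dg x.F q p : ℤ) - 16 else 0) = 0
      split_ifs with hqp
      · have e2 := h.as p p.2 q q.2 (fun h' => absurd (Fin.ext h' : p = q) hqp.ne')
        have : dg x.F q p = 16 := by omega
        rw [this]; norm_num
      · rfl
  · have h1 := PF.port_ok h i (by have := i.2; omega)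
    show mb t.rm (sl (x.pt.getD i 0) : Fin 8) = true ∨ mb t.lm (sl (x.pt.getD i 0) : Fin 8) = true
    rw [sl_val h1.1]; exact h1.2
  · have h1 := PF.port_ok h (k + i) (by have := i.2; omega)
    show mb t.rm (sl (x.pt.getD (k + i) 0) : Fin 8) = true ∨
      mb t.lm (sl (x.pt.getD (k + i) 0) : Fin 8) = true
    rw [sl_val h1.1]; exact h1.2

theorem PF.net {t : TyD} {x : PF} (h : x.Ok c k l t) (a b : Fin 8) (hab : a ≠ b) :
    H693.net (x.dec c k l).fl a b = (dg x.F a b : ℤ) - 16 := by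
  have h2 := h.as a a.2 b b.2 (fun h' => hab (Fin.ext h'))
  unfold H693.net
  show (if a < b then (dg x.F a b : ℤ) - 16 else 0) - (if b < a then (dg x.F b a : ℤ) - 16 else 0) = _
  rcases lt_or_gt_of_ne hab with h1 | h1
  · rw [if_pos h1, if_neg (not_lt.2 h1.le), sub_zero]
  · rw [if_neg (not_lt.2 h1.le), if_pos h1]; omega

/-! ### group elements -/

/-- data of an element: slots `σ`, `σ ∘ ι`, `ι ∘ σ⁻¹`, colours (backwards), reversal, ends. -/
structure GD where
  g : ℕ
  q : ℕ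
  i : ℕ
  t : ℕ
  s : Bool
  pi : ℕ

/-- check. -/
def GD.ok (c k l : ℕ) (T : TyD) (e : GD) : Bool :=
  and (isp 8 e.g) (and (isp 8 e.q) (and (ckT c e.t) (and (allK 8 fun p =>
    and (Nat.beq (qv 8 e.q p) (qv 8 e.g (qv 8 T.io p)))
    (and (Nat.beq (qv 8 e.i (qv 8 e.g p)) (qv 8 T.io p))
    (cond (mb T.rm p)
      (and (mb T.rm (qv 8 e.g p))
        (and (Nat.beq (Nat.land (qd T.W (qv 8 e.g p)) 1) (Nat.land (qd T.W p) 1))
          (Nat.beq (qd e.t (Nat.shiftRight (qd T.W (qv 8 e.g p)) 1))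
            (Nat.shiftRight (qd T.W p) 1))))
      (Nat.beq (qv 8 e.g p) p))))
    (and (isp (Nat.add k l) e.pi)
      (allK (Nat.add k l) fun a => Nat.blt (qd e.pi a) k == xor (Nat.blt a k) e.s)))))

structure GD.Ok (c k l : ℕ) (T : TyD) (e : GD) : Prop where
  g : isp 8 e.g = true
  q : isp 8 e.q = true
  t : ckT c e.t = true
  qe : ∀ p < 8, qv 8 e.q p = qv 8 e.g (qv 8 T.io p)
  ie : ∀ p < 8, qv 8 e.i (qv 8 e.g p) = qv 8 T.io p
  rr : ∀ p < 8, mb T.rm p = true → mb T.rm (qv 8 e.g p) = true ∧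
    qd T.W (qv 8 e.g p) % 2 = qd T.W p % 2 ∧ qd e.t (qd T.W (qv 8 e.g p) / 2) = qd T.W p / 2
  fx : ∀ p < 8, mb T.rm p = false → qv 8 e.g p = p
  pi : IsP (k + l) (qd e.pi)
  pk : ∀ a < k + l, decide (qd e.pi a < k) = xor (decide (a < k)) e.s

theorem GD.ok_spec {T : TyD} {e : GD} (h : e.ok c k l T = true) : e.Ok c k l T := by
  unfold GD.ok at h
  rw [Bool.and_eq_true, Bool.and_eq_true, Bool.and_eq_true, Bool.and_eq_true,
    Bool.and_eq_true] at h
  obtain ⟨h1, h2, h3, h4, h5, h6⟩ := h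
  have h4' := allK_spec h4
  simp only [Bool.and_eq_true, Nat.beq_eq] at h4'
  have hblt : ∀ a b : ℕ, Nat.blt a b = decide (a < b) := by
    intro a b
    apply Bool.eq_iff_iff.2
    rw [Nat.blt_eq, decide_eq_true_eq]
  refine ⟨h1, h2, h3, fun p hp => (h4' p hp).1, fun p hp => (h4' p hp).2.1, fun p hp hr => ?_,
    fun p hp hr => ?_, isp_spec h5, fun a ha => ?_⟩
  · have e := (h4' p hp).2.2
    rw [hr, cond_true] at e
    simp only [Bool.and_eq_true, Nat.beq_eq, la1, sr1] at e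
    exact e
  · have e := (h4' p hp).2.2
    rw [hr, cond_false, Nat.beq_eq] at e
    exact e
  · have := allK_spec h6 a ha
    rw [beq_iff_eq, hblt, hblt] at this
    exact this

end Vale.Agent.P355.H998.E
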