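import Vale.Agent.P355.H998.E.St
import Vale.Agent.P355.H693.GAbs
import Vale.Agent.P355.H129.Digits

/-! Contraction steps on packed graphs, scripts. -/

namespace Vale.Agent.P355.H998.E

open Finset Matrix Vale.Agent.P355 H147
open Vale.Agent.P355.H693 (net w2c re_rec pwp net_addE net_mrg re_rule0 re_rule1 re_rule1w re_rule1y)
open Vale.Agent.P355.H129 (force force_eq)

variable {m c : ℕ} {B : Fin m → M6}

/-! ### rows -/

/-- the row of a slot with one incoming unit from `w` and one outgoing unit to `y`. -/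
def rowL (w y : ℕ) : ℕ :=
  Nat.sub (Nat.add c32r (Nat.shiftLeft 1 (Nat.mul 6 y))) (Nat.shiftLeft 1 (Nat.mul 6 w))

theorem rowL_aux : (List.range 8).all (fun w => (List.range 8).all fun y => (List.range 8).all fun b =>
    w == y || rowL w y / 64 ^ b % 64 == (if b = y then 33 else if b = w then 31 else 32)) = true := by
  decide +kernel

theorem rowL_dg {w y b : ℕ} (hw : w < 8) (hy : y < 8) (hb : b < 8) (hwy : w ≠ y) :
    rowL w y / 64 ^ b % 64 = if b = y then 33 else if b = w then 31 else 32 := by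
  have h := List.all_eq_true.1 (List.all_eq_true.1 (List.all_eq_true.1 rowL_aux w
    (List.mem_range.2 hw)) y (List.mem_range.2 hy)) b (List.mem_range.2 hb)
  rw [Bool.or_eq_true, beq_iff_eq, beq_iff_eq] at h
  rcases h with h | h
  · exact absurd h hwy
  · exact h

theorem c32r_aux : (List.range 8).all (fun b => c32r / 64 ^ b % 64 == 32) = true := by
  decide +kernel

theorem c32r_dg {b : ℕ} (hb : b < 8) : c32r / 64 ^ b % 64 = 32 :=
  beq_iff_eq.1 (List.all_eq_true.1 c32r_aux b (List.mem_range.2 hb))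

/-- row `x`. -/
def rwX (X x : ℕ) : ℕ := Nat.land (Nat.shiftRight X (Nat.mul 48 x)) rowmask

theorem rwX_dg (X x b : ℕ) (hb : b < 8) : rwX X x / 64 ^ b % 64 = dg X x b := by
  have h1 : rwX X x = (X >>> (48 * x)) &&& (2 ^ 48 - 1) := by
    show (X >>> (48 * x)) &&& rowmask = _
    rw [show rowmask = 2 ^ 48 - 1 by unfold rowmask; norm_num]
  have h : rwX X x = X / (64 ^ 8) ^ x % 64 ^ 8 := by
    rw [h1, Nat.and_two_pow_sub_one_eq_mod, Nat.shiftRight_eq_div_pow, pow_mul]
    norm_num
  rw [h, dg_row X x b hb]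

/-- a valid word. -/
def okw (c a : ℕ) : Bool := and (Nat.blt 1 a) (Nat.ble (Nat.shiftRight a 1) c)

theorem sr1 (x : ℕ) : Nat.shiftRight x 1 = x / 2 := by
  show x >>> 1 = x / 2
  rw [Nat.shiftRight_eq_div_pow, pow_one]

theorem la1 (x : ℕ) : Nat.land x 1 = x % 2 := by
  show x &&& 1 = x % 2
  exact Nat.and_one_is_mod x

theorem okw_spec {a : ℕ} (h : okw c a = true) : 0 < a / 2 ∧ a / 2 - 1 < c := by
  unfold okw at h
  rw [Bool.and_eq_true, Nat.blt_eq, sr1] at h
  have h1 : 1 < a := h.1
  have h2 : a / 2 ≤ c := Nat.le_of_ble_eq_true h.2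
  omega

theorem okw_ne {a : ℕ} (h : okw c a = true) : w2c c a ≠ none := by
  have := okw_spec h
  unfold w2c
  rw [dif_pos this]; simp

theorem w2c_ne' {a b : ℕ} (ha : okw c a = true) (hb : okw c b = true) (h : a / 2 ≠ b / 2) :
    w2c c a ≠ w2c c b := by
  have h1 := okw_spec ha
  have h2 := okw_spec hb
  unfold w2c
  rw [dif_pos h1, dif_pos h2]
  intro h'
  have := congrArg Fin.val (Option.some.inj h')
  simp only at this
  omega

/-! ### steps

A step is a number: kind (2 bits), `x`, `w`, `y` (3 bits each). -/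

/-- common part: `x` coloured and free. -/
def ckx (c X wx : ℕ) : Bool := and (midOK X) (and (okw c wx) (Nat.beq (Nat.land wx 1) 0))

/-- conditions of a level one slot. -/
def ck1 (c X x w y wx ww wy : ℕ) : Bool :=
  and (and (okw c ww) (okw c wy))
    (and (not (Nat.beq (Nat.shiftRight ww 1) (Nat.shiftRight wx 1)))
      (and (not (Nat.beq (Nat.shiftRight wy 1) (Nat.shiftRight wx 1)))
        (Nat.beq (rwX X x) (rowL w y))))

/-- one step; the continuation gets the new number. -/
def stp (c X s : ℕ) (k : ℕ → Bool) : Bool :=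
  force (Nat.land (Nat.shiftRight s 2) 7) fun x => force (qd (wp X) x) fun wx =>
  cond (ckx c X wx)
    (cond (Nat.beq (Nat.land s 3) 0) (cond (Nat.beq (rwX X x) c32r) (force (erF X x) k) false)
    (force (Nat.land (Nat.shiftRight s 5) 7) fun w => force (Nat.land (Nat.shiftRight s 8) 7) fun y =>
     force (qd (wp X) w) fun ww => force (qd (wp X) y) fun wy =>
      cond (and (not (Nat.beq w y)) (ck1 c X x w y wx ww wy))
        (force (erF X x) fun X1 => cond (midOK X1)
          (cond (Nat.beq (Nat.land s 3) 1)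
            (cond (not (Nat.beq (Nat.shiftRight ww 1) (Nat.shiftRight wy 1)))
              (force (addF X1 w y) k) false)
            (cond (Nat.beq (Nat.shiftRight ww 1) (Nat.shiftRight wy 1))
              (cond (Nat.beq (Nat.land s 3) 2)
                (cond (Nat.beq (Nat.land ww 1) 0) (force (mvF X1 w y) k) false)
                (cond (Nat.beq (Nat.land wy 1) 0) (force (mvF X1 y w) k) false)) false)) false)
        false)) false

/-- weight of a step. -/
def stW (s : ℕ) : ℕ :=
  cond (Nat.beq (Nat.land s 3) 0) 0 (cond (Nat.beq (Nat.land s 3) 1) 1 2)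

theorem peers_free (col : Fin 8 → Option (Fin c)) (lab : Fin 8 → Bool) (x : Fin 8)
    (h : lab x = false) : peers col lab x = ∅ := by
  unfold peers
  rw [Finset.filter_eq_empty_iff]
  intro p _ hp
  rw [h] at hp
  exact absurd hp.2.2.1 (by simp)

theorem lab_free {X : ℕ} {col : Fin 8 → Option (Fin c)} {lab : Fin 8 → Bool}
    {f : Fin 8 → Fin 8 → ℤ} (h : Rpr c X col lab f) {x : Fin 8} (hx : col x ≠ none)
    (hl : Nat.beq (Nat.land (qd (wp X) x) 1) 0 = true) : lab x = false := by
  rw [← h.lb x hx]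
  unfold labB
  rw [Nat.beq_eq, la1] at hl
  rw [hl]; rfl

theorem land7 (s : ℕ) : Nat.land s 7 < 8 :=
  lt_of_le_of_lt Nat.and_le_right (by norm_num)

theorem stp_sound (hB : IsMUBs B) {X s : ℕ} {k : ℕ → Bool}
    {col : Fin 8 → Option (Fin c)} {lab : Fin 8 → Bool} {f : Fin 8 → Fin 8 → ℤ}
    (h : Rpr c X col lab f) (hk : stp c X s k = true) :
    ∃ X' col' lab' f', Rpr c X' col' lab' f' ∧
      (gv B col' lab' f').re = Real.sqrt 6 ^ stW s * (gv B col lab f).re ∧ k X' = true := by
  unfold stp at hk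
  simp only [force_eq] at hk
  set x := Nat.land (Nat.shiftRight s 2) 7 with hxd
  have hx8 : x < 8 := land7 _
  set wx := qd (wp X) x with hwx
  rcases h1 : ckx c X wx with _ | _
  · rw [h1, cond_false] at hk; exact absurd hk (by simp)
  rw [h1, cond_true] at hk
  unfold ckx at h1
  simp only [Bool.and_eq_true] at h1
  obtain ⟨hmid, hokx, hfx⟩ := h1
  set xf : Fin 8 := ⟨x, hx8⟩ with hxf
  have hcx : col xf ≠ none := by rw [← h.cl]; exact okw_ne hokx
  have hlx : lab xf = false := lab_free h hcx hfx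
  have hpe := peers_free col lab xf hlx
  have r6 : Real.sqrt 6 ^ 2 = 6 := Real.sq_sqrt (by norm_num)
  rcases h0 : Nat.beq (Nat.land s 3) 0 with _ | _
  swap
  · -- kind 0
    rw [h0, cond_true] at hk
    rcases h2 : Nat.beq (rwX X x) c32r with _ | _
    · rw [h2, cond_false] at hk; exact absurd hk (by simp)
    rw [h2, cond_true] at hk
    rw [Nat.beq_eq] at h2
    have hl0 : Lev0 col f xf := by
      intro q hq _
      by_cases hqx : q = xf
      · subst hqx; ring
      · have e1 := h.nt xf q (Ne.symm hqx) hcx hq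
        unfold net at e1
        have e2 : dg X x q = 32 := by
          rw [← rwX_dg X x q q.2, h2]; exact c32r_dg q.2
        have e3 : dg X (xf : Fin 8) q = 32 := e2
        rw [e1, e3]; norm_num
    have hr := re_rule0 hB (lab := lab) col f xf hcx hl0
    rw [hpe] at hr
    refine ⟨erF X x, era col xf, lab, f, h.erF hmid xf, ?_, hk⟩
    have : stW s = 0 := by unfold stW; rw [h0]; rfl
    rw [this, pow_zero, one_mul]
    simp at hr
    linarith
  rw [h0, cond_false] at hk
  set w := Nat.land (Nat.shiftRight s 5) 7 with hwd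
  set y := Nat.land (Nat.shiftRight s 8) 7 with hyd
  have hw8 : w < 8 := land7 _
  have hy8 : y < 8 := land7 _
  set ww := qd (wp X) w with hww
  set wy := qd (wp X) y with hwy
  rcases h3 : (and (not (Nat.beq w y)) (ck1 c X x w y wx ww wy)) with _ | _
  · rw [h3, cond_false] at hk; exact absurd hk (by simp)
  rw [h3, cond_true] at hk
  unfold ck1 at h3
  simp only [Bool.and_eq_true, sr1] at h3
  obtain ⟨hne, ⟨hokw, hoky⟩, h4, h5, h6⟩ := h3
  have hne : w ≠ y := H693.beq_false_ne hne
  have h4 := H693.beq_false_ne h4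
  have h5 := H693.beq_false_ne h5
  rw [Nat.beq_eq] at h6
  set wf : Fin 8 := ⟨w, hw8⟩ with hwf
  set yf : Fin 8 := ⟨y, hy8⟩ with hyf
  have hwyf : wf ≠ yf := fun h' => hne (congrArg Fin.val h')
  have ccx : col xf = w2c c wx := (h.cl xf).symm
  have ccw : col wf = w2c c ww := (h.cl wf).symm
  have ccy : col yf = w2c c wy := (h.cl yf).symm
  have hcw : col wf ≠ none := by rw [ccw]; exact okw_ne hokw
  have hcy : col yf ≠ none := by rw [ccy]; exact okw_ne hoky
  have hnw : col wf ≠ col xf := by rw [ccw, ccx]; exact w2c_ne' hokw hokx h4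
  have hny : col yf ≠ col xf := by rw [ccy, ccx]; exact w2c_ne' hoky hokx h5
  have hrow : ∀ b : Fin 8, dg X x b = if (b : ℕ) = y then 33 else if (b : ℕ) = w then 31 else 32 := by
    intro b
    rw [← rwX_dg X x b b.2, h6]; exact rowL_dg hw8 hy8 b.2 hne
  have hwx' : wf ≠ xf := fun h' => hnw (by rw [h'])
  have hyx' : yf ≠ xf := fun h' => hny (by rw [h'])
  have hl1 : Lev1 col f xf wf yf := by
    refine ⟨hcw, hcy, hnw, hny, hwyf, ?_, ?_, ?_⟩
    · have e1 := h.nt xf wf (Ne.symm hwx') hcx hcw
      have e2 := hrow wf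
      rw [if_neg (show ((wf : Fin 8) : ℕ) ≠ y from hne), if_pos rfl] at e2
      have e3 : dg X (xf : Fin 8) wf = 31 := e2
      rw [e3] at e1
      unfold net at e1
      have : ((31 : ℕ) : ℤ) - 32 = -1 := by norm_num
      linarith
    · have e1 := h.nt xf yf (Ne.symm hyx') hcx hcy
      have e2 := hrow yf
      rw [if_pos rfl] at e2
      have e3 : dg X (xf : Fin 8) yf = 33 := e2
      rw [e3] at e1
      unfold net at e1
      have : ((33 : ℕ) : ℤ) - 32 = 1 := by norm_num
      linarith
    · intro q hqw hqy hq hqc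
      by_cases hqx : q = xf
      · subst hqx; ring
      · have e1 := h.nt xf q (Ne.symm hqx) hcx hq
        have e2 := hrow q
        rw [if_neg (fun h' => hqy (Fin.ext h')), if_neg (fun h' => hqw (Fin.ext h'))] at e2
        have e3 : dg X (xf : Fin 8) q = 32 := e2
        rw [e3] at e1
        unfold net at e1
        rw [e1]; norm_num
  have hE := h.erF hmid xf
  rcases h7 : midOK (erF X x) with _ | _
  · rw [h7, cond_false] at hk; exact absurd hk (by simp)
  rw [h7, cond_true] at hk
  rcases h8 : Nat.beq (Nat.land s 3) 1 with _ | _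
  swap
  · -- kind 1
    rw [h8, cond_true] at hk
    rcases h9 : (!Nat.beq (Nat.shiftRight ww 1) (Nat.shiftRight wy 1)) with _ | _
    · rw [h9, cond_false] at hk; exact absurd hk (by simp)
    rw [h9, cond_true] at hk
    rw [sr1, sr1] at h9
    have h9 := H693.beq_false_ne h9
    have hcc : col wf ≠ col yf := by rw [ccw, ccy]; exact w2c_ne' hokw hoky h9
    have hr := re_rule1 hB (lab := lab) col f xf wf yf hcx hl1 hcc
    rw [hpe, Finset.sum_empty, add_zero] at hr
    refine ⟨addF (erF X x) w y, era col xf, lab, addE f wf yf, hE.addF h7 wf yf hwyf, ?_, hk⟩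
    have : stW s = 1 := by unfold stW; rw [h0, h8]; rfl
    rw [this, pow_one]
    have h10 : Real.sqrt 6 * Real.sqrt 6 = 6 := Real.mul_self_sqrt (by norm_num)
    have h11 : Real.sqrt 6 ≠ 0 := by positivity
    apply mul_left_cancel₀ h11
    rw [← mul_assoc, h10]; linarith
  rw [h8, cond_false] at hk
  have hstw : stW s = 2 := by unfold stW; rw [h0, h8]; rfl
  rcases h9 : Nat.beq (Nat.shiftRight ww 1) (Nat.shiftRight wy 1) with _ | _
  · rw [h9, cond_false] at hk; exact absurd hk (by simp)
  rw [h9, cond_true] at hk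
  rw [Nat.beq_eq, sr1, sr1] at h9
  have hcc : col wf = col yf := by rw [ccw, ccy]; exact H693.w2c_congr h9
  have hEw : era col xf wf ≠ none := by
    unfold era; rw [Function.update_of_ne hwx']; exact hcw
  have hEy : era col xf yf ≠ none := by
    unfold era; rw [Function.update_of_ne hyx']; exact hcy
  rcases h10 : Nat.beq (Nat.land s 3) 2 with _ | _
  · -- kind 3
    rw [h10, cond_false] at hk
    rcases h11 : Nat.beq (Nat.land wy 1) 0 with _ | _
    · rw [h11, cond_false] at hk; exact absurd hk (by simp)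
    rw [h11, cond_true] at hk
    have hly := lab_free h hcy h11
    have hr := re_rule1y hB (lab := lab) col f xf wf yf hcx hl1 hcc hly
    rw [hpe, Finset.sum_empty, add_zero] at hr
    refine ⟨mvF (erF X x) y w, era (era col xf) yf, lab, mrg f yf wf,
      hE.mvF h7 yf wf (Ne.symm hwyf) hEy, ?_, hk⟩
    rw [hstw, r6]; linarith
  · -- kind 2
    rw [h10, cond_true] at hk
    rcases h11 : Nat.beq (Nat.land ww 1) 0 with _ | _
    · rw [h11, cond_false] at hk; exact absurd hk (by simp)
    rw [h11, cond_true] at hk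
    have hlw := lab_free h hcw h11
    have hr := re_rule1w hB (lab := lab) col f xf wf yf hcx hl1 hcc hlw
    rw [hpe, Finset.sum_empty, add_zero] at hr
    refine ⟨mvF (erF X x) w y, era (era col xf) wf, lab, mrg f wf yf,
      hE.mvF h7 wf yf hwyf hEw, ?_, hk⟩
    rw [hstw, r6]; linarith

/-- a script of `n` steps of 11 bits. -/
def scr (c n : ℕ) : ℕ → ℕ → (ℕ → Bool) → Bool :=
  Nat.rec (motive := fun _ => ℕ → ℕ → (ℕ → Bool) → Bool) (fun _ X k => k X)
    (fun _ ih S X k => stp c X S fun X' => force (Nat.shiftRight S 11) fun S' => ih S' X' k) n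

/-- weight of a script. -/
def scW (n : ℕ) : ℕ → ℕ :=
  Nat.rec (motive := fun _ => ℕ → ℕ) (fun _ => 0)
    (fun _ ih S => Nat.add (stW S) (ih (Nat.shiftRight S 11))) n

theorem scr_sound (hB : IsMUBs B) (n : ℕ) : ∀ {X S : ℕ} {k : ℕ → Bool}
    {col : Fin 8 → Option (Fin c)} {lab : Fin 8 → Bool} {f : Fin 8 → Fin 8 → ℤ},
    Rpr c X col lab f → scr c n S X k = true →
    ∃ X', Asy 8 X' ∧ Wok 8 c X' ∧
      vB B 8 c X' = Real.sqrt 6 ^ scW n S * (gv B col lab f).re ∧ k X' = true := by
  induction n with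
  | zero =>
    intro X S k col lab f h hk
    refine ⟨X, h.asy, h.wok, ?_, hk⟩
    have : scW 0 S = 0 := rfl
    rw [this, pow_zero, one_mul, h.val hB]
  | succ n ih =>
    intro X S k col lab f h hk
    have e1 : scr c (n + 1) S X k
        = stp c X S fun X' => force (Nat.shiftRight S 11) fun S' => scr c n S' X' k := rfl
    have e2 : scW (n + 1) S = stW S + scW n (Nat.shiftRight S 11) := rfl
    rw [e1] at hk
    obtain ⟨X1, col1, lab1, f1, a1, a2, a3⟩ := stp_sound hB h hk
    rw [force_eq] at a3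
    obtain ⟨X', b1, b2, b3, b4⟩ := ih a1 a3
    refine ⟨X', b1, b2, ?_, b4⟩
    rw [b3, a2, e2, pow_add]; ring

end Vale.Agent.P355.H998.E
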