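import Vale.Agent.P355.H998.E.Cs

/-! Operations on packed graphs (8 slots): adding a unit of flow, erasing a slot, merging a slot
into another one. -/

namespace Vale.Agent.P355.H998.E

open Finset Matrix Vale.Agent.P355 H147
open Vale.Agent.P355.H693 (net w2c re_rec pwp net_addE net_mrg)

variable {m c : ℕ} {B : Fin m → M6}

/-- all digits `16`. -/
def c16M : ℕ := 0x410410410410410410410410410410410410410410410410410410410410410410410410410410410410410410410410
/-- a row of digits `32`. -/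
def c32r : ℕ := 0x820820820820
/-- a column of digits `32`. -/
def c32c : ℕ := 0x20000000000020000000000020000000000020000000000020000000000020000000000020000000000020

/-- all digits are between `16` and `47`. -/
def midOK (X : ℕ) : Bool := Nat.beq (Nat.land (Nat.add X c16M) hm) hm

theorem c16_aux : (List.range 64).all (fun i => c16M / 64 ^ i % 64 == 16) = true := by
  decide +kernel

theorem c16_dg (i : ℕ) (hi : i < 64) : c16M / 64 ^ i % 64 = 16 := by
  have h := List.all_eq_true.1 c16_aux i (List.mem_range.2 hi)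
  exact beq_iff_eq.1 h

theorem mid_spec {X : ℕ} (h : midOK X = true) :
    ∀ i < 64, 16 ≤ X / 64 ^ i % 64 ∧ X / 64 ^ i % 64 ≤ 47 := by
  unfold midOK at h
  rw [Nat.beq_eq] at h
  have hbit : ∀ i < 64, (X + c16M) / 64 ^ i % 64 ≥ 32 := by
    intro i hi
    have h1 := List.all_eq_true.1 hm_aux i (List.mem_range.2 hi)
    have h2 : (Nat.land (Nat.add X c16M) hm).testBit (6 * i + 5) = true := by rw [h]; exact h1
    have h3 : Nat.land (Nat.add X c16M) hm = (X + c16M) &&& hm := rfl
    rw [h3, Nat.testBit_and, h1, Bool.and_true] at h2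
    have e : (X + c16M) / 64 ^ i % 64 = ((X + c16M) >>> (6 * i)) &&& (2 ^ 6 - 1) := by
      rw [Nat.and_two_pow_sub_one_eq_mod, Nat.shiftRight_eq_div_pow, pw64]
    have h4 : ((X + c16M) / 64 ^ i % 64).testBit 5 = true := by
      rw [e, Nat.testBit_and, Nat.testBit_shiftRight, h2]
      rfl
    exact Nat.ge_two_pow_of_testBit h4
  have key : ∀ n ≤ 64, ∀ i < n, X / 64 ^ i % 64 + c16M / 64 ^ i % 64 < 64 := by
    intro n hn
    induction n with
    | zero => intro i hi; omega
    | succ n ih =>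
      intro i hi
      rcases Nat.lt_succ_iff_lt_or_eq.1 hi with hi | rfl
      · exact ih (by omega) i hi
      · have h1 := nocarry (b := 64) (by norm_num) i (ih (by omega)) i le_rfl
        have h2 := hbit i (by omega)
        rw [h1, Nat.add_mod, c16_dg i (by omega)] at h2
        have h3 : X / 64 ^ i % 64 < 64 := Nat.mod_lt _ (by norm_num)
        rw [c16_dg i (by omega)]
        omega
  intro i hi
  have h1 := key 64 le_rfl i hi
  rw [c16_dg i hi] at h1
  have h2 := hbit i hi
  rw [nocarry (b := 64) (by norm_num) 64 (key 64 le_rfl) i hi.le, Nat.add_mod, c16_dg i hi] at h2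
  omega

theorem mid_dg {X : ℕ} (h : midOK X = true) (a b : ℕ) (ha : a < 8) (hb : b < 8) :
    16 ≤ dg X a b ∧ dg X a b ≤ 47 := by
  rw [dg_eq]
  exact mid_spec h _ (by omega)

/-! ### words -/

theorem clr_le (W x : ℕ) : qd W x * 16 ^ x ≤ W := by
  rw [qd_eq]
  calc W / 16 ^ x % 16 * 16 ^ x ≤ W / 16 ^ x * 16 ^ x := Nat.mul_le_mul_right _ (Nat.mod_le _ _)
    _ ≤ W := Nat.div_mul_le_self _ _

theorem clr_qd (W x i : ℕ) : qd (W - qd W x * 16 ^ x) i = if i = x then 0 else qd W i := by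
  have hx : W = W % 16 ^ x + 16 ^ x * (qd W x + 16 * (W / 16 ^ x / 16)) := by
    rw [qd_eq, Nat.mod_add_div, Nat.mod_add_div]
  have hlo : W % 16 ^ x < 16 ^ x := Nat.mod_lt _ (by positivity)
  have hsub : W - qd W x * 16 ^ x = W % 16 ^ x + 16 ^ x * (16 * (W / 16 ^ x / 16)) := by
    have h1 := clr_le W x
    have h2 : W = (W % 16 ^ x + 16 ^ x * (16 * (W / 16 ^ x / 16))) + qd W x * 16 ^ x := by
      conv_lhs => rw [hx]
      ring
    omega
  rw [hsub]
  rcases Nat.lt_trichotomy i x with h | h | h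
  · rw [if_neg h.ne, qd_eq, qd_eq, low_dg (by norm_num) h]
    conv_rhs => rw [hx, low_dg (by norm_num) h]
  · rw [if_pos h, h, qd_eq, high_dg hlo, Nat.mul_mod_right]
  · rw [if_neg h.ne', qd_eq, qd_eq]
    obtain ⟨j, rfl⟩ : ∃ j, i = x + 1 + j := ⟨i - (x + 1), by omega⟩
    have e : (16 : ℕ) ^ (x + 1 + j) = 16 ^ x * (16 * 16 ^ j) := by rw [pow_add, pow_succ]; ring
    have e1 : (W % 16 ^ x + 16 ^ x * (16 * (W / 16 ^ x / 16))) / 16 ^ (x + 1 + j)
        = W / 16 ^ x / 16 / 16 ^ j := by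
      rw [e, ← Nat.div_div_eq_div_mul, high_dg hlo, ← Nat.div_div_eq_div_mul,
        Nat.mul_div_cancel_left _ (by norm_num)]
    rw [e1, e, ← Nat.div_div_eq_div_mul, ← Nat.div_div_eq_div_mul]

/-- word of the slot `x`, in its place. -/
def clrW (X x : ℕ) : ℕ := Nat.shiftLeft (qd (wp X) x) (Nat.add 384 (Nat.mul 4 x))

theorem clrW_eq (X x : ℕ) : clrW X x = 64 ^ 64 * (qd (wp X) x * 16 ^ x) := by
  have h : clrW X x = qd (wp X) x <<< (6 * 64 + 4 * x) := rfl
  rw [h, Nat.shiftLeft_eq, pow_add, pw64, pow_mul, show (2 : ℕ) ^ 4 = 16 by norm_num]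
  generalize (64 : ℕ) ^ 64 = Z
  ring

/-- `64 ^ (8 a + b)`. -/
def bt (a b : ℕ) : ℕ := Nat.shiftLeft 1 (Nat.add (Nat.mul 48 a) (Nat.mul 6 b))

theorem bt_eq (a b : ℕ) : bt a b = 64 ^ (8 * a + b) := by
  have h : bt a b = 1 <<< (48 * a + 6 * b) := rfl
  rw [h, Nat.shiftLeft_eq, one_mul, show 48 * a + 6 * b = 6 * (8 * a + b) by ring, pw64]

/-! ### adding a unit of flow -/

/-- one more unit of flow from `a` to `b`. -/
def addF (X a b : ℕ) : ℕ := Nat.sub (Nat.add X (bt a b)) (bt b a)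

theorem addF_dg {X a b : ℕ} (hX : midOK X = true) (ha : a < 8) (hb : b < 8) :
    (∀ p < 8, ∀ q < 8, (dg (addF X a b) p q : ℤ) = dg X p q
      + ((if p = a ∧ q = b then 1 else 0) - (if p = b ∧ q = a then 1 else 0))) ∧
      wp (addF X a b) = wp X := by
  unfold addF
  refine dig_upd (W' := 0) ?_ (by simp) (fun p _ q _ => rfl) ?_
  · rw [S2_sub (fun p q => if p = a ∧ q = b then 1 else 0), S2_one ha hb, S2_one hb ha, bt_eq,
      bt_eq, mul_zero, add_zero]
    push_cast
    rfl
  · intro p hp q hq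
    have := mid_dg hX p q hp hq
    split_ifs <;> omega

/-! ### moving a slot -/

/-- the flows of `w` are moved to `y`, the slot `w` is emptied. -/
def mvF (X w y : ℕ) : ℕ :=
  let R := Nat.land (Nat.shiftRight X (Nat.mul 48 w)) rowmask
  let L := Nat.land (Nat.shiftRight X (Nat.mul 6 w)) colmask
  Nat.sub (Nat.add X (Nat.add (Nat.add (Nat.shiftLeft R (Nat.mul 48 y)) (Nat.shiftLeft L (Nat.mul 6 y)))
      (Nat.add (Nat.shiftLeft c32r (Nat.mul 48 w)) (Nat.shiftLeft c32c (Nat.mul 6 w)))))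
    (Nat.add (Nat.add (Nat.add (Nat.shiftLeft R (Nat.mul 48 w)) (Nat.shiftLeft L (Nat.mul 6 w)))
      (Nat.add (Nat.shiftLeft c32r (Nat.mul 48 y)) (Nat.shiftLeft c32c (Nat.mul 6 y)))) (clrW X w))

/-- the slot `w` is emptied. -/
def erF (X w : ℕ) : ℕ :=
  let R := Nat.land (Nat.shiftRight X (Nat.mul 48 w)) rowmask
  let L := Nat.land (Nat.shiftRight X (Nat.mul 6 w)) colmask
  Nat.sub (Nat.add X (Nat.add (Nat.shiftLeft c32r (Nat.mul 48 w)) (Nat.shiftLeft c32c (Nat.mul 6 w))))
    (Nat.add (Nat.add (Nat.shiftLeft R (Nat.mul 48 w)) (Nat.shiftLeft L (Nat.mul 6 w))) (clrW X w))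

theorem c32r_eq : (c32r : ℤ) = ∑ b ∈ range 8, (32 : ℤ) * 64 ^ b := by
  unfold c32r; norm_num [sum_range_succ]

theorem c32c_eq : (c32c : ℤ) = ∑ a ∈ range 8, (32 : ℤ) * 64 ^ (8 * a) := by
  unfold c32c; norm_num [sum_range_succ]

theorem shl6 (X k : ℕ) : ((Nat.shiftLeft X (Nat.mul 6 k) : ℕ) : ℤ) = 64 ^ k * X := by
  have h : Nat.shiftLeft X (Nat.mul 6 k) = X <<< (6 * k) := rfl
  rw [h, Nat.shiftLeft_eq, pw64]
  push_cast; ring

theorem shl48 (X k : ℕ) : ((Nat.shiftLeft X (Nat.mul 48 k) : ℕ) : ℤ) = 64 ^ (8 * k) * X := by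
  have h : Nat.shiftLeft X (Nat.mul 48 k) = X <<< (6 * (8 * k)) := by
    show X <<< (48 * k) = _
    congr 1; ring
  rw [h, Nat.shiftLeft_eq, pw64]
  push_cast; ring

/-- digits after moving. -/
def mvE (X w y p q : ℕ) : ℤ :=
  if p = w ∨ q = w then 32 else if p = y then (if q = y then 32 else (dg X y q : ℤ) + dg X w q - 32)
    else if q = y then (dg X p y : ℤ) + dg X p w - 32 else dg X p q

theorem mvF_dg {X w y : ℕ} (hX : midOK X = true) (hA : Asy 8 X) (hD : ∀ p < 8, dg X p p = 32)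
    (hw : w < 8) (hy : y < 8) (hwy : w ≠ y) :
    (∀ p < 8, ∀ q < 8, (dg (mvF X w y) p q : ℤ) = mvE X w y p q) ∧
      wp (mvF X w y) = wp X - qd (wp X) w * 16 ^ w := by
  have hE : ∀ p < 8, ∀ q < 8, mvE X w y p q = (dg X p q : ℤ)
      + (((if p = y then (dg X w q : ℤ) - 32 else 0) + (if q = y then (dg X p w : ℤ) - 32 else 0))
        - ((if p = w then (dg X w q : ℤ) - 32 else 0)
          + (if q = w then (dg X p w : ℤ) - 32 else 0))) := by
    intro p hp q hq
    have h1 := hD w hw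
    have h2 := hD y hy
    have h3 := hA w hw y hy hwy
    unfold mvE
    by_cases hpw : p = w
    · subst hpw
      rw [if_pos (Or.inl rfl), if_neg hwy, if_pos rfl]
      by_cases hqw : q = p
      · subst hqw
        rw [if_neg hwy, if_pos rfl]; omega
      · rw [if_neg hqw]
        split_ifs <;> omega
    · by_cases hqw : q = w
      · subst hqw
        rw [if_pos (Or.inr rfl), if_neg hpw, if_pos rfl, if_neg hwy]
        by_cases hpy : p = y
        · subst hpy; rw [if_pos rfl]; omega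
        · rw [if_neg hpy]; omega
      · rw [if_neg (by tauto), if_neg hpw, if_neg hqw]
        by_cases hpy : p = y
        · subst hpy
          rw [if_pos rfl, if_pos rfl]
          by_cases hqy : q = p
          · subst hqy
            rw [if_pos rfl, if_pos rfl]; omega
          · rw [if_neg hqy, if_neg hqy]; omega
        · rw [if_neg hpy, if_neg hpy]
          by_cases hqy : q = y
          · subst hqy; rw [if_pos rfl, if_pos rfl]; omega
          · rw [if_neg hqy, if_neg hqy]; omega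
  unfold mvF
  refine dig_upd (W' := -((qd (wp X) w * 16 ^ w : ℕ) : ℤ)) (F := fun p q =>
      (((if p = y then (dg X w q : ℤ) - 32 else 0) + (if q = y then (dg X p w : ℤ) - 32 else 0))
        - ((if p = w then (dg X w q : ℤ) - 32 else 0)
          + (if q = w then (dg X p w : ℤ) - 32 else 0)))) ?_ ?_ hE ?_
  · rw [S2_sub (fun p q => (if p = y then (dg X w q : ℤ) - 32 else 0)
        + (if q = y then (dg X p w : ℤ) - 32 else 0)),
      S2_add (fun p q => (if p = y then (dg X w q : ℤ) - 32 else 0)),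
      S2_add (fun p q => (if p = w then (dg X w q : ℤ) - 32 else 0)),
      S2_row hy (fun q => (dg X w q : ℤ) - 32), S2_row hw (fun q => (dg X w q : ℤ) - 32),
      S2_col hy (fun p => (dg X p w : ℤ) - 32), S2_col hw (fun p => (dg X p w : ℤ) - 32)]
    have e1 : ∑ b ∈ range 8, ((dg X w b : ℤ) - 32) * 64 ^ b
        = (Nat.land (Nat.shiftRight X (Nat.mul 48 w)) rowmask : ℕ) - (c32r : ℤ) := by
      rw [row_land, c32r_eq, ← sum_sub_distrib]
      exact sum_congr rfl fun b _ => by ring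
    have e2 : ∑ a ∈ range 8, ((dg X a w : ℤ) - 32) * 64 ^ (8 * a)
        = (Nat.land (Nat.shiftRight X (Nat.mul 6 w)) colmask : ℕ) - (c32c : ℤ) := by
      rw [col_sum, c32c_eq, ← sum_sub_distrib]
      exact sum_congr rfl fun b _ => by ring
    rw [e1, e2]
    simp only [Nat.add_eq, Nat.cast_add]
    rw [shl48, shl48, shl48, shl48, shl6, shl6, shl6, shl6, clrW_eq]
    rw [Nat.cast_mul (64 ^ 64), Nat.cast_pow, Nat.cast_ofNat]
    generalize (64 : ℤ) ^ 64 = Z
    ring
  · rw [Nat.cast_sub (clr_le _ _)]; ring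
  · intro p hp q hq
    have m1 := mid_dg hX p q hp hq
    have m2 := mid_dg hX w q hw hq
    have m3 := mid_dg hX p w hp hw
    have m4 := mid_dg hX y q hy hq
    have m5 := mid_dg hX p y hp hy
    unfold mvE
    split_ifs <;> omega

/-- digits after erasing. -/
def erE (X w p q : ℕ) : ℤ := if p = w ∨ q = w then 32 else dg X p q

theorem erF_dg {X w : ℕ} (hX : midOK X = true) (hD : ∀ p < 8, dg X p p = 32) (hw : w < 8) :
    (∀ p < 8, ∀ q < 8, (dg (erF X w) p q : ℤ) = erE X w p q) ∧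
      wp (erF X w) = wp X - qd (wp X) w * 16 ^ w := by
  have hE : ∀ p < 8, ∀ q < 8, erE X w p q = (dg X p q : ℤ)
      + (0 - ((if p = w then (dg X w q : ℤ) - 32 else 0)
          + (if q = w then (dg X p w : ℤ) - 32 else 0))) := by
    intro p hp q hq
    have h1 := hD w hw
    unfold erE
    by_cases hpw : p = w
    · subst hpw
      rw [if_pos (Or.inl rfl), if_pos rfl]
      by_cases hqw : q = p
      · subst hqw
        rw [if_pos rfl]; omega
      · rw [if_neg hqw]; omega
    · by_cases hqw : q = w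
      · subst hqw
        rw [if_pos (Or.inr rfl), if_neg hpw, if_pos rfl]; omega
      · rw [if_neg (by tauto), if_neg hpw, if_neg hqw]; omega
  unfold erF
  refine dig_upd (W' := -((qd (wp X) w * 16 ^ w : ℕ) : ℤ)) (F := fun p q =>
      ((0 : ℤ) - ((if p = w then (dg X w q : ℤ) - 32 else 0)
          + (if q = w then (dg X p w : ℤ) - 32 else 0)))) ?_ ?_ hE ?_
  · rw [S2_sub (fun p q => (0 : ℤ)),
      S2_add (fun p q => (if p = w then (dg X w q : ℤ) - 32 else 0)),
      S2_row hw (fun q => (dg X w q : ℤ) - 32),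
      S2_col hw (fun p => (dg X p w : ℤ) - 32)]
    have e1 : ∑ b ∈ range 8, ((dg X w b : ℤ) - 32) * 64 ^ b
        = (Nat.land (Nat.shiftRight X (Nat.mul 48 w)) rowmask : ℕ) - (c32r : ℤ) := by
      rw [row_land, c32r_eq, ← sum_sub_distrib]
      exact sum_congr rfl fun b _ => by ring
    have e2 : ∑ a ∈ range 8, ((dg X a w : ℤ) - 32) * 64 ^ (8 * a)
        = (Nat.land (Nat.shiftRight X (Nat.mul 6 w)) colmask : ℕ) - (c32c : ℤ) := by
      rw [col_sum, c32c_eq, ← sum_sub_distrib]
      exact sum_congr rfl fun b _ => by ring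
    have e3 : S2 (fun _ _ => (0 : ℤ)) = 0 := by unfold S2; simp
    rw [e1, e2, e3]
    simp only [Nat.add_eq, Nat.cast_add]
    rw [shl48, shl48, shl6, shl6, clrW_eq]
    rw [Nat.cast_mul (64 ^ 64), Nat.cast_pow, Nat.cast_ofNat]
    generalize (64 : ℤ) ^ 64 = Z
    ring
  · rw [Nat.cast_sub (clr_le _ _)]; ring
  · intro p hp q hq
    have m1 := mid_dg hX p q hp hq
    unfold erE
    split_ifs <;> omega

/-! ### representation of a graph -/

/-- `X` represents the graph `(col, lab, f)`. -/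
structure Rpr (c X : ℕ) (col : Fin 8 → Option (Fin c)) (lab : Fin 8 → Bool)
    (f : Fin 8 → Fin 8 → ℤ) : Prop where
  asy : Asy 8 X
  dia : ∀ p < 8, dg X p p = 32
  wok : Wok 8 c X
  cl : ∀ p, colB 8 c X p = col p
  lb : ∀ p, col p ≠ none → labB 8 X p = lab p
  nt : ∀ p q : Fin 8, p ≠ q → col p ≠ none → col q ≠ none →
    net f p q = (dg X p q : ℤ) - 32

theorem Rpr.val (hB : IsMUBs B) {X : ℕ} {col : Fin 8 → Option (Fin c)} {lab : Fin 8 → Bool}
    {f : Fin 8 → Fin 8 → ℤ} (h : Rpr c X col lab f) : (gv B col lab f).re = vB B 8 c X := by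
  unfold vB
  refine re_rec hB col _ lab _ f _ (Equiv.refl _) (Equiv.refl _) false ?_ ?_ ?_
  · intro p
    show (colB 8 c X p).map id = col p
    rw [Option.map_id]; exact h.cl p
  · intro p hp
    exact h.lb p hp
  · intro p q hp hq hpq
    have hne : p ≠ q := fun h' => hpq (by rw [h'])
    show net (flB 8 X) p q = _
    rw [net_flB h.asy p q hne, h.nt p q hne hp hq]
    simp

/-- the graph of a number. -/
theorem Rpr.self {X : ℕ} (hA : Asy 8 X) (hD : ∀ p < 8, dg X p p = 32) (hW : Wok 8 c X) :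
    Rpr c X (colB 8 c X) (labB 8 X) (flB 8 X) :=
  ⟨hA, hD, hW, fun _ => rfl, fun _ _ => rfl, fun p q hpq _ _ => net_flB hA p q hpq⟩

theorem Rpr.addF {X : ℕ} {col : Fin 8 → Option (Fin c)} {lab : Fin 8 → Bool}
    {f : Fin 8 → Fin 8 → ℤ} (h : Rpr c X col lab f) (hX : midOK X = true) (a b : Fin 8)
    (hab : a ≠ b) : Rpr c (addF X a b) col lab (addE f a b) := by
  obtain ⟨h1, h2⟩ := addF_dg hX a.2 b.2
  have hab' : (a : ℕ) ≠ b := fun h' => hab (Fin.ext h')
  refine ⟨?_, ?_, ?_, ?_, ?_, ?_⟩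
  · intro p hp q hq hpq
    have e1 := h1 p hp q hq
    have e2 := h1 q hq p hp
    have e3 := h.asy p hp q hq hpq
    have : ((dg (E.addF X a b) p q + dg (E.addF X a b) q p : ℕ) : ℤ) = 64 := by
      push_cast
      rw [e1, e2]
      have c1 : (if q = (a : ℕ) ∧ p = (b : ℕ) then (1 : ℤ) else 0)
          = (if p = (b : ℕ) ∧ q = (a : ℕ) then 1 else 0) := if_congr and_comm rfl rfl
      have c2 : (if q = (b : ℕ) ∧ p = (a : ℕ) then (1 : ℤ) else 0)
          = (if p = (a : ℕ) ∧ q = (b : ℕ) then 1 else 0) := if_congr and_comm rfl rfl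
      rw [c1, c2]; omega
    exact_mod_cast this
  · intro p hp
    have e1 := h1 p hp p hp
    have e2 := h.dia p hp
    rw [if_neg (fun h' => hab' (h'.1.symm.trans h'.2)),
      if_neg (fun h' => hab' (h'.2.symm.trans h'.1))] at e1
    omega
  · intro p hp; rw [h2]; exact h.wok p hp
  · intro p
    rw [← h.cl p]; unfold colB; rw [h2]
  · intro p hp
    rw [← h.lb p hp]; unfold labB; rw [h2]
  · intro p q hpq hp hq
    rw [net_addE, h.nt p q hpq hp hq, h1 p p.2 q q.2]
    have e1 : ∀ u v : Fin 8, ((u : ℕ) = v) ↔ u = v := fun u v => ⟨fun h => Fin.ext h, fun h => by rw [h]⟩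
    simp only [e1]
    ring

theorem colB_wp {X X' : ℕ} {w : Fin 8} (h : wp X' = wp X - qd (wp X) w * 16 ^ (w : ℕ)) :
    colB 8 c X' = era (colB 8 c X) w := by
  funext p
  unfold era colB
  rw [h, clr_qd]
  by_cases hp : p = w
  · subst hp
    rw [if_pos rfl, Function.update_self]
    exact H693.w2c_none (by norm_num)
  · rw [if_neg (fun h' => hp (Fin.ext h')), Function.update_of_ne hp]

theorem labB_wp {X X' : ℕ} {w : Fin 8} (h : wp X' = wp X - qd (wp X) w * 16 ^ (w : ℕ)) (p : Fin 8)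
    (hp : p ≠ w) : labB 8 X' p = labB 8 X p := by
  unfold labB
  rw [h, clr_qd, if_neg (fun h' => hp (Fin.ext h'))]

theorem Wok_wp {X X' : ℕ} {w : Fin 8} (h : wp X' = wp X - qd (wp X) w * 16 ^ (w : ℕ))
    (hW : Wok 8 c X) : Wok 8 c X' := by
  intro p hp
  rw [h, clr_qd]
  split_ifs
  · simp
  · exact hW p hp

theorem Rpr.mvF {X : ℕ} {col : Fin 8 → Option (Fin c)} {lab : Fin 8 → Bool}
    {f : Fin 8 → Fin 8 → ℤ} (h : Rpr c X col lab f) (hX : midOK X = true) (w y : Fin 8)
    (hwy : w ≠ y) (hw : col w ≠ none) : Rpr c (mvF X w y) (era col w) lab (mrg f w y) := by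
  have hwy' : (w : ℕ) ≠ y := fun h' => hwy (Fin.ext h')
  obtain ⟨h1, h2⟩ := mvF_dg hX h.asy h.dia w.2 y.2 hwy'
  have hera : ∀ p, era col w p ≠ none → p ≠ w ∧ col p ≠ none := by
    intro p hp
    unfold era at hp
    by_cases hpw : p = w
    · subst hpw; rw [Function.update_self] at hp; exact absurd rfl hp
    · rw [Function.update_of_ne hpw] at hp; exact ⟨hpw, hp⟩
  refine ⟨?_, ?_, Wok_wp h2 h.wok, ?_, ?_, ?_⟩
  · intro p hp q hq hpq
    have e1 := h1 p hp q hq
    have e2 := h1 q hq p hp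
    have a1 := h.asy p hp q hq hpq
    have : ((dg (E.mvF X w y) p q + dg (E.mvF X w y) q p : ℕ) : ℤ) = 64 := by
      push_cast
      rw [e1, e2]
      unfold mvE
      by_cases hpw : p = (w : ℕ)
      · rw [if_pos (Or.inl hpw), if_pos (Or.inr hpw)]; norm_num
      · by_cases hqw : q = (w : ℕ)
        · rw [if_pos (Or.inr hqw), if_pos (Or.inl hqw)]; norm_num
        · have o1 : ¬ (p = (w : ℕ) ∨ q = (w : ℕ)) := by omega
          have o2 : ¬ (q = (w : ℕ) ∨ p = (w : ℕ)) := by omega
          rw [if_neg o1, if_neg o2]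
          by_cases hpy : p = (y : ℕ)
          · have hqy : q ≠ (y : ℕ) := fun h' => hpq (hpy.trans h'.symm)
            rw [if_pos hpy, if_neg hqy, if_neg hqy, if_pos hpy]
            have a2 := h.asy y y.2 q hq (fun h' => hqy h'.symm)
            have a3 := h.asy w w.2 q hq (fun h' => hqw h'.symm)
            omega
          · rw [if_neg hpy, if_neg hpy]
            by_cases hqy : q = (y : ℕ)
            · rw [if_pos hqy, if_pos hqy]
              have a2 := h.asy y y.2 p hp (fun h' => hpy h'.symm)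
              have a3 := h.asy w w.2 p hp (fun h' => hpw h'.symm)
              omega
            · rw [if_neg hqy, if_neg hqy]; omega
    exact_mod_cast this
  · intro p hp
    have e1 := h1 p hp p hp
    have e2 := h.dia p hp
    unfold mvE at e1
    split_ifs at e1 <;> omega
  · intro p
    rw [colB_wp h2]
    unfold era
    by_cases hp : p = w
    · subst hp; rw [Function.update_self, Function.update_self]
    · rw [Function.update_of_ne hp, Function.update_of_ne hp]; exact h.cl p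
  · intro p hp
    obtain ⟨hpw, hp'⟩ := hera p hp
    rw [labB_wp h2 p hpw]; exact h.lb p hp'
  · intro p q hpq hp hq
    obtain ⟨hpw, hp'⟩ := hera p hp
    obtain ⟨hqw, hq'⟩ := hera q hq
    have hpw' : (p : ℕ) ≠ w := fun h' => hpw (Fin.ext h')
    have hqw' : (q : ℕ) ≠ w := fun h' => hqw (Fin.ext h')
    rw [net_mrg, h.nt p q hpq hp' hq', h1 p p.2 q q.2]
    unfold mvE
    have o1 : ¬ ((p : ℕ) = (w : ℕ) ∨ (q : ℕ) = (w : ℕ)) := by omega
    rw [if_neg o1]
    by_cases hpy : p = y
    · have hqy : q ≠ y := fun h' => hpq (hpy.trans h'.symm)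
      have hqy' : (q : ℕ) ≠ y := fun h' => hqy (Fin.ext h')
      rw [if_pos hpy, if_neg hqy, if_pos (congrArg Fin.val hpy), if_neg hqy',
        h.nt w q (Ne.symm hqw) hw hq', hpy]
      ring
    · have hpy' : (p : ℕ) ≠ y := fun h' => hpy (Fin.ext h')
      rw [if_neg hpy, if_neg hpy']
      by_cases hqy : q = y
      · rw [if_pos hqy, if_pos (congrArg Fin.val hqy), h.nt p w hpw hp' hw, hqy]
        ring
      · have hqy' : (q : ℕ) ≠ y := fun h' => hqy (Fin.ext h')
        rw [if_neg hqy, if_neg hqy']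
        ring

theorem Rpr.erF {X : ℕ} {col : Fin 8 → Option (Fin c)} {lab : Fin 8 → Bool}
    {f : Fin 8 → Fin 8 → ℤ} (h : Rpr c X col lab f) (hX : midOK X = true) (w : Fin 8) :
    Rpr c (erF X w) (era col w) lab f := by
  obtain ⟨h1, h2⟩ := erF_dg hX h.dia w.2
  have hera : ∀ p, era col w p ≠ none → p ≠ w ∧ col p ≠ none := by
    intro p hp
    unfold era at hp
    by_cases hpw : p = w
    · subst hpw; rw [Function.update_self] at hp; exact absurd rfl hp
    · rw [Function.update_of_ne hpw] at hp; exact ⟨hpw, hp⟩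
  refine ⟨?_, ?_, Wok_wp h2 h.wok, ?_, ?_, ?_⟩
  · intro p hp q hq hpq
    have e1 := h1 p hp q hq
    have e2 := h1 q hq p hp
    have a1 := h.asy p hp q hq hpq
    have : ((dg (E.erF X w) p q + dg (E.erF X w) q p : ℕ) : ℤ) = 64 := by
      push_cast
      rw [e1, e2]
      unfold erE
      by_cases hpw : p = (w : ℕ)
      · rw [if_pos (Or.inl hpw), if_pos (Or.inr hpw)]; norm_num
      · by_cases hqw : q = (w : ℕ)
        · rw [if_pos (Or.inr hqw), if_pos (Or.inl hqw)]; norm_num
        · have o1 : ¬ (p = (w : ℕ) ∨ q = (w : ℕ)) := by omega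
          have o2 : ¬ (q = (w : ℕ) ∨ p = (w : ℕ)) := by omega
          rw [if_neg o1, if_neg o2]; omega
    exact_mod_cast this
  · intro p hp
    have e1 := h1 p hp p hp
    have e2 := h.dia p hp
    unfold erE at e1
    split_ifs at e1 <;> omega
  · intro p
    rw [colB_wp h2]
    unfold era
    by_cases hp : p = w
    · subst hp; rw [Function.update_self, Function.update_self]
    · rw [Function.update_of_ne hp, Function.update_of_ne hp]; exact h.cl p
  · intro p hp
    obtain ⟨hpw, hp'⟩ := hera p hp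
    rw [labB_wp h2 p hpw]; exact h.lb p hp'
  · intro p q hpq hp hq
    obtain ⟨hpw, hp'⟩ := hera p hp
    obtain ⟨hqw, hq'⟩ := hera q hq
    have hpw' : (p : ℕ) ≠ w := fun h' => hpw (Fin.ext h')
    have hqw' : (q : ℕ) ≠ w := fun h' => hqw (Fin.ext h')
    rw [h.nt p q hpq hp' hq', h1 p p.2 q q.2]
    unfold erE
    have o1 : ¬ ((p : ℕ) = (w : ℕ) ∨ (q : ℕ) = (w : ℕ)) := by omega
    rw [if_neg o1]

end Vale.Agent.P355.H998.E
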