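import Vale.Agent.P355.H998.E.Pk
import Vale.Agent.P355.H147.Prod
import Vale.Agent.P355.H693.GRows

/-! Coloured graphs packed in one natural number: flows as a matrix of digits of 6 bits, words
(twice the colour plus one if labelled) above. Recognition by block permutation. -/

namespace Vale.Agent.P355.H998.E

open Finset Matrix Vale.Agent.P355 H147
open Vale.Agent.P355.H693 (net w2c re_rec pwp)

variable {m K c : ℕ} {B : Fin m → M6}

/-- the words. -/
def wp (X : ℕ) : ℕ := Nat.shiftRight X 384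

/-- colours. -/
def colB (K c X : ℕ) (p : Fin K) : Option (Fin c) := w2c c (qd (wp X) p)

/-- labels. -/
def labB (K X : ℕ) (p : Fin K) : Bool := qd (wp X) p % 2 == 1

/-- flows. -/
def flB (K X : ℕ) (p q : Fin K) : ℤ := if p < q then (dg X p q : ℤ) - 32 else 0

/-- value. -/
noncomputable def vB (B : Fin m → M6) (K c X : ℕ) : ℝ :=
  (gv B (colB K c X) (labB K X) (flB K X)).re

/-- antisymmetric flows. -/
def Asy (K X : ℕ) : Prop := ∀ p < K, ∀ q < K, p ≠ q → dg X p q + dg X q p = 64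

theorem net_flB {X : ℕ} (h : Asy K X) (p q : Fin K) (hpq : p ≠ q) :
    net (flB K X) p q = (dg X p q : ℤ) - 32 := by
  unfold net flB
  have h1 := h p p.2 q q.2 (fun h' => hpq (Fin.ext h'))
  rcases lt_or_gt_of_ne hpq with h2 | h2
  · rw [if_pos h2, if_neg (not_lt.2 h2.le), sub_zero]
  · rw [if_neg (not_lt.2 h2.le), if_pos h2]; omega

/-- image of a word under the permutation `t` of the colours. -/
def wim (t w : ℕ) : ℕ := Nat.add (Nat.mul 2 (qd t (Nat.shiftRight w 1))) (Nat.land w 1)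

/-- permuted words. -/
def pw (K W t q : ℕ) : ℕ := fl 4 (fun d => wim t (qd W d)) K q 0

theorem fl4_digit {f : ℕ → ℕ} (K q : ℕ) (hf : ∀ i < K, f (qd q (K - 1 - i)) < 16) (i : ℕ)
    (hi : i < K) : qd (fl 4 f K q 0) i = f (qd q (K - 1 - i)) := by
  have hb' : ∀ i < K, ∀ b, 4 ≤ b → (f (qd q (K - 1 - i))).testBit b = false := by
    intro i hi b hb
    refine Nat.testBit_lt_two_pow (lt_of_lt_of_le (hf i hi) ?_)
    calc (16 : ℕ) = 2 ^ 4 := by norm_num
      _ ≤ 2 ^ b := Nat.pow_le_pow_right (by norm_num) hb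
  apply Nat.eq_of_testBit_eq
  intro b
  rw [qd_testBit]
  by_cases hb : b < 4
  · simp only [hb, decide_true, Bool.true_and]
    apply Bool.eq_iff_iff.2
    rw [fl_testBit]
    constructor
    · rintro (⟨_, h⟩ | ⟨i', hi', h1, h2⟩)
      · simp at h
      · have h3 : 4 * i + b - 4 * i' < 4 := by
          by_contra h4
          rw [hb' _ hi' _ (not_lt.1 h4)] at h2
          exact absurd h2 (by simp)
        have : i' = i := by omega
        subst this
        rw [show 4 * i' + b - 4 * i' = b by omega] at h2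
        exact h2
    · intro h
      right
      refine ⟨i, hi, by omega, ?_⟩
      rw [show 4 * i + b - 4 * i = b by omega]; exact h
  · simp only [hb, decide_false, Bool.false_and]
    rw [hb' _ hi _ (not_lt.1 hb)]

theorem wim_eq (t w : ℕ) : wim t w = 2 * qd t (w / 2) + w % 2 := by
  have h1 : wim t w = 2 * qd t (w >>> 1) + (w &&& 1) := rfl
  rw [h1, Nat.shiftRight_eq_div_pow, Nat.and_one_is_mod, pow_one]

/-- the colour part of the check. -/
def ckT (c t : ℕ) : Bool := and (Nat.beq (qd t 0) 0) (isp (Nat.succ c) t)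

theorem ckT_spec {c t : ℕ} (h : ckT c t = true) :
    ∃ τ : Equiv.Perm (Fin c), ∀ p : Fin c, ((τ p : Fin c) : ℕ) + 1 = qd t (p + 1) := by
  unfold ckT at h
  rw [Bool.and_eq_true, Nat.beq_eq] at h
  obtain ⟨h0, h1⟩ := h
  obtain ⟨h2, h3⟩ := isp_spec h1
  have h4 : ∀ p < c, 0 < qd t (p + 1) := by
    intro p hp
    by_contra h5
    have h6 : qd t (p + 1) = 0 := by omega
    -- counting: the map is injective
    have hinj : Function.Injective (fun i : Fin (c + 1) => (⟨qd t i, h2 i i.2⟩ : Fin (c + 1))) := by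
      rw [Finite.injective_iff_surjective]
      intro j
      obtain ⟨i, hi, hj⟩ := h3 j j.2
      exact ⟨⟨i, hi⟩, Fin.ext hj⟩
    have h7 := @hinj ⟨p + 1, by omega⟩ ⟨0, by omega⟩ (Fin.ext (by simp [h6, h0]))
    exact absurd (congrArg Fin.val h7) (by simp)
  let g : Fin c → Fin c := fun p => ⟨qd t (p + 1) - 1, by
    have h5 := h2 (p + 1) (by have := p.2; omega)
    have h6 := h4 p p.2
    omega⟩
  have hs : Function.Surjective g := by
    intro j
    obtain ⟨i, hi, hj⟩ := h3 (j + 1) (by have := j.2; omega)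
    have hi0 : i ≠ 0 := by
      rintro rfl
      rw [h0] at hj; omega
    refine ⟨⟨i - 1, by omega⟩, Fin.ext ?_⟩
    show qd t (i - 1 + 1) - 1 = j
    rw [show i - 1 + 1 = i by omega, hj]; omega
  refine ⟨Equiv.ofBijective g (Finite.surjective_iff_bijective.1 hs), fun p => ?_⟩
  show qd t (p + 1) - 1 + 1 = _
  have := h4 p p.2
  omega

/-- mask of the value part. -/
def lowm : ℕ := Nat.sub (Nat.shiftLeft 1 384) 1

/-- recognition of the word `X` as the class `C`: placement `q`, colours `t`. -/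
def ckI (K c X q t C : ℕ) : Bool :=
  and (Nat.beq (prm K X q) (Nat.land C lowm))
    (and (Nat.beq (pw K (wp X) t q) (Nat.land (wp C) 4294967295))
      (and (isp K q) (ckT c t)))

theorem dg_lowm (C x y : ℕ) (hx : x < 8) (hy : y < 8) : dg (Nat.land C lowm) x y = dg C x y := by
  apply Nat.eq_of_testBit_eq
  intro b
  rw [dg_testBit, dg_testBit]
  by_cases hb : b < 6
  · have h : Nat.land C lowm = C &&& lowm := rfl
    have h2 : lowm = 2 ^ 384 - 1 := by
      show 1 <<< 384 - 1 = 2 ^ 384 - 1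
      rw [Nat.shiftLeft_eq, one_mul]
    rw [h, h2, Nat.testBit_and, Nat.testBit_two_pow_sub_one]
    have : 48 * x + 6 * y + b < 384 := by omega
    simp [this]
  · simp [hb]

theorem qd_mask (W i : ℕ) (hi : i < 8) : qd (Nat.land W 4294967295) i = qd W i := by
  apply Nat.eq_of_testBit_eq
  intro b
  rw [qd_testBit, qd_testBit]
  by_cases hb : b < 4
  · have h : Nat.land W 4294967295 = W &&& (2 ^ 32 - 1) := by
      show W &&& 4294967295 = _
      norm_num
    rw [h, Nat.testBit_and, Nat.testBit_two_pow_sub_one]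
    have : 4 * i + b < 32 := by omega
    simp [this]
  · simp [hb]

/-- colours are at most `c`. -/
def Wok (K c X : ℕ) : Prop := ∀ p < K, qd (wp X) p / 2 ≤ c

/-- **Recognition.** -/
theorem ckI_sound (hB : IsMUBs B) (hK : K ≤ 8) (hc : c ≤ 7) {X q t C : ℕ} (hX : Asy K X)
    (hW : Wok K c X) (h : ckI K c X q t C = true) : vB B K c X = vB B K c C := by
  unfold ckI at h
  rw [Bool.and_eq_true, Bool.and_eq_true, Bool.and_eq_true, Nat.beq_eq, Nat.beq_eq] at h
  obtain ⟨h1, h2, h3, h4⟩ := h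
  obtain ⟨τ, hτ⟩ := ckT_spec h4
  have ht0 : qd t 0 = 0 := by
    unfold ckT at h4
    rw [Bool.and_eq_true, Nat.beq_eq] at h4; exact h4.1
  obtain ⟨ht1, _⟩ := isp_spec (show isp (Nat.succ c) t = true by
    unfold ckT at h4
    rw [Bool.and_eq_true] at h4; exact h4.2)
  obtain ⟨hq1, hq2⟩ := isp_spec h3
  -- the permutation of the slots
  have hqv : ∀ i < K, qv K q i < K := fun i hi => hq1 _ (by omega)
  let ρ : Fin K → Fin K := fun i => ⟨qv K q i, hqv i i.2⟩
  have hρ : Function.Bijective ρ := by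
    rw [← Finite.surjective_iff_bijective]
    intro j
    obtain ⟨i, hi, hj⟩ := hq2 j j.2
    refine ⟨⟨K - 1 - i, by omega⟩, Fin.ext ?_⟩
    show qd q (K - 1 - (K - 1 - i)) = j
    rw [show K - 1 - (K - 1 - i) = i by omega, hj]
  let σ : Equiv.Perm (Fin K) := (Equiv.ofBijective ρ hρ).symm
  have hσ : ∀ p, ρ (σ p) = p := fun p => (Equiv.ofBijective ρ hρ).apply_symm_apply p
  -- digits of the class
  have hdg : ∀ i j : Fin K, dg C i j = dg X (ρ i) (ρ j) := by
    intro i j
    rw [← dg_lowm C i j (lt_of_lt_of_le i.2 hK) (lt_of_lt_of_le j.2 hK), ← h1,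
      dg_prm K X q i j hK (fun i hi => lt_of_lt_of_le (hqv i hi) hK) i.2 j.2]
  have hw16 : ∀ d < K, wim t (qd (wp X) d) < 16 := by
    intro d hd
    rw [wim_eq]
    have h5 := ht1 (qd (wp X) d / 2) (Nat.lt_succ_of_le (hW d hd))
    omega
  have hwd : ∀ i : Fin K, qd (wp C) i = wim t (qd (wp X) (ρ i)) := by
    intro i
    rw [← qd_mask (wp C) i (lt_of_lt_of_le i.2 hK), ← h2]
    exact fl4_digit (f := fun d => wim t (qd (wp X) d)) K q (fun j hj => hw16 _ (hqv j hj)) i i.2
  -- colours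
  have hmap : ∀ w, w / 2 ≤ c → w2c c (wim t w) = (w2c c w).map τ := by
    intro w hw
    have e1 : wim t w / 2 = qd t (w / 2) := by rw [wim_eq]; omega
    by_cases h0 : w / 2 = 0
    · have h9 : ¬ (0 < wim t w / 2 ∧ wim t w / 2 - 1 < c) := by rw [e1, h0, ht0]; simp
      have h5 : ¬ (0 < w / 2 ∧ w / 2 - 1 < c) := by rw [h0]; simp
      unfold w2c
      rw [dif_neg h9, dif_neg h5]; rfl
    · have h5 : 0 < w / 2 ∧ w / 2 - 1 < c := by omega
      have h6 := hτ ⟨w / 2 - 1, h5.2⟩
      have h7 : (w / 2 - 1) + 1 = w / 2 := by omega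
      simp only [h7] at h6
      have h8 := (τ ⟨w / 2 - 1, h5.2⟩).2
      have h9 : 0 < wim t w / 2 ∧ wim t w / 2 - 1 < c := by rw [e1]; omega
      unfold w2c
      rw [dif_pos h9, dif_pos h5, Option.map_some]
      congr 1
      apply Fin.ext
      show wim t w / 2 - 1 = ((τ ⟨w / 2 - 1, h5.2⟩ : Fin c) : ℕ)
      omega
  have hcolC : ∀ i : Fin K, colB K c C i = (colB K c X (ρ i)).map τ := by
    intro i
    unfold colB
    rw [hwd i, hmap _ (hW _ (ρ i).2)]
  unfold vB
  refine re_rec hB (colB K c X) (colB K c C) (labB K X) (labB K C) (flB K X) (flB K C) σ τ.symm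
    false ?_ ?_ ?_
  · intro p
    rw [hcolC, hσ, Option.map_map]
    have : (⇑τ.symm ∘ ⇑τ) = id := by funext x; simp
    rw [this, Option.map_id]; rfl
  · intro p _
    unfold labB
    rw [hwd, hσ, wim_eq]
    congr 1
    omega
  · have hAC : Asy K C := by
      intro i hi j hj hij
      have e1 := hdg ⟨i, hi⟩ ⟨j, hj⟩
      have e2 := hdg ⟨j, hj⟩ ⟨i, hi⟩
      simp only at e1 e2
      rw [e1, e2]
      refine hX _ (ρ ⟨i, hi⟩).2 _ (ρ ⟨j, hj⟩).2 fun h' => hij ?_
      have := hρ.1 (Fin.ext h')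
      exact congrArg Fin.val this
    intro p q' hp hq' hpq
    have hne : p ≠ q' := fun h' => hpq (by rw [h'])
    have hne2 : σ p ≠ σ q' := fun h' => hne (σ.injective h')
    rw [net_flB hAC _ _ hne2, net_flB hX _ _ hne, hdg, hσ, hσ]
    simp

end Vale.Agent.P355.H998.E
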